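import Mathlib

/-! Input and output conventions. -/

namespace Vale.Agent.P319

open Polynomial

/-- The binary code of a list of natural numbers: every binary digit `b` is written `1 b`, and
every number is followed by `0`. -/
def code (l : List ℕ) : List Bool :=
  l.flatMap fun a => a.bits.flatMap (fun b => [true, b]) ++ [false]

/-- The polynomial over `ZMod p` with the given list of coefficients, constant term first. -/
noncomputable def toPoly (p : ℕ) (l : List ℕ) : (ZMod p)[X] :=
  ∑ i ∈ Finset.range l.length, C ((l.getD i 0 : ℕ) : ZMod p) * X ^ i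

/-- A list of lists written as one list: every list is preceded by its length. -/
def flat (L : List (List ℕ)) : List ℕ := L.flatMap fun g => g.length :: g

/-- The output `out` is the complete factorization of `f`: the leading coefficient followed by
the coefficient lists of the monic irreducible factors, repeated with multiplicity. -/
def IsFactorization (p : ℕ) (f : (ZMod p)[X]) (out : List ℕ) : Prop :=
  ∃ (c : ℕ) (L : List (List ℕ)), out = c :: flat L ∧
    f = C (c : ZMod p) * (L.map (toPoly p)).prod ∧
    ∀ g ∈ L, (toPoly p g).Monic ∧ Irreducible (toPoly p g)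

/-- For every prime power `ℓ ^ s ≤ n ^ 2` with `ℓ ≠ p` there is a prime `r ≤ B`, `r ≠ p`,
`r ≡ 1 mod ℓ ^ s`, modulo which `p` is not an `ℓ`-th power. -/
def AuxPrimes (p n B : ℕ) : Prop :=
  ∀ ℓ s : ℕ, ℓ.Prime → ℓ ≠ p → 0 < s → ℓ ^ s ≤ n ^ 2 →
    ∃ r : ℕ, r.Prime ∧ r ≤ B ∧ r ≠ p ∧ ℓ ^ s ∣ r - 1 ∧ ¬∃ x : ZMod r, x ^ ℓ = (p : ZMod r)

end Vale.Agent.P319
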