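import Vale.Agent.P319.Ops

/-! The factoring algorithm as a program on lists. -/

namespace Vale.Agent.P319

open Vale.Agent.Lib.PolyTime

/-- The global degree bound. -/
def wW (n : ℕ) : ℕ := 10 * (n * n * n)

/-- Indices of the unknowns of the lattice problem, by decreasing norm. -/
def lidx (ℓ n δ : ℕ) : List (ℕ × ℕ × ℕ) :=
  (List.range (wW n + 1)).reverse.flatMap fun k => (List.range ℓ).flatMap fun j =>
    ((mons ℓ (n - 1) ℓ (wW n)).filter fun q =>
      decide (ℓ * q.1 + (n - 1) * q.2 + (ℓ - j) * δ = k ∧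
        ℓ * q.1 + (n - 1) * q.2 ≤ j * δ + (ℓ - 1) * (n - 1))).map fun q => (j, q)

def nuL (ℓ n : ℕ) (ρ : List ℕ) : List ℕ :=
  (List.range ℓ).map fun a => ℓ * n + (ρ.take a).sum - a * (ρ.sum / ℓ)
def dL (ℓ n : ℕ) (ρ : List ℕ) : List ℕ := (nuL ℓ n ρ).map fun v => (v + n - 1) / n
def rhoL (ℓ n : ℕ) (ρ : List ℕ) : List ℕ := (nuL ℓ n ρ).map fun v => n * ((v + n - 1) / n) - v

namespace Ops

variable {α : Type} (o : Ops α)

def monT (ℓ n W : ℕ) : List (List (List α)) := (mons ℓ (n - 1) ℓ W).map (o.tmon ℓ (W + 1))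
/-- A spanning list of the elements of degree at most `wW n` of the ideal generated by `G`. -/
def close (ℓ n : ℕ) (F : List α) (G : List (List (List α))) : List (List (List α)) :=
  (o.solve ℓ ((o.monT ℓ n (wW n)).map fun u => [u])
    [(List.range (5 * wW n + 1)).flatMap fun a => (List.range ℓ).flatMap fun b =>
      G.map (o.tmul ℓ F (o.tmon ℓ (5 * wW n + 1) (a, b)))]).map
    fun c => o.lin ℓ c (o.monT ℓ n (wW n))
def mulI (ℓ n : ℕ) (F : List α) (G G' : List (List (List α))) : List (List (List α)) :=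
  o.close ℓ n F (G.flatMap fun g => G'.map (o.tmul ℓ F g))
/-- The partial products of the conjugates of an ideal. -/
def parts (ℓ n : ℕ) (F : List α) (ζ : α) (G : List (List (List α))) :
    List (List (List (List α))) :=
  (List.range ℓ).foldl (fun L j =>
    L ++ [o.mulI ℓ n F (L.getLastD []) (G.map (o.ttau ℓ (o.pow ζ j)))]) [o.monT ℓ n (wW n)]
def hrows (ℓ n : ℕ) (F : List α) (ζ : α) (G : List (List (List α))) : List (List α) :=
  o.solve ℓ ((List.range (3 * (n * n) + 1)).map fun t =>
    [o.tmon ℓ (3 * (n * n) + 1) (3 * (n * n) - t, 0)]) [(o.parts ℓ n F ζ G).getD ℓ []]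
/-- The monic generator of the norm. -/
def hpol (ℓ n : ℕ) (F : List α) (ζ : α) (G : List (List (List α))) : List α :=
  o.prev (3 * (n * n) + 1) (o.last (o.hrows ℓ n F ζ G))
/-- Roots of the inverse of `h` at all roots of `F`. -/
def sroot (ℓ Q : ℕ) (F : List α) (w : α) (h : List α) : List α :=
  (o.quot (o.psm (o.inv (F.getLastD o.zero)) F) Q).root ℓ Q [w]
    ((o.quot (o.psm (o.inv (F.getLastD o.zero)) F) Q).inv h)
def litem (ℓ n : ℕ) (F : List α) (ζ : α) (s : List α) (t : ℕ × ℕ × ℕ) : List (List (List α)) :=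
  ((List.range ℓ).map fun j => if j = t.1 then o.tmon ℓ (wW n + 1) t.2 else []) ++
    (List.range ℓ).map fun k => o.tsm (o.pow ζ ((ℓ - t.1) * k))
      (o.tmul ℓ F (o.tpow ℓ F ℓ [s] t.1) (o.tmon ℓ (wW n + 1) t.2))
def lgen (ℓ n : ℕ) (F : List α) (Ds : List (List (List (List α)))) :
    List (List (List (List α))) :=
  ((List.range ℓ).map fun j => Ds.getD j []) ++ (List.range ℓ).map fun k =>
    (o.monT ℓ n (2 * wW n)).map (o.tmul ℓ F (o.tmon ℓ 1 (0, k)))
/-- The shortest vector of the lattice. -/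
def cs (ℓ n : ℕ) (F : List α) (ζ : α) (s : List α) (δ : ℕ) (Ds : List (List (List (List α)))) :
    List (List (List α)) :=
  (List.range ℓ).map fun j => o.lin ℓ
    (o.last (o.solve ℓ ((lidx ℓ n δ).map (o.litem ℓ n F ζ s)) (o.lgen ℓ n F Ds)))
    ((lidx ℓ n δ).map fun t => if j = t.1 then o.tmon ℓ (wW n + 1) t.2 else [])
/-- Generators of the divided ideal. -/
def egen (ℓ n : ℕ) (F : List α) (c : List (List (List α))) (Ds : List (List (List (List α)))) :
    List (List (List α)) :=
  (o.solve ℓ ((o.monT ℓ n (2 * (n * n))).map fun u =>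
      (List.range ℓ).map fun j => o.tmul ℓ F u (c.getD j []))
    ((List.range ℓ).map fun j => (Ds.getD j []).map (o.tmul ℓ F (c.getD 0 [])))).map
    fun l => o.lin ℓ l (o.monT ℓ n (2 * (n * n)))
/-- Generators of the ideal of a point at infinity. -/
def infG (ζ : α) (a : ℕ) : List (List (List α)) :=
  [[[o.zero, o.one]], [[o.neg (o.pow ζ a)], [o.one]]]
def addInf (ℓ n : ℕ) (F : List α) (ζ : α) (d : List ℕ) (G : List (List (List α))) :
    List (List (List α)) :=
  ((List.range ℓ).flatMap fun a => List.replicate (min (d.getD a 0) (2 * n)) a).foldl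
    (fun G a => o.mulI ℓ n F G (o.infG ζ a)) G

/-- Change of chart. -/
def conv (ℓ m M : ℕ) (θ : α) (z : List (List α)) : List (List α) :=
  (List.range ℓ).map fun b => o.pshift (o.neg θ) (o.prev (M + 1 - m * b) (z.getD b []))
/-- The leading coefficient at a branch point. -/
def lead (ℓ : ℕ) (θ : α) (z : List (List α)) : α :=
  o.first ((List.range (lmax (z.map List.length))).flatMap fun a =>
    (List.range ℓ).map fun b => (o.pshift θ (z.getD b [])).getD a o.zero)
/-- Trace over the roots of `f`. -/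
def trA (f a : List α) : α := (o.prem (o.pmul a (o.pder f)) f).getD (f.length - 2) o.zero
/-- Elementary symmetric functions from power sums. -/
def newton (ℓ n : ℕ) (f : List α) (ps : List (List (List α))) : List (List (List α)) :=
  (List.range n).foldl (fun es k => es ++ [o.tsm (o.inv (o.nat (k + 1)))
    (o.tsum ℓ ((List.range n).map fun i => if i ≤ k then
      o.tsm (if i % 2 = 0 then o.one else o.neg o.one)
        (o.tmul ℓ f (es.getD (k - i) []) (ps.getD i [])) else []))]) [[[o.one]]]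
/-- Norm over the roots of `f`. -/
def nrm (Q ℓ : ℕ) (f : List α) (z : List (List (List α))) : List (List α) :=
  (o.newton ℓ (f.length - 1) f ((List.range (f.length - 1)).map fun i =>
    ((o.quot f Q).tpow ℓ (f.map fun c => [c]) (f.length - 1) z (i + 1)).map
      fun a => a.map (o.trA f))).getD (f.length - 1) []
/-- The constant coefficient. -/
def toK (f a : List α) : α := (o.prem a f).getD 0 o.zero
/-- A shortest solution of `κ b z = a τ z`. -/
def psiP (ℓ n : ℕ) (f : List α) (ζ κ : α) (a b : List (List α)) : List (List α) :=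
  o.lin ℓ (o.last (o.solve ℓ (((mons 1 (n / ℓ) ℓ (wW n)).map (o.tmon ℓ (wW n + 1))).map fun u =>
    [o.tadd ℓ (o.tsm κ (o.tmul ℓ f b u)) (o.tsm (o.neg o.one) (o.tmul ℓ f a (o.ttau ℓ ζ u)))])
    [[]])) ((mons 1 (n / ℓ) ℓ (wW n)).map (o.tmon ℓ (wW n + 1)))
/-- A polynomial `U` with `U^ℓ N` proportional to `H`. -/
def uPol (ℓ W : ℕ) (N H : List α) : List α :=
  o.prev (W + 1) (o.last (o.solve 1 ((List.range (W + 1)).map fun t =>
    [[o.padd (o.psm (o.nat ℓ) (o.pmul (o.pmul N H) (o.pder (o.pmon (W + 1) (W - t)))))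
      (o.pmul (o.pmon (W + 1) (W - t)) (o.psub (o.pmul (o.pder N) H) (o.pmul N (o.pder H))))]])
    [[]]))
def psiN (ℓ n : ℕ) (f : List α) (ζ κ : α) (a b : List (List α)) (H : List α) : List (List α) :=
  o.tmul ℓ f [o.uPol ℓ (wW n) ((o.tprod ℓ f ((List.range ℓ).map fun j =>
    o.ttau ℓ (o.pow ζ j) (o.psiP ℓ n f ζ κ a b))).getD 0 []) H] (o.psiP ℓ n f ζ κ a b)

/-- The equation of the curve in the chart of the generic branch point. -/
def chartF (Q : ℕ) (f : List α) : List (List α) :=
  (o.quot f Q).prev (f.length - 1)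
    (((o.quot f Q).pshift [o.zero, o.one] (f.map fun c => [c])).drop 1)
def hdiag (Q ℓ : ℕ) (f : List α) (ζ : α) (G : List (List (List (List α)))) : List (List α) :=
  (o.quot f Q).diag ((o.quot f Q).hrows ℓ (f.length - 1) (o.chartF Q f) [ζ] G)
/-- The common degree. -/
def dl (nz : List α → Bool) (Q ℓ : ℕ) (f : List α) (ζ : α) (G : List (List (List (List α)))) :
    ℕ := ((o.hdiag Q ℓ f ζ G).filter fun a => !nz a).length
def csA (nz : List α → Bool) (Q ℓ : ℕ) (f : List α) (ζ w : α)
    (G : List (List (List (List α)))) : List (List (List (List α))) :=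
  (o.quot f Q).cs ℓ (f.length - 1) (o.chartF Q f) [ζ]
    ((o.quot f Q).sroot ℓ Q (o.chartF Q f) [w]
      ((o.quot f Q).hpol ℓ (f.length - 1) (o.chartF Q f) [ζ] G))
    (o.dl nz Q ℓ f ζ G) ((o.quot f Q).parts ℓ (f.length - 1) (o.chartF Q f) [ζ] G)
def nextG (nz : List α → Bool) (Q ℓ : ℕ) (f : List α) (ζ w : α)
    (G : List (List (List (List α)))) (ρ : List ℕ) : List (List (List (List α))) :=
  (o.quot f Q).addInf ℓ (f.length - 1) (o.chartF Q f) [ζ] (dL ℓ (f.length - 1) ρ)
    ((o.quot f Q).egen ℓ (f.length - 1) (o.chartF Q f) (o.csA nz Q ℓ f ζ w G)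
      ((o.quot f Q).parts ℓ (f.length - 1) (o.chartF Q f) [ζ] G))
def cN (nz : List α → Bool) (Q ℓ : ℕ) (f : List α) (ζ w : α)
    (G : List (List (List (List α)))) (j : ℕ) : List (List α) :=
  o.nrm Q ℓ f ((o.quot f Q).conv ℓ ((f.length - 1) / ℓ) (2 * wW (f.length - 1)) [o.zero, o.one]
    ((o.csA nz Q ℓ f ζ w G).getD j []))
def numA (nz : List α → Bool) (Q ℓ : ℕ) (f : List α) (ζ w : α)
    (G : List (List (List (List α)))) (ψ : List (List α)) : List (List α) :=
  o.tmul ℓ f ψ (o.cN nz Q ℓ f ζ w G 0)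
def denA (nz : List α → Bool) (Q ℓ : ℕ) (f : List α) (ζ w : α)
    (G : List (List (List (List α)))) : List (List α) :=
  o.tmul ℓ f (o.tpow ℓ f (wW (f.length - 1) + 1) [[], [o.one]] (o.dl nz Q ℓ f ζ G))
    (o.cN nz Q ℓ f ζ w G 1)
/-- The value of a quotient at the generic branch point. -/
def valA (Q ℓ : ℕ) (f : List α) (a b : List (List α)) : List α :=
  (o.quot f Q).mul ((o.quot f Q).lead ℓ [o.zero, o.one] (a.map fun q => q.map fun c => [c]))
    ((o.quot f Q).inv ((o.quot f Q).lead ℓ [o.zero, o.one] (b.map fun q => q.map fun c => [c])))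
def cands (Q ℓ : ℕ) (f : List α) (ζ w : α) (v : List α) : List (List α) :=
  (List.range ℓ).map fun a => (o.quot f Q).sub v
    [o.mul (o.root ℓ Q w (o.toK f ((o.quot f Q).pow v ℓ))) (o.pow ζ a)]
def hN (nz : List α → Bool) (Q ℓ : ℕ) (f : List α) (ζ : α) (G : List (List (List (List α)))) :
    List α :=
  (o.nrm Q ℓ f ((o.quot f Q).conv 1 0 (min (o.dl nz Q ℓ f ζ G) (wW (f.length - 1)))
    [o.zero, o.one] [(o.quot f Q).hpol ℓ (f.length - 1) (o.chartF Q f) [ζ] G])).getD 0 []
def nextP (nz : List α → Bool) (Q ℓ : ℕ) (f : List α) (ζ w : α)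
    (G : List (List (List (List α)))) (ρ : List ℕ) (ψ : List (List α)) : List (List α) :=
  o.psiN ℓ (f.length - 1) f ζ
    (o.toK f (o.valA Q ℓ f (o.numA nz Q ℓ f ζ w G ψ) (o.denA nz Q ℓ f ζ w G)))
    (o.numA nz Q ℓ f ζ w G ψ) (o.denA nz Q ℓ f ζ w G)
    (o.hN nz Q ℓ f ζ (o.nextG nz Q ℓ f ζ w G ρ))
def logA (nz : List α → Bool) (Q ℓ : ℕ) (f : List α) (ζ w : α)
    (G : List (List (List (List α)))) (ρ : List ℕ) (ψ : List (List α)) : List (List α) :=
  o.hdiag Q ℓ f ζ (o.nextG nz Q ℓ f ζ w G ρ) ++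
    o.cands Q ℓ f ζ w (o.valA Q ℓ f (o.numA nz Q ℓ f ζ w G ψ) (o.denA nz Q ℓ f ζ w G))
/-- One division step. -/
def step (nz : List α → Bool) (Q ℓ : ℕ) (f : List α) (ζ w : α)
    (s : List (List (List (List α))) × List ℕ × List (List α) × List (List α)) :
    List (List (List (List α))) × List ℕ × List (List α) × List (List α) :=
  (o.nextG nz Q ℓ f ζ w s.1 s.2.1, rhoL ℓ (f.length - 1) s.2.1,
    o.nextP nz Q ℓ f ζ w s.1 s.2.1 s.2.2.1, s.2.2.2 ++ o.logA nz Q ℓ f ζ w s.1 s.2.1 s.2.2.1)
def init (Q ℓ : ℕ) (f : List α) (ζ : α) :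
    List (List (List (List α))) × List ℕ × List (List α) × List (List α) :=
  ((o.quot f Q).infG [ζ] 0, (List.range ℓ).map fun a => if a = 0 then f.length - 1 else 0,
    [[o.one]], [])
/-- All test elements. -/
def logs (nz : List α → Bool) (Q ℓ : ℕ) (f : List α) (ζ w : α) : List (List α) :=
  ((List.range (f.length - 1)).foldl (fun s _ => o.step nz Q ℓ f ζ w s) (o.init Q ℓ f ζ)).2.2.2

def peval (a : List α) (c : α) : α := a.foldr (fun t s => o.add t (o.mul c s)) o.zero

end Ops

def trim (p : ℕ) (l : List ℕ) : List ℕ :=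
  ((l.map fun c => c % p).reverse.dropWhile fun c => decide (c = 0)).reverse
def mon (p : ℕ) (l : List ℕ) : List ℕ :=
  (oP p).psm ((oP p).inv ((trim p l).getLastD 0)) (trim p l)
def pgcd (p : ℕ) (a b : List ℕ) : List ℕ :=
  mon p ((List.range (b.length + 1)).foldl (fun (s : List ℕ × List ℕ) _ =>
    if s.2 = [] then s else (s.2, trim p ((oP p).prem s.1 (mon p s.2)))) (trim p a, trim p b)).1
/-- The first list that is a proper divisor by its length, or `f`. -/
def pick (f : List ℕ) (l : List (List ℕ)) : List ℕ :=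
  (l.find? fun g => decide (1 < g.length ∧ g.length < f.length)).getD f

/-- The field `F_p[X, Z] / (g(X), h(Z))`. -/
def oK (p Q : ℕ) (g h : List ℕ) : Ops (List (List ℕ)) :=
  ((oP p).quot g Q).quot (h.map fun c => [c]) Q
/-- The indicator of the support of `a` as a polynomial over the prime field. -/
def cls (p Q : ℕ) (g h f : List ℕ) (a : List (List (List ℕ))) : List ℕ :=
  (((oK p Q g h).quot (f.map fun c => [[c]]) Q).ind a).map fun c =>
    (((oK p Q g h).add c []).getD 0 []).getD 0 0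
def nzK (p Q : ℕ) (g h f : List ℕ) (a : List (List (List ℕ))) : Bool :=
  (cls p Q g h f a).any fun c => decide (c % p ≠ 0)
/-- A nonresidue, as a Lagrange resolvent. -/
def nonres (p Q q ℓ : ℕ) (g h : List ℕ) : List (List ℕ) :=
  (oK p Q g h).first ((List.range ℓ).map fun a => (oK p Q g h).sum ((List.range ℓ).map fun j =>
    (oK p Q g h).mul ((oK p Q g h).pow [[], [1]] (ℓ - j))
      ((oK p Q g h).pow ((oK p Q g h).pow [[0, 1]] a) (q ^ min j ℓ))))
def splitK (p Q q ℓ : ℕ) (g h f : List ℕ) : List ℕ :=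
  pick f (((oK p Q g h).logs (nzK p Q g h f) Q ℓ (f.map fun c => [[c]]) [[], [1]]
    (nonres p Q q ℓ g h)).map fun a => pgcd p f (cls p Q g h f a))
def splitG (p ℓ : ℕ) (g h f : List ℕ) : List ℕ :=
  splitK p (p ^ ((h.length - 1) * (g.length - 1))) (p ^ ((h.length - 1) * ((g.length - 1) / ℓ)))
    ℓ g h f
/-- The least prime factor of the degree. -/
def lpf (f : List ℕ) : ℕ :=
  min (((List.range f.length).find? fun d => decide (2 ≤ d ∧ (f.length - 1) % d = 0)).getD 0)
    f.length
/-- A proper factor of a split squarefree polynomial. -/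
def split (p : ℕ) (adv tab : List (List ℕ)) (f : List ℕ) : List ℕ :=
  splitG p (lpf f) (mon p (adv.getD (lpf f * ((f.length - 1) / Ops.cof (lpf f) f.length)) []))
    (tab.getD (lpf f) []) f
/-- A root of a split squarefree polynomial. -/
def rootF (p N : ℕ) (adv tab : List (List ℕ)) (u : List ℕ) : ℕ :=
  if p ≤ wW N then
    ((List.range (min p (wW N))).find? fun c => decide ((oP p).peval u c = 0)).getD 0
  else (oP p).neg (((List.range u.length).foldl
    (fun s _ => if s.length ≤ 2 then s else split p adv tab s) u).headD 0)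
/-- The minimal polynomial of `a` modulo `u`. -/
def minP (p : ℕ) (u a : List ℕ) : List ℕ :=
  mon p ((oP p).prev u.length ((oP p).last ((oP p).solve 1 ((List.range u.length).map fun t =>
    [[((oP p).quot0 u).pow a (u.length - 1 - t)]]) [[]])))
def trF (p d : ℕ) (u : List ℕ) (j : ℕ) : List ℕ :=
  ((oP p).quot0 u).sum ((List.range (min d u.length)).map fun i =>
    ((oP p).quot0 u).pow ((oP p).pmon u.length j) (p ^ min i u.length))
/-- A proper factor of a squarefree product of irreducible polynomials of degree `d`. -/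
def edf (p N : ℕ) (adv tab : List (List ℕ)) (d : ℕ) (u : List ℕ) : List ℕ :=
  pick u ((List.range u.length).map fun j =>
    pgcd p u ((oP p).psub (trF p d u j) [rootF p N adv tab (minP p u (trF p d u j))]))
def ddf (p : ℕ) (f : List ℕ) : ℕ × List ℕ :=
  (((List.range f.length).map fun d => (d + 1, pgcd p f
    ((oP p).psub (((oP p).quot0 f).pow [0, 1] (p ^ min (d + 1) f.length)) [0, 1]))).find?
    fun s => decide (1 < s.2.length)).getD (0, f)
/-- An irreducible factor. -/
def irrF (p N : ℕ) (adv tab : List (List ℕ)) (f : List ℕ) : List ℕ :=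
  (List.range f.length).foldl (fun s _ =>
    if s.length ≤ (ddf p f).1 + 1 then s else edf p N adv tab (ddf p f).1 s) (ddf p f).2
/-- Irreducible factors of the cyclotomic polynomials of prime order. -/
def table (p N : ℕ) (adv : List (List ℕ)) : List (List ℕ) :=
  (List.range (N + 1)).foldl (fun tab ℓ =>
    tab ++ [irrF p N adv tab (List.replicate (min ℓ N) 1)]) []
def facs (p N : ℕ) (adv tab : List (List ℕ)) (f : List ℕ) : List (List ℕ) :=
  ((List.range f.length).foldl (fun (s : List ℕ × List (List ℕ)) _ =>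
    if s.1.length ≤ 1 then s else (trim p ((oP p).pquo s.1 (irrF p N adv tab s.1)),
      irrF p N adv tab s.1 :: s.2)) (f, [])).2
/-- The leading coefficient and the monic irreducible factors. -/
def factor (p : ℕ) (adv : List (List ℕ)) (a : List ℕ) : ℕ × List (List ℕ) :=
  ((trim p a).getLastD 0, facs p ((trim p a).length - 1) adv
    (table p ((trim p a).length - 1) adv) (mon p a))

end Vale.Agent.P319
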