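import Vale.Agent.P319.Alg
import Vale.Agent.P319.Defs

/-! Irreducible polynomials from Gaussian periods, the whole program, and the predicates used in
the correctness proof of the outer loops. -/

namespace Vale.Agent.P319

open Polynomial

/-- The minimal polynomial of a Gaussian period. -/
def auxC (p d r : ℕ) : List ℕ :=
  minP p (List.replicate r 1)
    ((List.range r).map fun x => if (oP0 r).pow x ((r - 1) / d) = 1 then 1 else 0)
/-- Irreducible polynomials of all degrees for which a period works. -/
def advL (p N B : ℕ) : List (List ℕ) :=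
  (List.range (N * N + 1)).map fun d =>
    (((List.range (B + 1)).map fun r => auxC p d (min r B)).find? fun g =>
      decide (g.length = d + 1 ∧ (ddf p g).1 = d)).getD []
/-- The bound for the auxiliary primes. -/
def bnd (c p : ℕ) (a : List ℕ) : ℕ := ((trim p a).length * Nat.size p) ^ c
/-- The program. -/
def prog (c : ℕ) (l : List ℕ) : List ℕ :=
  (factor (l.headD 0) (advL (l.headD 0) ((trim (l.headD 0) l.tail).length - 1)
    (bnd c (l.headD 0) l.tail)) l.tail).1 ::
  flat (factor (l.headD 0) (advL (l.headD 0) ((trim (l.headD 0) l.tail).length - 1)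
    (bnd c (l.headD 0) l.tail)) l.tail).2

/-- The polynomial of a list over the prime field. -/
noncomputable abbrev tz (p : ℕ) (l : List ℕ) : (ZMod p)[X] := tp (Nat.cast : ℕ → ZMod p) l
/-- The list `l` is the exact coefficient list of the monic polynomial `q`. -/
def Can (p : ℕ) (l : List ℕ) (q : (ZMod p)[X]) : Prop :=
  tz p l = q ∧ q.Monic ∧ l.length = q.natDegree + 1
/-- The splitting routine works up to degree `M`. -/
def SplitOK (p N : ℕ) (adv tab : List (List ℕ)) (M : ℕ) : Prop :=
  wW N < p → ∀ f q, Can p f q → q ∣ X ^ p - X → 2 ≤ q.natDegree → q.natDegree ≤ M →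
    ∃ u, Can p (split p adv tab f) u ∧ u ∣ q ∧ 0 < u.natDegree ∧ u.natDegree < q.natDegree
/-- The list of irreducible polynomials of prime power degree is correct. -/
def AdvOK (p N : ℕ) (adv : List (List ℕ)) : Prop :=
  wW N < p → ∀ d, IsPrimePow d → d ≤ N * N →
    Irreducible (tz p (adv.getD d [])) ∧ (tz p (adv.getD d [])).natDegree = d
/-- The table of cyclotomic factors is correct up to `M`. -/
def TabOK (p N : ℕ) (tab : List (List ℕ)) (M : ℕ) : Prop :=
  wW N < p → ∀ ℓ, ℓ.Prime → ℓ ≤ M →
    ∃ q, Can p (tab.getD ℓ []) q ∧ Irreducible q ∧ q ∣ ∑ i ∈ Finset.range ℓ, X ^ i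
/-- Evaluation of an element of the two-step quotient. -/
noncomputable def phiK {𝕜 : Type} [Field 𝕜] (α ζ : 𝕜) (a : List (List ℕ)) : 𝕜 :=
  eval ζ (tp (fun b => eval α (tp (Nat.cast : ℕ → 𝕜) b)) a)

end Vale.Agent.P319
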