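import Vale.Agent.P319.Out1

/-! The ground field of the splitting routine. -/

namespace Vale.Agent.P319

open Polynomial Finset

variable {p : ℕ} [Fact p.Prime] {𝕜 : Type} [Field 𝕜] [Algebra (ZMod p) 𝕜] [CharP 𝕜 p]
  {g h f : List ℕ} {gq hq : (ZMod p)[X]} {α ζ : 𝕜} {k : ℕ}

theorem f1_mon {β γ R : Type} [Field R] {φ : β → R} {ψ : γ → R} {l : List β} (hl : IsMon φ l)
    (u : β → γ) (e : tp ψ (l.map u) = tp φ l) : IsMon ψ (l.map u) := by
  refine isMon_of_monic (e ▸ hl.monic.1) ?_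
  have := List.length_pos_iff.2 hl.1
  rw [e, hl.monic.2, List.length_map]
  omega

theorem khom_oK (hg : Can p g gq) (hh : Can p h hq) (hα : aeval α gq = 0) (hζ : aeval ζ hq = 0)
    (hk : 0 < k) (h1 : α ^ p ^ k = α) (h2 : ζ ^ p ^ k = ζ) :
    KHom (oK p (p ^ k) g h) (phiK α ζ) (p ^ k) := by
  have K1 := (khom_oP (R := 𝕜) p hk).quot hg.map.2
    (by rw [hg.map.1, eval_map_algebraMap, hα]) h1
  exact K1.quot (f1_mon hh.map.2 _ (tp_map_single α h))
    (by rw [tp_map_single, hh.map.1, eval_map_algebraMap, hζ]) h2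

omit [Fact p.Prime] [Algebra (ZMod p) 𝕜] [CharP 𝕜 p] in
theorem phiK_ζ (α ζ : 𝕜) : phiK α ζ [[], [1]] = ζ := by
  simp [phiK, tp]
omit [Fact p.Prime] [Algebra (ZMod p) 𝕜] [CharP 𝕜 p] in
theorem phiK_α (α ζ : 𝕜) : phiK α ζ [[0, 1]] = α := by
  simp [phiK, tp]
omit [Fact p.Prime] [Algebra (ZMod p) 𝕜] [CharP 𝕜 p] in
theorem tp_phiK (α ζ : 𝕜) (f : List ℕ) :
    tp (phiK α ζ) (f.map fun c => [[c]]) = tp (Nat.cast : ℕ → 𝕜) f := by
  rw [tp_map]
  congr 1
  funext c
  simp [phiK, tp]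

omit [CharP 𝕜 p] in
theorem pow_card_root (hg : Irreducible gq) (hα : aeval α gq = 0) (j : ℕ) :
    α ^ p ^ j = α ↔ gq.natDegree ∣ j := by
  rw [hg.natDegree_dvd_iff_dvd_X_pow_card_pow_sub_X, ← hg.dvd_iff_aeval_eq_zero hα,
    Nat.card_zmod, map_sub, map_pow, aeval_X, sub_eq_zero]

theorem f1_hom {R : Type} [Field R] (σ : R →+* R) (α ζ : R) (c : List (List ℕ)) :
    σ (phiK α ζ c) = phiK (σ α) (σ ζ) c := by
  rw [phiK, phiK, ← eval_map_apply, ← tp_comp]
  congr 2
  funext b
  rw [← eval_map_apply, ← tp_comp]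
  simp only [map_natCast]

omit [CharP 𝕜 p] in
theorem f1_tz (b : List ℕ) :
    tp (Nat.cast : ℕ → 𝕜) b = (tz p b).map (algebraMap (ZMod p) 𝕜) := by
  rw [← tp_comp]
  simp only [map_natCast]

theorem f1_inj (hh : Irreducible hq) (hζ : aeval ζ hq = 0) {a : ℕ}
    (hc : Nat.Coprime a hq.natDegree) :
    Set.InjOn (fun j => ζ ^ p ^ (a * j)) (range hq.natDegree) := by
  have key : ∀ i j, i ≤ j → j < hq.natDegree → ζ ^ p ^ (a * i) = ζ ^ p ^ (a * j) → i = j := by
    intro i j hij hj e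
    obtain ⟨t, rfl⟩ := Nat.exists_eq_add_of_le hij
    rw [mul_add, add_comm (a * i), pow_add, pow_mul ζ] at e
    have e2 : ζ = ζ ^ p ^ (a * t) := (iterateFrobenius 𝕜 p (a * i)).injective e
    have h1 := hc.symm.dvd_of_dvd_mul_left ((pow_card_root hh hζ _).1 e2.symm)
    have h2 := Nat.eq_zero_of_dvd_of_lt h1 (by omega)
    omega
  intro i hi j hj e
  rcases le_total i j with h1 | h1
  · exact key i j h1 (mem_range.1 hj) e
  · exact (key j i h1 (mem_range.1 hi) e.symm).symm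

omit [CharP 𝕜 p] in
theorem indep_K (hg : Irreducible gq) (hh : Irreducible hq) (hα : aeval α gq = 0)
    (hζ : aeval ζ hq = 0) (hc : Nat.Coprime gq.natDegree hq.natDegree) (c : List (List ℕ))
    (h1 : c.length ≤ hq.natDegree) (h2 : ∀ b ∈ c, b.length ≤ gq.natDegree) {t : ZMod p}
    (h3 : phiK α ζ c = algebraMap (ZMod p) 𝕜 t) : (((c.getD 0 []).getD 0 0 : ℕ) : ZMod p) = t := by
  have : CharP 𝕜 p := charP_of_injective_algebraMap (algebraMap (ZMod p) 𝕜).injective p
  have e1 : tp (fun b => eval α (tp (Nat.cast : ℕ → 𝕜) b)) c = C (algebraMap (ZMod p) 𝕜 t) := by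
    refine eq_of_degrees_lt_of_eval_index_eq _ (f1_inj hh hζ hc) ?_ ?_ fun j _ => ?_
    · rw [card_range]
      exact (degree_tp_lt c).trans_le (Nat.cast_le.2 h1)
    · rw [card_range]
      exact degree_C_le.trans_lt (Nat.cast_pos.2 hh.natDegree_pos)
    · have a1 := f1_hom (iterateFrobenius 𝕜 p (gq.natDegree * j)) α ζ c
      have a2 := RingHom.ext_zmod
        ((iterateFrobenius 𝕜 p (gq.natDegree * j)).comp (algebraMap (ZMod p) 𝕜))
        (algebraMap (ZMod p) 𝕜)
      rw [h3, ← RingHom.comp_apply, a2, iterateFrobenius_def, iterateFrobenius_def,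
        (pow_card_root hg hα _).2 (dvd_mul_right _ _)] at a1
      rw [eval_C]
      exact a1.symm
  have hb : (c.getD 0 []).length ≤ gq.natDegree := by
    rcases ts_getD_mem c 0 [] with h4 | h4
    · exact h2 _ h4
    · rw [h4]
      exact Nat.zero_le _
  have e2 : eval α (tp (Nat.cast : ℕ → 𝕜) (c.getD 0 [])) = algebraMap (ZMod p) 𝕜 t := by
    have := congrArg (coeff · 0) e1
    simp only [coeff_tp, coeff_C_zero] at this
    rw [← this]
    cases c <;> simp [vec, tp]
  have e3 : tz p (c.getD 0 []) - C t = 0 := by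
    refine eq_zero_of_dvd_of_degree_lt ((hg.dvd_iff_aeval_eq_zero hα).1 ?_) ?_
    · rw [map_sub, aeval_C, ← eval_map_algebraMap, ← f1_tz, e2, sub_self]
    · rw [degree_eq_natDegree hg.ne_zero]
      exact (degree_sub_le _ _).trans_lt (max_lt ((degree_tp_lt _).trans_le (Nat.cast_le.2 hb))
        (degree_C_le.trans_lt (Nat.cast_pos.2 hg.natDegree_pos)))
  have := congrArg (coeff · 0) (sub_eq_zero.1 e3)
  simp only [coeff_tp, coeff_C_zero] at this
  rw [← this]
  cases c.getD 0 [] <;> simp [vec]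

theorem f1_congr {β R : Type} [CommRing R] {φ ψ : β → R} {l : List β} (h : ∀ c ∈ l, φ c = ψ c) :
    tp φ l = tp ψ l := by
  induction l with
  | nil => rfl
  | cons c l ih =>
    rw [tp_cons, tp_cons, h c List.mem_cons_self, ih fun c hc => h c (List.mem_cons_of_mem _ hc)]

theorem f1_zero {β R : Type} [Field R] {φ : β → R} {l : List β} :
    tp φ l = 0 ↔ ∀ c ∈ l, φ c = 0 := by
  induction l with
  | nil => simp [tp]
  | cons c l ih =>
    rw [tp_cons, List.forall_mem_cons, ← ih]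
    refine ⟨fun h => ?_, fun h => by rw [h.1, h.2, map_zero, mul_zero, add_zero]⟩
    have h1 : φ c = 0 := by simpa using congrArg (eval 0) h
    rw [h1, map_zero, zero_add] at h
    exact ⟨h1, (mul_eq_zero.1 h).resolve_left X_ne_zero⟩

theorem f1_mem {β R : Type} [CommRing R] (φ : β → R) {l : List β} {c : β} (hc : c ∈ l) :
    ∃ j, (tp φ l).coeff j = φ c := by
  obtain ⟨j, hj, rfl⟩ := List.getElem_of_mem hc
  exact ⟨j, by simp [coeff_tp, vec, hj]⟩

theorem f1_prem {β : Type} (o : Ops β) (a m : List β) :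
    ∀ x ∈ o.prem a m, ∃ u v, x = o.add u v := by
  intro x hx
  cases a with
  | nil => exact absurd hx List.not_mem_nil
  | cons c a =>
    rw [os_prem_cons] at hx
    obtain ⟨i, _, rfl⟩ := List.mem_map.1 hx
    exact ⟨_, _, rfl⟩

open Classical in
theorem cls_spec (hg : Can p g gq) (hh : Can p h hq) (hg' : Irreducible gq)
    (hh' : Irreducible hq) (hα : aeval α gq = 0) (hζ : aeval ζ hq = 0)
    (hc : Nat.Coprime gq.natDegree hq.natDegree) {n : ℕ} (hn : 0 < n) (r : Fin n → 𝕜)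
    (hr : Function.Injective r) (hp : ∀ i, r i ^ p = r i)
    (hf : tp (Nat.cast : ℕ → 𝕜) f = ∏ i, (X - C (r i))) (hl : f.length = n + 1)
    (a : List (List (List ℕ))) :
    (∀ i, eval (r i) (tp (Nat.cast : ℕ → 𝕜) (cls p (p ^ (hq.natDegree * gq.natDegree)) g h f a)) =
      if eval (r i) (tp (phiK α ζ) a) = 0 then 0 else 1) ∧
    (nzK p (p ^ (hq.natDegree * gq.natDegree)) g h f a = false ↔
      ∀ i, eval (r i) (tp (phiK α ζ) a) = 0) := by
  have K := khom_oK hg hh hα hζ (Nat.mul_pos hh'.natDegree_pos hg'.natDegree_pos)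
    ((pow_card_root hg' hα _).2 (dvd_mul_left _ _))
    ((pow_card_root hh' hζ _).2 (dvd_mul_right _ _))
  have hQ : ∀ i j, r i ^ p ^ j = r i := fun i j => by
    induction j with
    | zero => rw [pow_zero, pow_one]
    | succ j ih => rw [pow_succ, pow_mul, ih, hp]
  set Q := p ^ (hq.natDegree * gq.natDegree) with hQd
  have hm : IsMon (phiK α ζ) (f.map fun c => [[c]]) := by
    refine isMon_of_monic ?_ ?_
    · rw [tp_phiK, hf]
      exact monic_prod_X_sub_C _ _
    · rw [tp_phiK, hf, List.length_map, hl, natDegree_finsetProd_X_sub_C_eq_card, card_univ,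
        Fintype.card_fin]
  set I := ((oK p Q g h).quot (f.map fun c => [[c]]) Q).ind a with hI
  have hv : ∀ i, eval (r i) (tp (phiK α ζ) I) =
      if eval (r i) (tp (phiK α ζ) a) = 0 then 0 else 1 := fun i =>
    (K.quot hm (by
      rw [tp_phiK, hf, eval_prod]
      exact prod_eq_zero (mem_univ i) (by simp)) (hQ i _)).toFHom.ind a
  have hd : (tp (phiK α ζ) I).degree < (univ : Finset (Fin n)).card := by
    have h1 : I.length ≤ (f.map fun c => [[c]]).length - 1 := length_prem_le _ _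
    rw [List.length_map, hl, Nat.add_sub_cancel] at h1
    rw [card_univ, Fintype.card_fin]
    exact (degree_tp_lt I).trans_le (Nat.cast_le.2 h1)
  have hfix : (tp (phiK α ζ) I).map (frobenius 𝕜 p) = tp (phiK α ζ) I := by
    refine eq_of_degrees_lt_of_eval_index_eq univ hr.injOn (degree_map_le.trans_lt hd) hd
      fun i _ => ?_
    have e : frobenius 𝕜 p (r i) = r i := hp i
    conv_lhs => rw [← e, eval_map_apply]
    rw [hv]
    split_ifs
    · exact map_zero _
    · exact map_one _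
  have e : tp (Nat.cast : ℕ → 𝕜) (cls p Q g h f a) = tp (phiK α ζ) I := by
    rw [cls, tp_map]
    refine f1_congr fun c hcI => ?_
    obtain ⟨j, hj⟩ := f1_mem (phiK α ζ) hcI
    have h1 : phiK α ζ c ^ p = phiK α ζ c := by
      rw [← hj, ← frobenius_def, ← coeff_map, hfix]
    obtain ⟨t, ht⟩ := (mem_bot_iff_intCast p 𝕜).1
      ((Subfield.mem_bot_iff_pow_eq_self 𝕜 p).2 h1)
    have h2 : phiK α ζ ((oK p Q g h).add c []) = algebraMap (ZMod p) 𝕜 t := by
      rw [K.add, map_intCast, ht]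
      exact add_eq_left.2 K.zero
    have h3 := indep_K hg' hh' hα hζ hc ((oK p Q g h).add c []) ((length_prem_le _ _).trans
      (by rw [List.length_map, hh.2.2, Nat.add_sub_cancel])) (fun b hb => by
        obtain ⟨u, v, rfl⟩ := f1_prem _ _ _ b hb
        exact (length_prem_le _ _).trans (by rw [hg.2.2, Nat.add_sub_cancel])) h2
    rw [← ht, ← map_natCast (algebraMap (ZMod p) 𝕜), h3, map_intCast]
  refine ⟨fun i => by rw [e, hv], ?_⟩
  have h1 : nzK p Q g h f a = false ↔ tp (phiK α ζ) I = 0 := by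
    rw [← e, f1_zero, nzK, List.any_eq_false]
    simp only [decide_eq_true_eq, not_not, CharP.cast_eq_zero_iff 𝕜 p,
      Nat.dvd_iff_mod_eq_zero]
  rw [h1]
  refine ⟨fun h0 i => ?_, fun h0 => eq_zero_of_degree_lt_of_eval_index_eq_zero univ hr.injOn hd
    fun i _ => by rw [hv, if_pos (h0 i)]⟩
  by_contra h2
  have := hv i
  rw [if_neg h2, h0, eval_zero] at this
  exact zero_ne_one this

end Vale.Agent.P319
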