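import Vale.Agent.P319.Out2
import Vale.Agent.P319.Field1

/-! Gaussian periods give irreducible polynomials. -/

namespace Vale.Agent.P319

open Polynomial

theorem as_pow {r : ℕ} (hr : r.Prime) (x e : ℕ) :
    (oP0 r).pow x e = 1 ↔ (x : ZMod r) ^ e = 1 := by
  have h0 := hom_oP (R := ZMod r) r hr.pos
  have h : Hom (oP0 r) (Nat.cast : ℕ → ZMod r) := ⟨h0.zero, h0.one, h0.add, h0.mul, h0.neg⟩
  have hm : ∀ a : ℕ, a % max r 1 < r := fun a => by
    rw [max_eq_left hr.pos]; exact Nat.mod_lt _ hr.pos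
  have hlt : (oP0 r).pow x e < r := by
    rw [Ops.pow]
    cases e.bits with
    | nil => exact hm _
    | cons b l =>
      rw [List.foldr_cons]
      split_ifs <;> exact hm _
  rw [← h.pow x e, ← Nat.cast_one (R := ZMod r), ZMod.natCast_eq_natCast_iff',
    Nat.mod_eq_of_lt hlt, Nat.mod_eq_of_lt hr.one_lt]

theorem as_prim {ℓ s r : ℕ} [Fact r.Prime] (hℓ : ℓ.Prime) (hs : 0 < s) (h2 : ℓ ^ s ∣ r - 1)
    {y : ZMod r} (hy : y ≠ 0) (h3 : ¬∃ x : ZMod r, x ^ ℓ = y) :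
    IsPrimitiveRoot (y ^ ((r - 1) / ℓ ^ s)) (ℓ ^ s) := by
  have := Fact.mk hℓ
  obtain ⟨s, rfl⟩ := Nat.exists_eq_succ_of_ne_zero hs.ne'
  obtain ⟨e, he⟩ := h2
  have hd : 0 < ℓ ^ (s + 1) := pow_pos hℓ.pos _
  have e1 : (r - 1) / ℓ ^ (s + 1) = e := by rw [he, Nat.mul_div_cancel_left _ hd]
  have hr1 : 0 < r - 1 := Nat.sub_pos_of_lt (Fact.out : r.Prime).one_lt
  have he0 : 0 < e := Nat.pos_of_ne_zero (by rintro rfl; omega)
  rw [Nat.succ_eq_add_one, e1, ← orderOf_eq_prime_pow (x := y ^ e) (p := ℓ) (n := s) ?_ ?_]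
  · exact IsPrimitiveRoot.orderOf _
  · intro h
    obtain ⟨g, hg⟩ := IsCyclic.exists_monoid_generator (α := (ZMod r)ˣ)
    obtain ⟨m, hm⟩ := hg (Units.mk0 y hy)
    have ho : orderOf g = r - 1 := by
      rw [orderOf_eq_card_of_forall_mem_powers hg, Nat.card_eq_fintype_card, ZMod.card_units]
    have hm' : (g : ZMod r) ^ m = y := by
      simpa using congrArg Units.val hm
    have h4 : g ^ (m * e * ℓ ^ s) = 1 := by
      apply Units.ext
      rw [Units.val_pow_eq_pow_val, pow_mul, pow_mul, hm', h, Units.val_one]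
    have h5 := orderOf_dvd_of_pow_eq_one h4
    rw [ho, he, show ℓ ^ (s + 1) * e = ℓ * (e * ℓ ^ s) by ring, mul_assoc] at h5
    obtain ⟨t, rfl⟩ := Nat.dvd_of_mul_dvd_mul_right (mul_pos he0 (pow_pos hℓ.pos s)) h5
    exact h3 ⟨(g : ZMod r) ^ t, by rw [← hm', ← pow_mul, mul_comm]⟩
  · rw [← pow_mul, mul_comm, ← he, ZMod.pow_card_sub_one_eq_one hy]

/-- The Gaussian periods. -/
noncomputable def asEta {r : ℕ} [NeZero r] {K : Type} [Field K] (ψ : AddChar (ZMod r) K) (e : ℕ)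
    (k : ZMod r) : K :=
  ∑ x : ZMod r, if x ^ e = 1 then ψ (k * x) else 0

section Periods

variable {r : ℕ} [Fact r.Prime] {K : Type} [Field K] {ψ : AddChar (ZMod r) K} {e : ℕ}

theorem as_mul (k : ZMod r) {h : ZMod r} (he : 0 < e) (hh : h ^ e = 1) :
    asEta ψ e (k * h) = asEta ψ e k := by
  have h0 : h ≠ 0 := by
    rintro rfl
    rw [zero_pow he.ne'] at hh
    exact zero_ne_one hh
  refine Fintype.sum_equiv (Equiv.mulLeft₀ h h0) _ _ fun x => ?_
  rw [Equiv.mulLeft₀_apply, mul_pow, hh, one_mul, mul_assoc]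

theorem as_frob {p : ℕ} [Fact p.Prime] [CharP K p] (k : ZMod r) (j : ℕ) :
    asEta ψ e k ^ p ^ j = asEta ψ e (k * (p : ZMod r) ^ j) := by
  rw [asEta, sum_pow_char_pow]
  refine Finset.sum_congr rfl fun x _ => ?_
  split_ifs
  · rw [← AddChar.map_nsmul_eq_pow, nsmul_eq_mul, Nat.cast_pow]
    exact congrArg ψ (by ring)
  · exact zero_pow (pow_pos (Fact.out : p.Prime).pos j).ne'

theorem as_four (hψ : ψ.IsPrimitive) (he : 0 < e) (y : ZMod r) :
    ∑ k : ZMod r, asEta ψ e (k * y) * ψ (-k) = if y ^ e = 1 then (r : K) else 0 := by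
  have h1 : ∀ k, asEta ψ e (k * y) * ψ (-k) =
      ∑ x : ZMod r, if x ^ e = 1 then ψ (k * (y * x - 1)) else 0 := fun k => by
    rw [asEta, Finset.sum_mul]
    refine Finset.sum_congr rfl fun x _ => ?_
    split_ifs
    · rw [← AddChar.map_add_eq_mul]
      exact congrArg ψ (by ring)
    · exact zero_mul _
  have h2 : ∀ x : ZMod r, (∑ k : ZMod r, if x ^ e = 1 then ψ (k * (y * x - 1)) else 0) =
      if x = y⁻¹ then (if y ^ e = 1 then (r : K) else 0) else 0 := fun x => by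
    by_cases hx : x ^ e = 1
    · simp only [if_pos hx]
      rw [AddChar.sum_mulShift _ hψ, ZMod.card]
      by_cases hxy : y * x - 1 = 0
      · have h3 : y * x = 1 := sub_eq_zero.1 hxy
        have h4 : y ^ e = 1 := by
          have h5 := mul_pow y x e
          rw [h3, hx, one_pow, mul_one] at h5
          exact h5.symm
        rw [if_pos hxy, if_pos (eq_inv_of_mul_eq_one_right h3), if_pos h4]
      · rw [if_neg hxy, if_neg, Nat.cast_zero]
        rintro rfl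
        rcases eq_or_ne y 0 with rfl | hy
        · rw [inv_zero, zero_pow he.ne'] at hx
          exact zero_ne_one hx
        · exact hxy (by rw [mul_inv_cancel₀ hy, sub_self])
    · simp only [if_neg hx, Finset.sum_const_zero]
      split_ifs with h3 h4
      · exact absurd (by rw [h3, inv_pow, h4, inv_one]) hx
      · rfl
      · rfl
  simp only [h1]
  rw [Finset.sum_comm]
  simp only [h2]
  rw [Finset.sum_ite_eq' Finset.univ y⁻¹, if_pos (Finset.mem_univ _)]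

variable {p d : ℕ} [Fact p.Prime] [CharP K p]

theorem as_conj (hd : d * e = r - 1) (hπ : IsPrimitiveRoot ((p : ZMod r) ^ e) d)
    (hp : (p : ZMod r) ≠ 0) {k : ZMod r} (hk : k ≠ 0) :
    ∃ i : ℕ, ∀ y, asEta ψ e (k * y) = asEta ψ e y ^ p ^ i := by
  have hr1 : 0 < r - 1 := Nat.sub_pos_of_lt (Fact.out : r.Prime).one_lt
  have he : 0 < e := Nat.pos_of_ne_zero (by rintro rfl; omega)
  have : NeZero d := ⟨by rintro rfl; omega⟩
  obtain ⟨i, -, hi⟩ := hπ.eq_pow_of_pow_eq_one (ξ := k ^ e)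
    (by rw [← pow_mul, mul_comm, hd, ZMod.pow_card_sub_one_eq_one hk])
  refine ⟨i, fun y => ?_⟩
  have h0 : (p : ZMod r) ^ i ≠ 0 := pow_ne_zero _ hp
  rw [as_frob, ← as_mul (y * (p : ZMod r) ^ i) he (h := k / (p : ZMod r) ^ i)]
  · exact congrArg _ (by field_simp)
  · rw [div_pow, ← hi, pow_right_comm, div_self (pow_ne_zero _ h0)]

theorem as_fix (hψ : ψ.IsPrimitive) (hr : (r : K) ≠ 0) (hd : d * e = r - 1)
    (hπ : IsPrimitiveRoot ((p : ZMod r) ^ e) d) (hp : (p : ZMod r) ≠ 0) (j : ℕ) :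
    asEta ψ e 1 ^ p ^ j = asEta ψ e 1 ↔ d ∣ j := by
  have hr1 : 0 < r - 1 := Nat.sub_pos_of_lt (Fact.out : r.Prime).one_lt
  have he : 0 < e := Nat.pos_of_ne_zero (by rintro rfl; omega)
  rw [← hπ.pow_eq_one_iff_dvd, pow_right_comm, as_frob]
  refine ⟨fun h => ?_, fun h => as_mul 1 he h⟩
  have h1 : ∀ k : ZMod r, asEta ψ e (k * (p : ZMod r) ^ j) = asEta ψ e (k * 1) := fun k => by
    rcases eq_or_ne k 0 with rfl | hk
    · rw [zero_mul, zero_mul]
    · obtain ⟨i, hi⟩ := as_conj (ψ := ψ) hd hπ hp hk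
      rw [hi, hi, ← h, one_mul]
  have h2 := as_four hψ he ((p : ZMod r) ^ j)
  simp only [h1] at h2
  rw [as_four hψ he, if_pos (one_pow e)] at h2
  by_contra h3
  exact hr (h2.trans (if_neg h3))

omit [CharP K p] in
theorem as_eval [Algebra (ZMod p) K] {z : K} (hz : z ^ r = 1) (k : ℕ) :
    aeval (z ^ k) (tz p ((List.range r).map fun x => if (oP0 r).pow x e = 1 then 1 else 0)) =
      asEta (AddChar.zmodChar r hz) e k := by
  rw [tz, ts_tp_sum _ (A := r) (by simp), map_sum, asEta]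
  refine Finset.sum_nbij' (fun x : ℕ => (x : ZMod r)) ZMod.val (fun _ _ => Finset.mem_univ _)
    (fun x _ => Finset.mem_range.2 (ZMod.val_lt x))
    (fun x hx => ZMod.val_cast_of_lt (Finset.mem_range.1 hx))
    (fun x _ => ZMod.natCast_zmod_val x) fun x hx => ?_
  rw [vec_map_range, if_pos (Finset.mem_range.1 hx), ← Nat.cast_mul, AddChar.zmodChar_apply',
    pow_mul]
  by_cases h : (x : ZMod r) ^ e = 1
  · rw [if_pos h, if_pos ((as_pow Fact.out x e).2 h)]
    simp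
  · rw [if_neg h, if_neg fun h' => h ((as_pow Fact.out x e).1 h')]
    simp

end Periods

theorem as_dvd {F K : Type} [Field F] [Field K] [Algebra F K] [IsAlgClosed K] {q f : F[X]}
    (hq : q.Separable) (h : ∀ w : K, aeval w q = 0 → aeval w f = 0) : q ∣ f := by
  rcases eq_or_ne f 0 with rfl | hf
  · exact dvd_zero _
  rw [← map_dvd_map' (algebraMap F K), IsAlgClosed.dvd_iff_roots_le_roots
    (Polynomial.map_ne_zero hq.ne_zero) (Polynomial.map_ne_zero hf),
    Multiset.le_iff_subset (nodup_roots hq.map)]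
  intro w hw
  rw [mem_roots', IsRoot, eval_map_algebraMap] at hw ⊢
  exact ⟨Polynomial.map_ne_zero hf, h w hw.2⟩

variable {p : ℕ} [Fact p.Prime]

theorem as_root {K : Type} [Field K] [Algebra (ZMod p) K] {m : (ZMod p)[X]} {x : K}
    (h : aeval x m = 0) (i : ℕ) : aeval (x ^ p ^ i) m = 0 := by
  induction i with
  | zero => rwa [pow_zero, pow_one]
  | succ i ih =>
    have h1 := aeval_algHom_apply (FiniteField.frobeniusAlgHom (ZMod p) K) (x ^ p ^ i) m
    rw [ih, map_zero, FiniteField.coe_frobeniusAlgHom, ZMod.card] at h1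
    rwa [pow_succ, pow_mul]

theorem auxC_spec {ℓ s r : ℕ} (hℓ : ℓ.Prime) (hs : 0 < s) (hr : r.Prime) (h1 : r ≠ p)
    (h2 : ℓ ^ s ∣ r - 1) (h3 : ¬∃ x : ZMod r, x ^ ℓ = (p : ZMod r)) :
    ∃ q, Can p (auxC p (ℓ ^ s) r) q ∧ Irreducible q ∧ q.natDegree = ℓ ^ s := by
  have := Fact.mk hr
  have hp : (p : ZMod r) ≠ 0 := fun h =>
    h1 ((Nat.prime_dvd_prime_iff_eq hr Fact.out).1 ((ZMod.natCast_eq_zero_iff p r).1 h))
  have hr0 : (r : ZMod p) ≠ 0 := fun h =>
    h1 ((Nat.prime_dvd_prime_iff_eq Fact.out hr).1 ((ZMod.natCast_eq_zero_iff r p).1 h)).symm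
  have : NeZero (r : ZMod p) := ⟨hr0⟩
  have hrK : (r : AlgebraicClosure (ZMod p)) ≠ 0 := by
    rw [← map_natCast (algebraMap (ZMod p) (AlgebraicClosure (ZMod p)))]
    exact (_root_.map_ne_zero _).2 hr0
  obtain ⟨z, hz⟩ := HasEnoughRootsOfUnity.exists_primitiveRoot (AlgebraicClosure (ZMod p)) r
  have hψ := AddChar.zmodChar_primitive_of_primitive_root r hz
  have hπ := as_prim hℓ hs h2 hp h3
  have hd : ℓ ^ s * ((r - 1) / ℓ ^ s) = r - 1 := Nat.mul_div_cancel' h2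
  obtain ⟨hu, hn⟩ := can_replicate (p := p) hr.pos
  obtain ⟨g, hg, -, -, hg2⟩ := minP_spec hu (by have := hr.two_le; omega)
    ((List.range r).map fun x => if (oP0 r).pow x ((r - 1) / ℓ ^ s) = 1 then 1 else 0)
  set η := asEta (AddChar.zmodChar r hz.pow_eq_one) ((r - 1) / ℓ ^ s) with hη
  have hint : IsIntegral (ZMod p) (η 1) := Algebra.IsIntegral.isIntegral _
  have hgeo : (∑ i ∈ Finset.range r, X ^ i : (ZMod p)[X]) * (X - 1) = X ^ r - 1 :=
    geom_sum_mul _ _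
  have e1 : minpoly (ZMod p) (η 1) ∣ g := by
    obtain ⟨c, hc⟩ := (hg2 g).1 dvd_rfl
    have h4 := congrArg (aeval (z ^ 1)) hc
    rw [aeval_comp, as_eval hz.pow_eq_one, Nat.cast_one, map_mul, pow_one, map_sum] at h4
    simp only [map_pow, aeval_X] at h4
    rw [hz.geom_sum_eq_zero hr.one_lt, zero_mul] at h4
    exact minpoly.dvd _ _ h4
  have e2 : g ∣ minpoly (ZMod p) (η 1) := by
    rw [hg2]
    refine as_dvd (K := AlgebraicClosure (ZMod p))
      ((X_pow_sub_one_separable_iff.2 hr0).of_dvd ⟨_, hgeo.symm⟩) fun w hw => ?_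
    have h4 := congrArg (aeval w) hgeo
    rw [map_mul, hw, zero_mul, map_sub, map_pow, aeval_X, map_one, eq_comm, sub_eq_zero] at h4
    obtain ⟨k, hk, rfl⟩ := hz.eq_pow_of_pow_eq_one h4
    have hk0 : (k : ZMod r) ≠ 0 := fun h => by
      rw [Nat.eq_zero_of_dvd_of_lt ((ZMod.natCast_eq_zero_iff k r).1 h) hk, map_sum] at hw
      exact hrK (by simpa using hw)
    obtain ⟨i, hi⟩ := as_conj (ψ := AddChar.zmodChar r hz.pow_eq_one) hd hπ hp hk0
    rw [aeval_comp, as_eval hz.pow_eq_one, ← mul_one (k : ZMod r), hi]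
    exact as_root (minpoly.aeval _ _) i
  have e3 : g = minpoly (ZMod p) (η 1) :=
    eq_of_monic_of_associated hg.2.1 (minpoly.monic hint) (associated_of_dvd_dvd e2 e1)
  have h5 := fun j => (pow_card_root (minpoly.irreducible hint) (minpoly.aeval _ _) j).symm.trans
    (as_fix hψ hrK hd hπ hp j)
  exact ⟨g, hg, e3 ▸ minpoly.irreducible hint,
    e3 ▸ Nat.dvd_antisymm ((h5 _).2 dvd_rfl) ((h5 _).1 dvd_rfl)⟩

theorem as_irr {g : List ℕ} {q : (ZMod p)[X]} (hg : Can p g q) {d : ℕ} (hd : 0 < d)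
    (h1 : g.length = d + 1) (h2 : (ddf p g).1 = d) : Irreducible q ∧ q.natDegree = d := by
  have h3 : q.natDegree = d := by have := hg.2.2; omega
  obtain ⟨t, ht, htq⟩ := exists_irreducible_of_natDegree_pos (f := q) (by omega)
  have h4 := (ddf_spec hg (by omega)).1 t ht htq
  exact ⟨(associated_of_dvd_of_natDegree_le htq hg.2.1.ne_zero (by omega)).irreducible ht, h3⟩

theorem adv_ok {N B : ℕ} (h : AuxPrimes p N B) : AdvOK p N (advL p N B) := by
  intro hw d hd hdN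
  obtain ⟨ℓ, s, hℓ, hs, rfl⟩ := (isPrimePow_nat_iff d).1 hd
  have h1 : ℓ ≤ ℓ ^ s := Nat.le_self_pow hs.ne' ℓ
  have h2 : ℓ ≠ p := by
    have h3 : 0 < N := Nat.pos_of_ne_zero (by rintro rfl; have := hℓ.pos; omega)
    have h4 : N * N ≤ N * N * N := Nat.le_mul_of_pos_right _ h3
    rw [wW] at hw
    omega
  obtain ⟨r, hr, hrB, h3, h4, h5⟩ := h ℓ s hℓ h2 hs (by rwa [sq])
  obtain ⟨q, hq, hq1, hq2⟩ := auxC_spec hℓ hs hr h3 h4 h5
  have hd0 : 0 < ℓ ^ s := pow_pos hℓ.pos s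
  rw [advL, ts_getD_range _ _ _ (by omega)]
  cases hf : ((List.range (B + 1)).map fun r => auxC p (ℓ ^ s) (min r B)).find? fun g =>
      decide (g.length = ℓ ^ s + 1 ∧ (ddf p g).1 = ℓ ^ s) with
  | none =>
    refine absurd ?_ (List.find?_eq_none.1 hf (auxC p (ℓ ^ s) r)
      (List.mem_map.2 ⟨r, List.mem_range.2 (by omega), by rw [min_eq_left hrB]⟩))
    obtain ⟨v, hv, hvq, -, h6, h7⟩ := (ddf_spec hq (by omega)).2
    obtain ⟨t, ht, htv⟩ := exists_irreducible_of_natDegree_pos (f := v) (by omega)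
    rw [decide_eq_true_eq, hq.2.2, hq2, ← h7 t ht htv, ← hq2]
    exact ⟨rfl, natDegree_eq_of_degree_eq
      (degree_eq_degree_of_associated (ht.associated_of_dvd hq1 (htv.trans hvq)))⟩
  | some g =>
    have h6 := List.find?_some hf
    rw [decide_eq_true_eq] at h6
    obtain ⟨r', -, rfl⟩ := List.mem_map.1 (List.mem_of_find?_eq_some hf)
    obtain ⟨q', hq'⟩ : ∃ q', Can p (auxC p (ℓ ^ s) (min r' B)) q' :=
      can_mon_of_length (List.ne_nil_of_length_eq_add_one h6.1)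
    rw [Option.getD_some, hq'.1]
    exact as_irr hq' hd0 h6.1 h6.2

end Vale.Agent.P319
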