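import Vale.Agent.P319.Val3

/-! The coordinate rings of the charts and invariant divisors. -/

namespace Vale.Agent.P319.Curve

open Polynomial Finset

variable {𝕜 L : Type} [Field 𝕜] [IsAlgClosed 𝕜] [Field L] [Algebra 𝕜 L] {d : Dat 𝕜}
  (T : Curve d L)

omit [IsAlgClosed 𝕜] in
theorem bs_dft_zero {Y : L} (h0 : Y ≠ 0) (hY : T.τ Y = d.ζ • Y) (c : ℕ → L)
    (hc : ∀ b, T.τ (c b) = c b) (h : ∑ b ∈ range d.ℓ, c b * Y ^ b = 0) {b : ℕ} (hb : b < d.ℓ) :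
    c b = 0 := by
  have h1 := T.dft hY c hc hb
  simp only [h, map_zero, smul_zero, sum_const_zero, smul_eq_zero, d.ℓ_ne, false_or,
    mul_eq_zero] at h1
  exact h1.resolve_right (pow_ne_zero _ h0)

omit [IsAlgClosed 𝕜] in
theorem bs_dft_ge {Y : L} (hY : T.τ Y = d.ζ • Y) (c : ℕ → L) (hc : ∀ b, T.τ (c b) = c b)
    {P : d.Pl} {k : ℤ} (h : ∀ t, T.Ge (d.act^[t] P) (∑ b ∈ range d.ℓ, c b * Y ^ b) k) {b : ℕ}
    (hb : b < d.ℓ) : T.Ge P (c b * Y ^ b) k := by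
  have h1 : T.Ge P ((d.ℓ : 𝕜) • (c b * Y ^ b)) k := by
    rw [T.dft hY c hc hb]
    exact ge_sum _ _ fun j _ => ((T.ge_τ_pow P j _ k).2 (h j)).smul _
  have h2 := h1.smul (d.ℓ : 𝕜)⁻¹
  rwa [smul_smul, inv_mul_cancel₀ d.ℓ_ne, one_smul] at h2

theorem bs_poly {u z : L} (hu : ∀ g : 𝕜[X], g ≠ 0 → aeval u g ≠ 0)
    (hP : ∀ c : 𝕜, ∃ P, T.Val P u c ∧ T.Ge P z 0) {q a : 𝕜[X]} (hq : q ≠ 0)
    (h : aeval u q * z = aeval u a) : ∃ g : 𝕜[X], z = aeval u g := by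
  classical
  rcases eq_or_ne z 0 with rfl | hz
  · exact ⟨0, by simp⟩
  have ha : a ≠ 0 := by
    rintro rfl
    rw [map_zero] at h
    exact mul_ne_zero (hu q hq) hz h
  have hd : q ∣ a := by
    rw [IsAlgClosed.dvd_iff_roots_le_roots hq ha, Multiset.le_iff_count]
    intro c
    rw [count_roots, count_roots]
    obtain ⟨P, h1, h2⟩ := hP c
    have h3 : u - algebraMap 𝕜 L c ≠ 0 := by
      have := hu (X - C c) (X_sub_C_ne_zero c)
      simpa using this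
    have h4 : 0 < T.v P (u - algebraMap 𝕜 L c) := (ge_iff h3).1 h1
    have h5 := (v_aeval_of_val h4 h3 rfl hq).2
    have h6 := (v_aeval_of_val h4 h3 rfl ha).2
    rw [← h, T.v_mul P _ _ (hu q hq) hz, h5] at h6
    have h7 := (ge_iff hz).1 h2
    have h8 : T.v P (u - algebraMap 𝕜 L c) * (q.rootMultiplicity c : ℤ) ≤
        T.v P (u - algebraMap 𝕜 L c) * (a.rootMultiplicity c : ℤ) := by omega
    exact_mod_cast le_of_mul_le_mul_left h8 h4
  obtain ⟨g, rfl⟩ := hd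
  rw [map_mul] at h
  exact ⟨g, mul_left_cancel₀ (hu q hq) h⟩

omit [IsAlgClosed 𝕜] in
theorem bs_x_mul_ξ (i : Fin d.n) : T.x * T.ξ i = aeval (T.ξ i) (1 + C (d.r i) * X) := by
  have h : (T.x - algebraMap 𝕜 L (d.r i)) * T.ξ i = 1 := mul_inv_cancel₀ (T.x_sub_ne _)
  simp only [map_add, map_one, map_mul, aeval_C, aeval_X]
  linear_combination h

omit [IsAlgClosed 𝕜] in
theorem bs_clear (i : Fin d.n) (q : 𝕜[X]) :
    ∃ (N : ℕ) (g : 𝕜[X]), aeval T.x q * T.ξ i ^ N = aeval (T.ξ i) g := by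
  induction q using Polynomial.induction_on with
  | C a => exact ⟨0, C a, by simp⟩
  | add p q hp hq =>
    obtain ⟨N, g, h⟩ := hp
    obtain ⟨M, g', h'⟩ := hq
    refine ⟨N + M, g * X ^ M + g' * X ^ N, ?_⟩
    simp only [map_add, map_mul, map_pow, aeval_X, ← h, ← h']
    ring
  | monomial n a ih =>
    obtain ⟨N, g, h⟩ := ih
    refine ⟨N + 1, g * (1 + C (d.r i) * X), ?_⟩
    rw [map_mul (aeval (T.ξ i)), ← h, ← T.bs_x_mul_ξ i]
    simp only [map_mul, map_pow, aeval_X]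
    ring

theorem bs_val_ξ (i : Fin d.n) (c : 𝕜) : ∃ P, P ≠ d.ram i ∧ T.Val P (T.ξ i) c := by
  rcases eq_or_ne c 0 with rfl | hc
  · have h : (Sum.inr 0 : d.Pl) ≠ d.ram i := by simp [Dat.ram]
    refine ⟨.inr 0, h, val_zero_iff.2 (Or.inr ?_)⟩
    rw [T.v_ξ h]
    exact le_rfl
  · obtain ⟨q, hq⟩ := d.exists_place (d.r i + c⁻¹)
    refine ⟨.inl q, ?_, ?_⟩
    · intro h
      have h1 : q.1.1 = d.r i := by
        rw [Dat.ram, Sum.inl.injEq] at h
        rw [h]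
      rw [hq] at h1
      exact inv_ne_zero hc (by simpa using h1)
    · have h1 := ((T.val_x q).sub (val_const _ (d.r i))).inv (by rw [hq]; simpa using hc)
      rwa [hq, add_sub_cancel_left, inv_inv] at h1

omit [IsAlgClosed 𝕜] in
theorem bs_mem_span {S : Submodule 𝕜 L} {u w : L} {c : 𝕜[X]}
    (h : c ≠ 0 → ∀ a ≤ c.natDegree, u ^ a * w ∈ S) : aeval u c * w ∈ S := by
  rcases eq_or_ne c 0 with rfl | hc
  · simp
  rw [aeval_eq_sum_range, sum_mul]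
  refine Submodule.sum_mem _ fun a ha => ?_
  rw [smul_mul_assoc]
  exact Submodule.smul_mem _ _ (h hc a (Nat.lt_succ_iff.1 (mem_range.1 ha)))

omit [IsAlgClosed 𝕜] in
theorem bs_rm_ge (P : d.Pl) : 0 ≤ d.Rm P := by
  rcases d.rm_cases P with ⟨j, rfl⟩ | h
  · rw [d.rm_ram]; exact zero_le_one
  · exact h.ge

omit [IsAlgClosed 𝕜] in
theorem bs_inf_ge (P : d.Pl) : 0 ≤ d.Inf (fun _ => 1) P := by
  rcases P with q | a
  · exact le_rfl
  · exact zero_le_one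

omit [IsAlgClosed 𝕜] in
/-- A fixed coefficient of an integral term is integral. -/
theorem bs_coef {Y c : L} {P : d.Pl} (h0 : Y ≠ 0) (hY : T.v P Y = d.Rm P) (hc : T.τ c = c) {b : ℕ}
    (hb : b < d.ℓ) (h : T.Ge P (c * Y ^ b) 0) : T.Ge P c 0 := by
  rcases eq_or_ne c 0 with rfl | hc0
  · exact ge_zero _ _
  have h1 := (ge_iff hc0).1 (h.of_mul (pow_ne_zero b h0))
  rw [v_pow h0, hY] at h1
  refine Or.inr ?_
  rcases d.rm_cases P with ⟨j, rfl⟩ | h2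
  · rw [d.rm_ram] at h1
    obtain ⟨e, he⟩ := T.dvd_v_fixed hc0 hc j
    rw [he] at h1 ⊢
    have h3 : (b : ℤ) < d.ℓ := by exact_mod_cast hb
    have h4 : (0 : ℤ) ≤ b := Int.natCast_nonneg b
    by_contra h5
    have h6 : e ≤ -1 := by
      by_contra h7
      exact h5 (mul_nonneg (by omega) (by omega))
    nlinarith
  · rw [h2] at h1
    omega

theorem indep_xy : Indep 𝕜 T.x T.y d.ℓ := by
  intro q h b hb
  by_contra h1
  exact T.trans _ h1 (T.bs_dft_zero T.y_ne T.τy (fun b => aeval T.x (q b))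
    (fun b => T.τ_aeval T.τx _) h hb)
theorem indep_ξη (i : Fin d.n) : Indep 𝕜 (T.ξ i) (T.η i) d.ℓ := by
  intro q h b hb
  by_contra h1
  exact (T.aeval_ξ_ne i h1).1 (T.bs_dft_zero (T.η_ne i) (T.τη i) (fun b => aeval (T.ξ i) (q b))
    (fun b => T.τ_aeval (T.τξ i) _) h hb)
theorem poly_of_fixed {z : L} (h : T.τ z = z) (h0 : ∀ q, T.Ge (.inl q) z 0) :
    ∃ g : 𝕜[X], z = aeval T.x g := by
  obtain ⟨a, q, hq, h1⟩ := T.fixed_rat h
  refine T.bs_poly T.trans (fun c => ?_) hq h1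
  obtain ⟨P, rfl⟩ := d.exists_place c
  exact ⟨.inl P, T.val_x P, h0 P⟩
theorem poly_of_fixed_chart (i : Fin d.n) {z : L} (h : T.τ z = z) (h0 : T.Md i 0 z) :
    ∃ g : 𝕜[X], z = aeval (T.ξ i) g := by
  obtain ⟨a, q, hq, h1⟩ := T.fixed_rat h
  obtain ⟨N, q', h2⟩ := T.bs_clear i q
  obtain ⟨M, a', h3⟩ := T.bs_clear i a
  have hq' : q' ≠ 0 := by
    rintro rfl
    rw [map_zero] at h2
    exact mul_ne_zero (T.trans q hq) (pow_ne_zero _ (T.ξ_ne i)) h2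
  refine T.bs_poly (q := q' * X ^ M) (a := a' * X ^ N) (fun g hg => (T.aeval_ξ_ne i hg).1)
    (fun c => ?_) (mul_ne_zero hq' (pow_ne_zero _ X_ne_zero)) ?_
  · obtain ⟨P, h4, h5⟩ := T.bs_val_ξ i c
    exact ⟨P, h5, h0 P h4⟩
  · simp only [map_mul, map_pow, aeval_X, ← h2, ← h3, ← h1]
    ring
theorem exists_poly_chart (i : Fin d.n) {z : L} (h0 : T.Md i 0 z) :
    ∃ c : ℕ → 𝕜[X], z = ∑ b ∈ range d.ℓ, aeval (T.ξ i) (c b) * T.η i ^ b := by
  obtain ⟨c, hc, rfl⟩ := T.exists_decomp (T.η_ne i) (T.τη i) z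
  have h1 : ∀ b, ∃ g : 𝕜[X], b < d.ℓ → c b = aeval (T.ξ i) g := by
    intro b
    rcases lt_or_ge b d.ℓ with hb | hb
    · obtain ⟨g, hg⟩ := T.poly_of_fixed_chart i (hc b) fun P hP =>
        T.bs_coef (T.η_ne i) (T.v_η hP) (hc b) hb
          (T.bs_dft_ge (T.τη i) c hc (fun t => h0 _ (d.act_iter_ne hP t)) hb)
      exact ⟨g, fun _ => hg⟩
    · exact ⟨0, fun h => absurd h hb.not_gt⟩
  choose g hg using h1
  exact ⟨g, sum_congr rfl fun b hb => by rw [hg b (mem_range.1 hb)]⟩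

theorem bs_exists_poly_std {z : L} (h0 : ∀ q, T.Ge (.inl q) z 0) :
    ∃ c : ℕ → 𝕜[X], z = ∑ b ∈ range d.ℓ, aeval T.x (c b) * T.y ^ b := by
  obtain ⟨c, hc, rfl⟩ := T.exists_decomp T.y_ne T.τy z
  have h2 : ∀ (t : ℕ) q, ∃ q', d.act^[t] (.inl q) = .inl q' := by
    intro t
    induction t with
    | zero => exact fun q => ⟨q, rfl⟩
    | succ t ih => exact fun q => by rw [Function.iterate_succ_apply]; exact ih _
  have h1 : ∀ b, ∃ g : 𝕜[X], b < d.ℓ → c b = aeval T.x g := by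
    intro b
    rcases lt_or_ge b d.ℓ with hb | hb
    · obtain ⟨g, hg⟩ := T.poly_of_fixed (hc b) fun q =>
        T.bs_coef T.y_ne (by rw [T.v_y_eq]; simp [Dat.Inf]) (hc b) hb
          (T.bs_dft_ge T.τy c hc (fun t => by
            obtain ⟨q', hq'⟩ := h2 t q
            rw [hq']
            exact h0 q') hb)
      exact ⟨g, fun _ => hg⟩
    · exact ⟨0, fun h => absurd h hb.not_gt⟩
  choose g hg using h1
  exact ⟨g, sum_congr rfl fun b hb => by rw [hg b (mem_range.1 hb)]⟩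

omit [IsAlgClosed 𝕜] in
theorem bs_v_term (i : Fin d.n) {g : 𝕜[X]} (hg : g ≠ 0) (b : ℕ) :
    aeval (T.ξ i) g * T.η i ^ b ≠ 0 ∧ T.v (d.ram i) (aeval (T.ξ i) g * T.η i ^ b) =
      -((d.ℓ * g.natDegree + (d.n - 1) * b : ℕ) : ℤ) := by
  obtain ⟨h1, h2⟩ := T.aeval_ξ_ne i hg
  have h3 := pow_ne_zero b (T.η_ne i)
  refine ⟨mul_ne_zero h1 h3, ?_⟩
  rw [T.v_mul _ _ _ h1 h3, h2, v_pow (T.η_ne i), T.v_η_self]
  push_cast
  ring

theorem bs_chart_terms (i : Fin d.n) {z : L} (h0 : T.Md i 0 z) {k : ℤ} (h : T.Dle i z k) :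
    ∃ c : ℕ → 𝕜[X], z = ∑ b ∈ range d.ℓ, aeval (T.ξ i) (c b) * T.η i ^ b ∧
      ∀ b < d.ℓ, c b ≠ 0 → ((d.ℓ * (c b).natDegree + (d.n - 1) * b : ℕ) : ℤ) ≤ k := by
  obtain ⟨c, rfl⟩ := T.exists_poly_chart i h0
  refine ⟨c, rfl, fun b hb hc => ?_⟩
  have h1 := ge_of_sum (range d.ℓ) (fun b => aeval (T.ξ i) (c b) * T.η i ^ b) ?_ h b
    (mem_range.2 hb)
  · obtain ⟨h2, h3⟩ := T.bs_v_term i hc b
    have h4 := (ge_iff h2).1 h1
    rw [h3] at h4
    omega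
  · intro a ha a' ha' h2 h3 h4
    have hz : ∀ e, aeval (T.ξ i) (c e) * T.η i ^ e ≠ 0 → c e ≠ 0 := by
      intro e he h5
      rw [h5, map_zero, zero_mul] at he
      exact he rfl
    rw [(T.bs_v_term i (hz a h2) a).2, (T.bs_v_term i (hz a' h3) a').2, neg_inj, Nat.cast_inj] at h4
    rw [mem_range] at ha ha'
    have h5 : 1 ≤ d.n := le_trans (by omega) d.ℓ_le_n
    have h6 : d.ℓ * ((c a).natDegree + d.m * a) + a' = d.ℓ * ((c a').natDegree + d.m * a') + a := by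
      have h7 : d.ℓ * d.m = (d.n - 1) + 1 := by rw [← d.hn]; omega
      rw [mul_add, mul_add, ← mul_assoc, ← mul_assoc, h7, add_mul, add_mul]
      omega
    have h8 := congrArg (· % d.ℓ) h6
    simp only [Nat.mul_add_mod, Nat.mod_eq_of_lt ha, Nat.mod_eq_of_lt ha'] at h8
    exact h8.symm

theorem mem_span_chart (i : Fin d.n) (W : ℕ) (z : L) :
    z ∈ Submodule.span 𝕜 {w | ∃ a b : ℕ, b < d.ℓ ∧ d.ℓ * a + (d.n - 1) * b ≤ W ∧
      w = T.ξ i ^ a * T.η i ^ b} ↔ T.Md i 0 z ∧ T.Dle i z W := by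
  constructor
  · intro hz
    refine ⟨fun P hP => ge_span ?_ hz, ge_span ?_ hz⟩
    · rintro _ ⟨a, b, -, -, rfl⟩
      refine Or.inr ?_
      rw [T.v_mul _ _ _ (pow_ne_zero _ (T.ξ_ne i)) (pow_ne_zero _ (T.η_ne i)), v_pow (T.ξ_ne i),
        v_pow (T.η_ne i), T.v_ξ hP, T.v_η hP]
      exact add_nonneg (mul_nonneg (Int.natCast_nonneg _) (bs_inf_ge P))
        (mul_nonneg (Int.natCast_nonneg _) (bs_rm_ge P))
    · rintro _ ⟨a, b, -, h, rfl⟩
      refine Or.inr ?_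
      have h1 := (T.bs_v_term i (pow_ne_zero a (X_ne_zero (R := 𝕜))) b).2
      rw [map_pow, aeval_X, natDegree_X_pow] at h1
      rw [h1]
      omega
  · rintro ⟨h0, h⟩
    obtain ⟨c, rfl, hc⟩ := T.bs_chart_terms i h0 h
    refine Submodule.sum_mem _ fun b hb => bs_mem_span fun h1 a ha => Submodule.subset_span ?_
    rw [mem_range] at hb
    have h2 := hc b hb h1
    have h3 := Nat.mul_le_mul_left d.ℓ ha
    exact ⟨a, b, hb, by omega, rfl⟩
theorem mem_span_std (W : ℕ) (z : L) :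
    z ∈ Submodule.span 𝕜 {w | ∃ a b : ℕ, b < d.ℓ ∧ 1 * a + d.m * b ≤ W ∧
      w = T.x ^ a * T.y ^ b} ↔ (∀ q, T.Ge (.inl q) z 0) ∧ ∀ a, T.Ge (.inr a) z (-W) := by
  have hv : ∀ (e : ZMod d.ℓ) (g : 𝕜[X]) (b : ℕ), g ≠ 0 →
      T.v (.inr e) (aeval T.x g * T.y ^ b) = -((g.natDegree + d.m * b : ℕ) : ℤ) := by
    intro e g b hg
    rw [T.v_mul _ _ _ (T.trans g hg) (pow_ne_zero _ T.y_ne), T.v_aeval_inf e hg, v_pow T.y_ne,
      T.v_y_eq]
    simp only [Dat.Rm, Dat.Inf]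
    push_cast
    ring
  constructor
  · intro hz
    refine ⟨fun q => ge_span ?_ hz, fun e => ge_span ?_ hz⟩
    · rintro _ ⟨a, b, -, -, rfl⟩
      simpa using ((T.val_x q).ge.pow a).mul ((T.val_y q).ge.pow b)
    · rintro _ ⟨a, b, -, h, rfl⟩
      refine Or.inr ?_
      have h1 := hv e (X ^ a) b (pow_ne_zero a X_ne_zero)
      rw [map_pow, aeval_X, natDegree_X_pow] at h1
      rw [h1]
      omega
  · rintro ⟨h0, h⟩
    obtain ⟨c, rfl⟩ := T.bs_exists_poly_std h0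
    refine Submodule.sum_mem _ fun b hb => bs_mem_span fun h1 a ha => Submodule.subset_span ?_
    rw [mem_range] at hb
    have h2 : ∀ (t : ℕ) e, ∃ e', d.act^[t] (.inr e) = .inr e' := by
      intro t
      induction t with
      | zero => exact fun q => ⟨q, rfl⟩
      | succ t ih => exact fun q => by rw [Function.iterate_succ_apply]; exact ih _
    have h3 := T.bs_dft_ge (P := .inr 0) T.τy (fun b => aeval T.x (c b))
      (fun b => T.τ_aeval T.τx _) (fun t => by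
        obtain ⟨e, he⟩ := h2 t 0
        rw [he]
        exact h e) hb
    have h4 := (ge_iff (mul_ne_zero (T.trans _ h1) (pow_ne_zero _ T.y_ne))).1 h3
    rw [hv 0 _ b h1] at h4
    exact ⟨a, b, hb, by omega, rfl⟩
theorem eq_zero_of_dle (i : Fin d.n) {z : L} (h0 : T.Md i 0 z) {k : ℤ} (hk : k < 0)
    (h : T.Dle i z k) : z = 0 := by
  obtain ⟨c, rfl, hc⟩ := T.bs_chart_terms i h0 h
  refine sum_eq_zero fun b hb => ?_
  have h1 : c b = 0 := by
    by_contra h2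
    have := hc b (mem_range.1 hb) h2
    omega
  rw [h1, map_zero, zero_mul]
theorem const_of_unit (i : Fin d.n) {z : L} (hz : z ≠ 0) (h : ∀ P, P ≠ d.ram i → T.v P z = 0) :
    ∃ c : 𝕜, c ≠ 0 ∧ z = algebraMap 𝕜 L c := by
  have h1 : T.Md i 0 z := fun P hP => Or.inr (h P hP).ge
  have h2 : T.Md i 0 z⁻¹ := fun P hP => Or.inr (by rw [v_inv hz, h P hP]; exact le_rfl)
  have h3 : T.Ge (d.ram i) z 0 := by
    refine Or.inr (not_lt.1 fun h4 => inv_ne_zero hz ?_)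
    exact T.eq_zero_of_dle i h2 h4 (Or.inr (v_inv hz).ge)
  obtain ⟨c, hc⟩ := h3.exists_val
  have h4 : z - algebraMap 𝕜 L c = 0 :=
    T.eq_zero_of_dle i (k := -1) (fun P hP => (h1 P hP).sub (ge_const P c)) (by omega)
      (by rw [Dle, neg_neg]; exact hc)
  rw [sub_eq_zero] at h4
  refine ⟨c, ?_, h4⟩
  rintro rfl
  exact hz (by rw [h4, map_zero])
theorem const_of_fixed {z : L} (hz : z ≠ 0) (h : T.τ z = z) (h0 : ∀ q, T.v (.inl q) z = 0) :
    ∃ c : 𝕜, c ≠ 0 ∧ z = algebraMap 𝕜 L c := by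
  obtain ⟨g, hg⟩ := T.poly_of_fixed h fun q => Or.inr (h0 q).ge
  obtain ⟨g', hg'⟩ := T.poly_of_fixed (z := z⁻¹) (by rw [map_inv₀, h]) fun q =>
    Or.inr (by rw [v_inv hz, h0 q]; exact le_rfl)
  have h1 : g * g' = 1 := by
    by_contra h2
    refine T.trans _ (sub_ne_zero.2 h2) ?_
    rw [map_sub, map_mul, map_one, ← hg, ← hg', mul_inv_cancel₀ hz, sub_self]
  obtain ⟨c, hc, rfl⟩ := Polynomial.isUnit_iff.1 (IsUnit.of_mul_eq_one _ h1)
  exact ⟨c, hc.ne_zero, by rw [hg, aeval_C]⟩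
theorem exists_fixed {D : d.Pl → ℤ} (h : d.FS D) (h1 : ∀ P, D (d.act P) = D P)
    (h2 : ∀ j, (d.ℓ : ℤ) ∣ D (d.ram j)) :
    ∃ U, U ≠ 0 ∧ T.τ U = U ∧ ∀ q, T.v (.inl q) U = D (.inl q) := by
  classical
  choose pl hpl using d.exists_place
  have hit : ∀ (t : ℕ) P, D (d.act^[t] P) = D P := by
    intro t
    induction t with
    | zero => exact fun P => rfl
    | succ t ih => exact fun P => by rw [Function.iterate_succ_apply, ih, h1]
  have hs : (Function.support fun c => D (.inl (pl c))).Finite := by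
    refine Set.Finite.preimage (f := fun c => (Sum.inl (pl c) : d.Pl)) ?_ h
    intro c _ c' _ hc
    have h3 : pl c = pl c' := Sum.inl_injective hc
    rw [← hpl c, h3, hpl c']
  let e : 𝕜 → ℤ := fun c => D (.inl (pl c)) / (if (pl c).1.2 = 0 then (d.ℓ : ℤ) else 1)
  have hne : ∀ c : 𝕜, (T.x - algebraMap 𝕜 L c) ^ e c ≠ 0 := fun c => zpow_ne_zero _ (T.x_sub_ne c)
  refine ⟨∏ c ∈ hs.toFinset, (T.x - algebraMap 𝕜 L c) ^ e c, prod_ne_zero_iff.2 fun c _ => hne c,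
    ?_, fun q => ?_⟩
  · rw [map_prod]
    exact prod_congr rfl fun c _ => by rw [map_zpow₀, map_sub, T.τx, AlgEquiv.commutes]
  have hD : D (.inl (pl q.1.1)) = D (.inl q) := by
    obtain ⟨t, -, ht⟩ := d.fibre (hpl q.1.1)
    rw [← ht, hit]
  rw [v_prod _ _ fun c _ => hne c, sum_eq_single q.1.1]
  · rw [v_zpow (T.x_sub_ne _), T.v_x]
    have h3 : (pl q.1.1).1.2 = 0 ↔ q.1.2 = 0 := by
      rw [← pow_eq_zero_iff d.prime.ne_zero, (pl q.1.1).2, hpl, ← q.2,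
        pow_eq_zero_iff d.prime.ne_zero]
    simp only [e, h3, hD]
    split_ifs with h4
    · obtain ⟨j, hj⟩ := d.eq_ram h4
      rw [hj]
      exact Int.ediv_mul_cancel (h2 j)
    · simp
  · intro c _ hc
    rw [v_zpow (T.x_sub_ne _),
      (((T.val_x q).sub (val_const _ c)).v_eq (sub_ne_zero.2 hc.symm)).2, mul_zero]
  · intro hq
    have h3 : D (.inl (pl q.1.1)) = 0 := by simpa using hq
    rw [v_zpow (T.x_sub_ne _)]
    simp only [e, h3, Int.zero_ediv, zero_mul]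
theorem exists_fixed_chart (i : Fin d.n) {D : d.Pl → ℤ} (h : d.FS D)
    (h1 : ∀ P, P ≠ d.ram i → D (d.act P) = D P) (h2 : ∀ j, j ≠ i → (d.ℓ : ℤ) ∣ D (d.ram j)) :
    ∃ U, U ≠ 0 ∧ T.τ U = U ∧ ∀ P, P ≠ d.ram i → T.v P U = D P := by
  classical
  have hit : ∀ (t : ℕ) P, P ≠ d.ram i → D (d.act^[t] P) = D P := by
    intro t
    induction t with
    | zero => exact fun P _ => rfl
    | succ t ih =>
      exact fun P hP => by rw [Function.iterate_succ_apply', h1 _ (d.act_iter_ne hP t), ih P hP]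
  obtain ⟨U, hU, hτ, hv⟩ := T.exists_fixed (D := fun P => if P = d.ram i then 0 else D P)
    (Set.Finite.subset h fun P hP h3 => hP (by simp only [h3, ite_self])) (fun P => by
      by_cases hP : P = d.ram i
      · rw [hP, d.act_ram]
      · have h3 : d.act P ≠ d.ram i := d.act_iter_ne hP 1
        rw [if_neg hP, if_neg h3, h1 P hP]) (fun j => by
      by_cases hj : j = i
      · rw [hj, if_pos rfl]
        exact dvd_zero _
      · rw [if_neg fun h3 => hj (d.ram_inj h3)]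
        exact h2 j hj)
  have hξ := zpow_ne_zero (D (.inr 0) - T.v (.inr 0) U) (T.ξ_ne i)
  refine ⟨U * T.ξ i ^ (D (.inr 0) - T.v (.inr 0) U), mul_ne_zero hU hξ, ?_, fun P hP => ?_⟩
  · rw [map_mul, map_zpow₀, hτ, T.τξ]
  rw [T.v_mul _ _ _ hU hξ, v_zpow (T.ξ_ne i), T.v_ξ hP]
  rcases P with q | a
  · rw [hv q, if_neg hP]
    simp [Dat.Inf]
  · obtain ⟨t, -, ht⟩ := d.fibre_inf a 0
    have h3 := hit t _ hP
    have h4 := T.v_τ_pow (.inr a) t U
    rw [T.τ_pow_fixed hτ] at h4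
    rw [ht] at h3 h4
    rw [h3, h4]
    simp [Dat.Inf]

end Vale.Agent.P319.Curve
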