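import Vale.Agent.P319.Ops

/-! The function field of `y^ℓ = f(x)` with its places, as an abstract interface. -/

namespace Vale.Agent.P319

open Polynomial Finset

/-- The numerical data: a prime `ℓ`, a root of unity, `n = ℓ m` distinct roots and an
automorphism of the constants fixing them. -/
structure Dat (𝕜 : Type) [Field 𝕜] where
  ℓ : ℕ
  m : ℕ
  n : ℕ
  prime : ℓ.Prime
  mpos : 0 < m
  hn : n = ℓ * m
  ζ : 𝕜
  prim : IsPrimitiveRoot ζ ℓ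
  r : Fin n → 𝕜
  inj : Function.Injective r
  s : 𝕜 ≃+* 𝕜
  sζ : s ζ = ζ
  sr : ∀ i, s (r i) = r i

namespace Dat

variable {𝕜 : Type} [Field 𝕜] (d : Dat 𝕜)

/-- The polynomial with the given roots. -/
noncomputable def f : 𝕜[X] := ∏ i, (X - C (d.r i))
/-- The equation in the chart that puts the `i`-th branch point at infinity. -/
noncomputable def F (i : Fin d.n) : 𝕜[X] := ∏ j ∈ univ.erase i, (1 + C (d.r i - d.r j) * X)
/-- The other branch points in that chart. -/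
noncomputable def rt (i j : Fin d.n) : 𝕜 := (d.r j - d.r i)⁻¹
/-- Places: affine points and `ℓ` points at infinity. -/
abbrev Pl : Type := {q : 𝕜 × 𝕜 // q.2 ^ d.ℓ = d.f.eval q.1} ⊕ ZMod d.ℓ
/-- The branch points. -/
def ram (i : Fin d.n) : d.Pl :=
  .inl ⟨(d.r i, 0), by
    rw [zero_pow d.prime.ne_zero, f, eval_prod, eq_comm]
    exact prod_eq_zero (mem_univ i) (by simp)⟩
/-- The deck transformation on places. -/
def act : d.Pl → d.Pl
  | .inl q => .inl ⟨(q.1.1, d.ζ * q.1.2), by rw [mul_pow, d.prim.pow_eq_one, one_mul, q.2]⟩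
  | .inr a => .inr (a + 1)
theorem s_eval (c : 𝕜) : d.s (d.f.eval c) = d.f.eval (d.s c) := by
  simp [f, eval_prod, d.sr]
/-- The automorphism of the constants on places. -/
def sact : d.Pl → d.Pl
  | .inl q => .inl ⟨(d.s.symm q.1.1, d.s.symm q.1.2), d.s.injective (by
      rw [map_pow, s_eval, RingEquiv.apply_symm_apply, RingEquiv.apply_symm_apply, q.2])⟩
  | .inr a => .inr a
open Classical in
/-- The sum of the branch points. -/
noncomputable def Rm : d.Pl → ℤ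
  | .inl q => if q.1.2 = 0 then 1 else 0
  | .inr _ => 0
/-- A divisor supported at infinity. -/
def Inf (c : ℕ → ℤ) : d.Pl → ℤ
  | .inl _ => 0
  | .inr a => c a.val
/-- The sum of the first `j` conjugates. -/
def part (D : d.Pl → ℤ) (j : ℕ) : d.Pl → ℤ := fun P => ∑ t ∈ range j, D (d.act^[t] P)
/-- Finite support. -/
def FS (D : d.Pl → ℤ) : Prop := (Function.support D).Finite
/-- Effective, of finite support, and prime to the branch points. -/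
def Eff (D : d.Pl → ℤ) : Prop := d.FS D ∧ (∀ P, 0 ≤ D P) ∧ ∀ j, D (d.ram j) = 0
def tE : Module.End ℤ (d.Pl → ℤ) := LinearMap.funLeft ℤ ℤ d.act
def sE : Module.End ℤ (d.Pl → ℤ) := LinearMap.funLeft ℤ ℤ d.sact

end Dat

open Classical in
/-- The function field with its automorphisms and normalised valuations. -/
structure Curve {𝕜 : Type} [Field 𝕜] (d : Dat 𝕜) (L : Type) [Field L] [Algebra 𝕜 L] where
  x : L
  y : L
  τ : L ≃ₐ[𝕜] L
  σ : L ≃+* L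
  v : d.Pl → L → ℤ
  hy : y ^ d.ℓ = aeval x d.f
  trans : ∀ q : 𝕜[X], q ≠ 0 → aeval x q ≠ 0
  span : ∀ z : L, ∃ (q : 𝕜[X]) (c : ℕ → 𝕜[X]), q ≠ 0 ∧
    aeval x q * z = ∑ b ∈ range d.ℓ, aeval x (c b) * y ^ b
  τx : τ x = x
  τy : τ y = d.ζ • y
  σx : σ x = x
  σy : σ y = y
  σc : ∀ c, σ (algebraMap 𝕜 L c) = algebraMap 𝕜 L (d.s c)
  v_mul : ∀ P a b, a ≠ 0 → b ≠ 0 → v P (a * b) = v P a + v P b
  v_add : ∀ P a b, a ≠ 0 → b ≠ 0 → a + b ≠ 0 → min (v P a) (v P b) ≤ v P (a + b)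
  v_const : ∀ P c, c ≠ 0 → v P (algebraMap 𝕜 L c) = 0
  v_res : ∀ P z, z ≠ 0 → v P z = 0 → ∃ c, z = algebraMap 𝕜 L c ∨ 1 ≤ v P (z - algebraMap 𝕜 L c)
  v_x : ∀ q, v (.inl q) (x - algebraMap 𝕜 L q.1.1) = if q.1.2 = 0 then (d.ℓ : ℤ) else 1
  v_y : ∀ q, 1 ≤ v (.inl q) (y - algebraMap 𝕜 L q.1.2)
  v_xi : ∀ a, v (.inr a) x = -1
  v_yi : ∀ a, 1 ≤ v (.inr a) (y / x ^ d.m - algebraMap 𝕜 L (d.ζ ^ a.val))
  v_τ : ∀ P z, v P (τ z) = v (d.act P) z
  v_σ : ∀ P z, v P (σ z) = v (d.sact P) z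

namespace Curve

variable {𝕜 L : Type} [Field 𝕜] [Field L] [Algebra 𝕜 L] {d : Dat 𝕜} (T : Curve d L)

/-- Vanishing to order at least `k`. -/
def Ge (P : d.Pl) (z : L) (k : ℤ) : Prop := z = 0 ∨ k ≤ T.v P z
/-- The value at `P` is `c`. -/
def Val (P : d.Pl) (z : L) (c : 𝕜) : Prop := T.Ge P (z - algebraMap 𝕜 L c) 1
/-- Coordinates of the chart `i`. -/
noncomputable def ξ (i : Fin d.n) : L := (T.x - algebraMap 𝕜 L (d.r i))⁻¹
noncomputable def η (i : Fin d.n) : L := T.y * T.ξ i ^ d.m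
/-- Pole order at most `k` at the `i`-th branch point. -/
def Dle (i : Fin d.n) (z : L) (k : ℤ) : Prop := T.Ge (d.ram i) z (-k)
/-- Membership in the fractional ideal of the chart `i` given by a divisor. -/
def Md (i : Fin d.n) (D : d.Pl → ℤ) (z : L) : Prop := ∀ P, P ≠ d.ram i → T.Ge P z (D P)
/-- The list `G` generates the ideal of `D`. -/
def Gen (i : Fin d.n) (G : List L) (D : d.Pl → ℤ) : Prop :=
  (∀ g ∈ G, T.Md i D g) ∧ ∀ P, P ≠ d.ram i → ∃ g ∈ G, g ≠ 0 ∧ T.v P g = D P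
/-- The list `G` spans the elements of degree at most `k` of the ideal of `D`. -/
def Spans (i : Fin d.n) (G : List L) (D : d.Pl → ℤ) (k : ℤ) : Prop :=
  ∀ z, z ∈ Submodule.span 𝕜 {g | g ∈ G} ↔ T.Md i D z ∧ T.Dle i z k
/-- Product of the first `j` conjugates. -/
noncomputable def pp (z : L) (j : ℕ) : L := ∏ t ∈ range j, (T.τ ^ t) z
/-- The monic generator of the norm of the ideal of `D`. -/
def Nrm (i : Fin d.n) (D : d.Pl → ℤ) (h : 𝕜[X]) : Prop :=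
  h.Monic ∧ ∀ P, P ≠ d.ram i → T.v P (aeval (T.ξ i) h) = d.part D d.ℓ P
/-- `D - E + τ E` is the divisor of `g` in the chart `i`. -/
def Dv (i : Fin d.n) (D E : d.Pl → ℤ) (g : L) : Prop :=
  g ≠ 0 ∧ ∀ P, P ≠ d.ram i → D P + E (d.act P) - E P = T.v P g
/-- Principal in the chart `i`. -/
def Prin (i : Fin d.n) (D : d.Pl → ℤ) : Prop := ∃ z : L, z ≠ 0 ∧ ∀ P, P ≠ d.ram i → D P = T.v P z
/-- The Galois invariant of the `k`-th divisor of the chain. -/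
def GI (i : Fin d.n) (k : ℕ) (D : d.Pl → ℤ) : Prop :=
  T.Prin i (((1 - d.tE) ^ k) ((d.sE - 1) D))
/-- The lattice of the division step. -/
def Lam (i : Fin d.n) (D : d.Pl → ℤ) (s : 𝕜[X]) (c : ℕ → L) : Prop :=
  (∀ j < d.ℓ, T.Md i (d.part D j) (c j)) ∧ ∀ k < d.ℓ, T.Md i (fun P => k * d.Rm P)
    (∑ j ∈ range d.ℓ, d.ζ ^ ((d.ℓ - j) * k) • (aeval (T.ξ i) s ^ j * c j))
/-- The norm on the lattice. -/
def Nle (i : Fin d.n) (δ : ℕ) (c : ℕ → L) (ν : ℤ) : Prop := ∀ j < d.ℓ, T.Dle i (c j) (j * δ + ν)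
/-- The outcome of the division step. -/
def Rk (i : Fin d.n) (D : d.Pl → ℤ) (h : 𝕜[X]) (c : ℕ → L) : Prop :=
  c 0 ≠ 0 ∧ c 1 ≠ 0 ∧ (∀ j < d.ℓ, T.Md i (d.part D j) (c j)) ∧
    T.Nle i h.natDegree c (((d.ℓ - 1) * (d.n - 1) : ℕ) : ℤ) ∧
    (∀ j < d.ℓ, c j = c 0 * T.pp (c 1 / c 0) j) ∧
    ∃ κ : 𝕜, κ ≠ 0 ∧ T.pp (c 1 / c 0) d.ℓ = κ • aeval (T.ξ i) h
/-- The divisor of the global function of the chain. -/
def Psi (ψ : L) (D : Fin d.n → d.Pl → ℤ) (δ : ℕ) (ρ : ℕ → ℤ) : Prop :=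
  ψ ≠ 0 ∧ ∃ μ : ℤ, d.ℓ * μ = ∑ a ∈ range d.ℓ, ρ a ∧
    ∀ P, T.v P ψ = ∑ i, D i P - d.Inf ρ P + (μ - δ * d.m) * d.Inf (fun _ => 1) P

end Curve

end Vale.Agent.P319
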