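import Vale.Agent.P319.CurveExb

/-! Existence of the function field with its places. -/

namespace Vale.Agent.P319

open Polynomial Finset
open scoped LaurentSeries PowerSeries

theorem exists_curve {𝕜 : Type} [Field 𝕜] [IsAlgClosed 𝕜] (d : Dat 𝕜) :
    ∃ (L : Type) (_ : Field L) (_ : Algebra 𝕜 L), Nonempty (Curve d L) := by
  classical
  obtain ⟨L, _, _, ⟨T⟩⟩ := cx_exists_pre d
  choose ι h1 h2 h3 h4 h5 using T.exists_emb
  obtain ⟨τ, t1, t2, t3⟩ := T.exists_aut (RingEquiv.refl 𝕜) (fun _ => rfl) d.ζ d.prim.pow_eq_one rfl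
  obtain ⟨σ, s1, s2, s3⟩ := T.exists_aut d.s d.sr 1 (one_pow _) (map_one _)
  rw [one_smul] at s3
  have hζ : d.ζ ≠ 0 := d.prim.ne_zero d.prime.ne_zero
  have hne : ∀ P z, z ≠ 0 → ι P z ≠ 0 := fun P z hz => (_root_.map_ne_zero _).2 hz
  have hτy : ∀ P j, (ι P (τ T.y)).coeff j = d.ζ * (ι P T.y).coeff j := by
    intro P j
    rw [t3, Algebra.smul_def, map_mul, h1, HahnSeries.C_mul_eq_smul, HahnSeries.coeff_smul,
      smul_eq_mul]
  refine ⟨L, inferInstance, inferInstance, ⟨{
    x := T.x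
    y := T.y
    τ := AlgEquiv.ofRingEquiv (f := τ) t1
    σ := σ
    v := fun P z => (ι P z).order
    hy := T.hy
    trans := T.trans
    span := T.span
    τx := t2
    τy := t3
    σx := s2
    σy := s3
    σc := s1
    v_mul := fun P a b ha hb => ?_
    v_add := fun P a b _ _ hab => ?_
    v_const := fun P c _ => ?_
    v_res := fun P z hz h0 => ?_
    v_x := fun q => ?_
    v_y := fun q => ?_
    v_xi := fun a => ?_
    v_yi := fun a => ?_
    v_τ := fun P z => ?_
    v_σ := fun P z => ?_ }⟩⟩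
  · rw [map_mul, HahnSeries.order_mul (hne P a ha) (hne P b hb)]
  · rw [map_add]
    exact HahnSeries.min_order_le_order_add (by rw [← map_add]; exact hne P _ hab)
  · rw [h1, HahnSeries.order_C]
  · refine ⟨(ι P z).coeff 0, ?_⟩
    by_cases h : z = algebraMap 𝕜 L ((ι P z).coeff 0)
    · exact Or.inl h
    refine Or.inr ((HahnSeries.le_order_iff_forall (hne P _ (sub_ne_zero.2 h))).2 fun j hj => ?_)
    rw [map_sub, h1, HahnSeries.coeff_sub, HahnSeries.C_apply]
    by_cases hj0 : j = 0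
    · simp [hj0]
    · rw [HahnSeries.coeff_single_of_ne hj0, sub_zero]
      exact HahnSeries.coeff_eq_zero_of_lt_order (by omega)
  · rw [map_sub, h1, h2, cxξ, add_sub_cancel_left, HahnSeries.order_single one_ne_zero]
  · have hy : T.y - algebraMap 𝕜 L q.1.2 ≠ 0 := by
      simpa [sub_ne_zero] using T.y_ne (C q.1.2)
    refine (HahnSeries.le_order_iff_forall (hne _ _ hy)).2 fun j hj => ?_
    rw [map_sub, h1, HahnSeries.coeff_sub, HahnSeries.C_apply]
    have a3 := h3 (.inl q)
    have a5 := h5 (.inl q)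
    by_cases h0 : q.1.2 = 0
    · simp only [cxj, if_pos h0] at a3
      simp [h0, a3 j hj]
    · simp only [cxj, cxc, if_neg h0] at a3 a5
      by_cases hj0 : j = 0
      · simp [hj0, a5 h0]
      · rw [HahnSeries.coeff_single_of_ne hj0, sub_zero]
        exact a3 j (by omega)
  · rw [h2, cxξ, HahnSeries.order_single one_ne_zero]
  · have hy : T.y / T.x ^ d.m - algebraMap 𝕜 L (d.ζ ^ a.val) ≠ 0 := by
      rw [sub_ne_zero, Ne, div_eq_iff (pow_ne_zero _ T.x_ne)]
      have := T.y_ne (C (d.ζ ^ a.val) * X ^ d.m)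
      rwa [map_mul, aeval_C, aeval_X_pow] at this
    refine (HahnSeries.le_order_iff_forall (hne _ _ hy)).2 fun j hj => ?_
    have a3 := h3 (.inr a)
    have a5 := h5 (.inr a)
    simp only [cxj, cxc] at a3 a5
    rw [map_sub, h1, HahnSeries.coeff_sub, HahnSeries.C_apply, map_div₀, map_pow, h2, cxξ,
      HahnSeries.single_pow, div_eq_mul_inv, HahnSeries.inv_single, HahnSeries.coeff_mul_single]
    by_cases hj0 : j = 0
    · simp [hj0, a5]
    · rw [HahnSeries.coeff_single_of_ne hj0, sub_zero, a3, zero_mul]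
      simp only [smul_neg, nsmul_eq_mul, mul_one, neg_neg]
      omega
  · change (((ι P).comp τ.toRingHom) z).order = _
    have c1 : ∀ c, ((ι P).comp τ.toRingHom) (algebraMap 𝕜 L c) =
        HahnSeries.C (RingEquiv.refl 𝕜 c) := fun c => (congrArg (ι P) (t1 c)).trans (h1 P _)
    have c2 : ((ι P).comp τ.toRingHom) T.x = cxξ d P := (congrArg (ι P) t2).trans (h2 P)
    have a4 := h4 (d.act P)
    have a5 := h5 (d.act P)
    have b5 := h5 P
    rcases P with q | a
    · by_cases h0 : q.1.2 = 0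
      · refine T.order_ram (RingEquiv.refl 𝕜) q.1.1 c1 (h1 _) ?_ ?_ ?_ z
        · rw [c2]; simp [cxξ, h0]
        · rw [h2]; simp [cxξ, Dat.act, h0]
        · simpa [cxj, Dat.act, h0] using a4
      · refine T.order_unr (RingEquiv.refl 𝕜) c1 (h1 _) (j := 0) ?_ ?_ ?_ z
        · rw [c2, h2]
          simp [cxξ, Dat.act, h0, hζ, cxTw_single]
        · simp only [cxj, cxc, Dat.act, if_neg h0, if_neg (mul_ne_zero hζ h0)] at a5 b5
          exact (hτy _ _).trans (by rw [b5 h0]; exact (a5 (mul_ne_zero hζ h0)).symm)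
        · simpa [cxj, Dat.act, h0, hζ] using a4
    · refine T.order_unr (RingEquiv.refl 𝕜) c1 (h1 _) (j := -d.m) ?_ ?_ a4 z
      · rw [c2, h2]
        simp [cxξ, Dat.act, cxTw_single]
      · simp only [cxj, cxc, Dat.act] at a5 b5
        refine (hτy _ _).trans ?_
        have : NeZero d.ℓ := ⟨d.prime.ne_zero⟩
        have : Fact (1 < d.ℓ) := ⟨d.prime.one_lt⟩
        have e : d.ζ ^ (a + 1).val = d.ζ * d.ζ ^ a.val := by
          rw [ZMod.val_add, ZMod.val_one, ← pow_eq_pow_mod _ d.prim.pow_eq_one, pow_succ']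
        rw [b5, ← e]
        exact a5.symm
  · change (((ι P).comp σ.toRingHom) z).order = _
    have c1 : ∀ c, ((ι P).comp σ.toRingHom) (algebraMap 𝕜 L c) = HahnSeries.C (d.s c) :=
      fun c => (congrArg (ι P) (s1 c)).trans (h1 P _)
    have c2 : ((ι P).comp σ.toRingHom) T.x = cxξ d P := (congrArg (ι P) s2).trans (h2 P)
    have c3 : ((ι P).comp σ.toRingHom) T.y = ι P T.y := congrArg (ι P) s3
    have a4 := h4 (d.sact P)
    have a5 := h5 (d.sact P)
    have b5 := h5 P
    rcases P with q | a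
    · by_cases h0 : q.1.2 = 0
      · refine T.order_ram d.s (d.s.symm q.1.1) c1 (h1 _) ?_ ?_ ?_ z
        · rw [c2]; simp [cxξ, h0]
        · rw [h2]; simp [cxξ, Dat.sact, h0]
        · simpa [cxj, Dat.sact, h0] using a4
      · have h0' : d.s.symm q.1.2 ≠ 0 := (_root_.map_ne_zero _).2 h0
        refine T.order_unr d.s c1 (h1 _) (j := 0) ?_ ?_ ?_ z
        · rw [c2, h2]
          simp [cxξ, Dat.sact, h0, cxTw_single]
        · simp only [cxj, cxc, Dat.sact, if_neg h0, if_neg h0'] at a5 b5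
          rw [c3, b5 h0]
          exact (d.s.apply_symm_apply _).symm.trans (congrArg d.s (a5 h0').symm)
        · simpa [cxj, Dat.sact, h0] using a4
    · refine T.order_unr d.s c1 (h1 _) (j := -d.m) ?_ ?_ a4 z
      · rw [c2, h2]
        simp [cxξ, Dat.sact, cxTw_single]
      · simp only [cxj, cxc, Dat.sact] at a5 b5
        rw [c3]
        change _ = d.s ((ι (.inr a) T.y).coeff (-d.m))
        rw [b5, map_pow, d.sζ]

end Vale.Agent.P319
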