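import Vale.Agent.P319.Curve

/-! The function field of the curve, with its universal property. -/

namespace Vale.Agent.P319

open Polynomial Finset

variable {𝕜 : Type} [Field 𝕜]

theorem cx_two_le (d : Dat 𝕜) : 2 ≤ d.n := by
  have h1 := d.prime.two_le
  have h2 := d.mpos
  rw [d.hn]; nlinarith

theorem cx_natDegree (d : Dat 𝕜) : d.f.natDegree = d.n := by
  rw [Dat.f, natDegree_prod_of_monic _ _ fun i _ => monic_X_sub_C _]
  simp

theorem cx_not_pow (d : Dat 𝕜) (p : 𝕜[X]) : p ^ d.ℓ ≠ d.f := by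
  intro h
  have h1 : Squarefree d.f := (separable_prod_X_sub_C_iff.2 d.inj).squarefree
  obtain ⟨k, hk⟩ := Nat.exists_eq_add_of_le d.prime.two_le
  have h2 : IsUnit p := h1 p ⟨p ^ k, by rw [← h, hk]; ring⟩
  have h3 := natDegree_eq_zero_of_isUnit (h ▸ h2.pow d.ℓ)
  have := cx_two_le d
  rw [cx_natDegree] at h3
  omega

theorem cx_eval₂ (d : Dat 𝕜) {M : Type} [CommRing M] (g : 𝕜 →+* M) (ξ : M) :
    eval₂ g ξ d.f = ∏ i, (ξ - g (d.r i)) := by
  simp [Dat.f, eval₂_finsetProd]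

/-- The function field before the places are constructed. -/
structure CxPre (d : Dat 𝕜) (L : Type) [Field L] [Algebra 𝕜 L] where
  x : L
  y : L
  hy : y ^ d.ℓ = aeval x d.f
  trans : ∀ q : 𝕜[X], q ≠ 0 → aeval x q ≠ 0
  span : ∀ z : L, ∃ (q : 𝕜[X]) (c : ℕ → 𝕜[X]), q ≠ 0 ∧
    aeval x q * z = ∑ b ∈ range d.ℓ, aeval x (c b) * y ^ b
  lift : ∀ (M : Type) [Field M] (g : 𝕜 →+* M) (ξ η : M), (∀ q : 𝕜[X], q ≠ 0 → eval₂ g ξ q ≠ 0) →
    η ^ d.ℓ = eval₂ g ξ d.f →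
    ∃ ι : L →+* M, (∀ c, ι (algebraMap 𝕜 L c) = g c) ∧ ι x = ξ ∧ ι y = η

theorem cx_exists_pre (d : Dat 𝕜) :
    ∃ (L : Type) (_ : Field L) (_ : Algebra 𝕜 L), Nonempty (CxPre d L) := by
  let K := RatFunc 𝕜
  let a : K := algebraMap 𝕜[X] K d.f
  let G : K[X] := X ^ d.ℓ - C a
  have hirr : Irreducible G := by
    refine X_pow_sub_C_irreducible_of_prime d.prime fun b hb => ?_
    obtain ⟨p, rfl⟩ := IsIntegrallyClosed.exists_algebraMap_eq_of_isIntegral_pow (R := 𝕜[X])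
      (x := b) d.prime.pos (hb ▸ isIntegral_algebraMap)
    rw [← map_pow] at hb
    exact cx_not_pow d p (IsFractionRing.injective 𝕜[X] K hb)
  have : Fact (Irreducible G) := ⟨hirr⟩
  let L := AdjoinRoot G
  let x : L := algebraMap K L RatFunc.X
  have hx : ∀ q : 𝕜[X], aeval x q = algebraMap K L (algebraMap 𝕜[X] K q) := by
    intro q
    rw [aeval_algebraMap_apply, ← RatFunc.algebraMap_X, aeval_algebraMap_apply, aeval_X_left_apply]
  have hroot : AdjoinRoot.root G ^ d.ℓ = algebraMap K L a := by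
    have := AdjoinRoot.eval₂_root G
    simp only [G, eval₂_sub, eval₂_X_pow, eval₂_C] at this
    exact sub_eq_zero.1 this
  refine ⟨L, inferInstance, inferInstance, ⟨⟨x, AdjoinRoot.root G, ?_, ?_, ?_, ?_⟩⟩⟩
  · rw [hx, hroot]
  · intro q hq
    rw [hx, _root_.map_ne_zero, map_ne_zero_iff _ (IsFractionRing.injective 𝕜[X] K)]
    exact hq
  · intro z
    obtain ⟨p, hp, rfl⟩ := (AdjoinRoot.powerBasis hirr.ne_zero).exists_eq_aeval z
    rw [AdjoinRoot.powerBasis_dim, natDegree_X_pow_sub_C] at hp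
    obtain ⟨b, hb, e⟩ := IsLocalization.integerNormalization_spec (nonZeroDivisors 𝕜[X]) p
    refine ⟨b, fun i => (IsLocalization.integerNormalization (nonZeroDivisors 𝕜[X]) p).coeff i,
      nonZeroDivisors.ne_zero hb, ?_⟩
    rw [AdjoinRoot.powerBasis_gen, aeval_eq_sum_range' hp, mul_sum]
    refine sum_congr rfl fun i _ => ?_
    have e1 := congrArg (fun t => t.coeff i) e
    simp only [coeff_map, coeff_smul] at e1
    rw [hx, hx, e1, Algebra.smul_def, Algebra.smul_def, map_mul, mul_assoc]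
  · intro M _ g ξ η hξ hη
    have hinj : Function.Injective (eval₂RingHom g ξ) :=
      (injective_iff_map_eq_zero _).2 fun q hq => by
        by_contra h0
        exact hξ q h0 hq
    let φ : K →+* M := IsFractionRing.lift hinj
    have hφ : ∀ q : 𝕜[X], φ (algebraMap 𝕜[X] K q) = eval₂ g ξ q := fun q =>
      IsFractionRing.lift_algebraMap hinj q
    have hG : G.eval₂ φ η = 0 := by
      simp only [G, a, eval₂_sub, eval₂_X_pow, eval₂_C, hφ, hη, sub_self]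
    refine ⟨AdjoinRoot.lift φ η hG, fun c => ?_, ?_, AdjoinRoot.lift_root hG⟩
    · rw [IsScalarTower.algebraMap_apply 𝕜 K L, AdjoinRoot.algebraMap_eq, AdjoinRoot.lift_of,
        IsScalarTower.algebraMap_apply 𝕜 𝕜[X] K, hφ, algebraMap_eq, eval₂_C]
    · simp only [x]
      rw [AdjoinRoot.algebraMap_eq, AdjoinRoot.lift_of, ← RatFunc.algebraMap_X, hφ, eval₂_X]

namespace CxPre

variable {d : Dat 𝕜} {L : Type} [Field L] [Algebra 𝕜 L] (T : CxPre d L)

theorem map_aeval {M : Type} [CommRing M] (ι : L →+* M) (q : 𝕜[X]) :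
    ι (aeval T.x q) = eval₂ (ι.comp (algebraMap 𝕜 L)) (ι T.x) q := by
  rw [aeval_def, hom_eval₂]

theorem ext {M : Type} [Field M] {ι ι' : L →+* M}
    (hc : ∀ c, ι (algebraMap 𝕜 L c) = ι' (algebraMap 𝕜 L c)) (hx : ι T.x = ι' T.x)
    (hy : ι T.y = ι' T.y) : ι = ι' := by
  have h1 : ∀ q : 𝕜[X], ι (aeval T.x q) = ι' (aeval T.x q) := by
    intro q
    have e : ι.comp (algebraMap 𝕜 L) = ι'.comp (algebraMap 𝕜 L) := RingHom.ext hc
    rw [T.map_aeval, T.map_aeval, hx, e]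
  ext z
  obtain ⟨q, c, hq, e⟩ := T.span z
  have h2 : ι' (aeval T.x q) ≠ 0 := (_root_.map_ne_zero _).2 (T.trans q hq)
  refine mul_left_cancel₀ h2 ?_
  rw [← map_mul, ← h1, ← map_mul, e, map_sum, map_sum]
  exact sum_congr rfl fun b _ => by rw [map_mul, map_mul, map_pow, map_pow, h1, hy]

theorem y_ne (p : 𝕜[X]) : T.y ≠ aeval T.x p := by
  intro h
  have h1 := T.hy
  rw [h, ← map_pow, ← sub_eq_zero, ← map_sub] at h1
  exact T.trans _ (sub_ne_zero.2 (cx_not_pow d p)) h1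

theorem x_ne : T.x ≠ 0 := by simpa using T.trans X X_ne_zero

/-- Endomorphisms fixing `x`. -/
theorem exists_end (s : 𝕜 ≃+* 𝕜) (hs : ∀ i, s (d.r i) = d.r i) (ω : 𝕜) (hω : ω ^ d.ℓ = 1) :
    ∃ α : L →+* L, (∀ c, α (algebraMap 𝕜 L c) = algebraMap 𝕜 L (s c)) ∧ α T.x = T.x ∧
      α T.y = ω • T.y := by
  refine T.lift L ((algebraMap 𝕜 L).comp s.toRingHom) T.x (ω • T.y) (fun q hq => ?_) ?_
  · rw [← eval₂_map]
    exact T.trans _ ((Polynomial.map_ne_zero_iff s.injective).2 hq)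
  · rw [_root_.smul_pow, hω, one_smul, T.hy, aeval_def, cx_eval₂, cx_eval₂]
    simp [hs]

theorem exists_aut (s : 𝕜 ≃+* 𝕜) (hs : ∀ i, s (d.r i) = d.r i) (ω : 𝕜) (hω : ω ^ d.ℓ = 1)
    (hsω : s ω = ω) :
    ∃ α : L ≃+* L, (∀ c, α (algebraMap 𝕜 L c) = algebraMap 𝕜 L (s c)) ∧ α T.x = T.x ∧
      α T.y = ω • T.y := by
  have h0 : ω ≠ 0 := fun h => by
    rw [h, zero_pow d.prime.ne_zero] at hω
    exact zero_ne_one hω
  have hsω' : s.symm ω = ω := by rw [RingEquiv.symm_apply_eq, hsω]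
  obtain ⟨α, a1, a2, a3⟩ := T.exists_end s hs ω hω
  obtain ⟨β, b1, b2, b3⟩ := T.exists_end s.symm
    (fun i => by rw [RingEquiv.symm_apply_eq, hs]) ω⁻¹ (by rw [inv_pow, hω, inv_one])
  refine ⟨RingEquiv.ofRingHom α β (T.ext (fun c => ?_) ?_ ?_) (T.ext (fun c => ?_) ?_ ?_),
    a1, a2, a3⟩
  · simp [a1, b1]
  · simp [a2, b2]
  · rw [RingHom.comp_apply, b3, Algebra.smul_def, map_mul, a1, a3, map_inv₀, hsω,
      ← Algebra.smul_def, smul_smul, inv_mul_cancel₀ h0, one_smul, RingHom.id_apply]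
  · simp [a1, b1]
  · simp [a2, b2]
  · rw [RingHom.comp_apply, a3, Algebra.smul_def, map_mul, b1, b3, hsω',
      ← Algebra.smul_def, smul_smul, mul_inv_cancel₀ h0, one_smul, RingHom.id_apply]

end CxPre

end Vale.Agent.P319
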