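import Vale.Agent.P319.CurveExa

/-! Local parametrisations of the curve by Laurent series. -/

namespace Vale.Agent.P319

open Polynomial Finset
open scoped LaurentSeries PowerSeries

variable {𝕜 : Type} [Field 𝕜]

/-- Twisting a Laurent series by an automorphism of the constants and a rescaling. -/
noncomputable def cxTwF (s : 𝕜 ≃+* 𝕜) (ω : 𝕜) (f : 𝕜⸨X⸩) : 𝕜⸨X⸩ :=
  ⟨fun n => ω ^ n * s (f.coeff n), f.isPWO_support.mono fun n hn h => hn (by simp [h])⟩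

theorem cxTwF_coeff (s : 𝕜 ≃+* 𝕜) (ω : 𝕜) (f : 𝕜⸨X⸩) (n : ℤ) :
    (cxTwF s ω f).coeff n = ω ^ n * s (f.coeff n) := rfl

theorem cxTwF_support (s : 𝕜 ≃+* 𝕜) {ω : 𝕜} (hω : ω ≠ 0) (f : 𝕜⸨X⸩) :
    (cxTwF s ω f).support = f.support := by
  ext n
  simp [HahnSeries.mem_support, cxTwF_coeff, zpow_ne_zero n hω]

theorem cxTwF_single (s : 𝕜 ≃+* 𝕜) (ω : 𝕜) (n : ℤ) (c : 𝕜) :
    cxTwF s ω (HahnSeries.single n c) = HahnSeries.single n (ω ^ n * s c) := by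
  ext j
  rw [cxTwF_coeff]
  by_cases h : j = n
  · simp [h]
  · simp [HahnSeries.coeff_single_of_ne h]

/-- The twist as a ring homomorphism. -/
noncomputable def cxTw (s : 𝕜 ≃+* 𝕜) (ω : 𝕜) (hω : ω ≠ 0) : 𝕜⸨X⸩ →+* 𝕜⸨X⸩ where
  toFun := cxTwF s ω
  map_one' := by
    rw [← HahnSeries.single_zero_one, cxTwF_single]; simp
  map_zero' := by ext n; simp [cxTwF_coeff]
  map_add' f g := by ext n; simp [cxTwF_coeff, mul_add]
  map_mul' f g := by
    ext n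
    rw [cxTwF_coeff, HahnSeries.coeff_mul, HahnSeries.coeff_mul, map_sum, mul_sum]
    refine sum_congr ?_ fun ij hij => ?_
    · ext ij
      simp only [Finset.mem_antidiagonal, cxTwF_support s hω]
    · rw [Finset.mem_antidiagonal] at hij
      rw [cxTwF_coeff, cxTwF_coeff, ← hij.2.2, zpow_add₀ hω, map_mul]
      ring

theorem cxTw_apply (s : 𝕜 ≃+* 𝕜) (ω : 𝕜) (hω : ω ≠ 0) (f : 𝕜⸨X⸩) :
    cxTw s ω hω f = cxTwF s ω f := rfl

theorem cxTw_C (s : 𝕜 ≃+* 𝕜) (ω : 𝕜) (hω : ω ≠ 0) (c : 𝕜) :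
    cxTw s ω hω (HahnSeries.C c) = HahnSeries.C (s c) := by
  rw [cxTw_apply, HahnSeries.C_apply, cxTwF_single]; simp

theorem cxTw_single (s : 𝕜 ≃+* 𝕜) (ω : 𝕜) (hω : ω ≠ 0) (n : ℤ) (c : 𝕜) :
    cxTw s ω hω (HahnSeries.single n c) = HahnSeries.single n (ω ^ n * s c) :=
  cxTwF_single s ω n c

theorem cxTw_order (s : 𝕜 ≃+* 𝕜) (ω : 𝕜) (hω : ω ≠ 0) (f : 𝕜⸨X⸩) :
    (cxTw s ω hω f).order = f.order := by
  by_cases hf : f = 0
  · simp [hf]
  have hf' : cxTw s ω hω f ≠ 0 := (_root_.map_ne_zero _).2 hf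
  apply le_antisymm
  · refine HahnSeries.order_le_of_coeff_ne_zero ?_
    rw [← HahnSeries.mem_support, cxTw_apply, cxTwF_support s hω, HahnSeries.mem_support]
    exact fun h => hf (HahnSeries.coeff_order_eq_zero.1 h)
  · refine HahnSeries.order_le_of_coeff_ne_zero ?_
    rw [← HahnSeries.mem_support, ← cxTwF_support s hω, HahnSeries.mem_support]
    exact fun h => hf' (HahnSeries.coeff_order_eq_zero.1 h)

theorem cx_root (d : Dat 𝕜) (u : 𝕜⟦X⟧) (c : 𝕜) (hc : c ≠ 0)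
    (hu : PowerSeries.constantCoeff u = c ^ d.ℓ) :
    ∃ w : 𝕜⟦X⟧, w ^ d.ℓ = u ∧ PowerSeries.constantCoeff w = c := by
  have : NeZero d.ℓ := ⟨d.prime.ne_zero⟩
  have hl : (d.ℓ : 𝕜) ≠ 0 := d.prim.neZero'.out
  obtain ⟨w, hw, hw'⟩ := HenselianRing.is_henselian
    (I := (Ideal.span {PowerSeries.X} : Ideal 𝕜⟦X⟧)) (X ^ d.ℓ - C u)
    (monic_X_pow_sub_C u d.prime.ne_zero) (PowerSeries.C c)
    (by rw [Ideal.mem_span_singleton, PowerSeries.X_dvd_iff]; simp [hu])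
    (by
      refine IsUnit.map _ ?_
      rw [PowerSeries.isUnit_iff_constantCoeff]
      simp [derivative_X_pow, hl, hc])
  refine ⟨w, ?_, ?_⟩
  · simpa [sub_eq_zero] using hw
  · rw [Ideal.mem_span_singleton, PowerSeries.X_dvd_iff] at hw'
    simpa [sub_eq_zero] using hw'

theorem cx_trans [IsAlgClosed 𝕜] {M : Type} [Field M] (g : 𝕜 →+* M) (ξ : M)
    (h : ∀ c, ξ ≠ g c) (q : 𝕜[X]) (hq : q ≠ 0) : eval₂ g ξ q ≠ 0 := by
  rw [(IsAlgClosed.splits q).eq_prod_roots, eval₂_mul, eval₂_C, eval₂_multiset_prod]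
  refine mul_ne_zero ((_root_.map_ne_zero _).2 (leadingCoeff_ne_zero.2 hq))
    (Multiset.prod_ne_zero ?_)
  simp only [Multiset.map_map, Multiset.mem_map, not_exists, not_and]
  intro c _
  simpa [sub_eq_zero] using h c

open Classical in
/-- The expansion of `x` at a place. -/
noncomputable def cxξ (d : Dat 𝕜) : d.Pl → 𝕜⸨X⸩
  | .inl q => HahnSeries.C q.1.1 + HahnSeries.single (if q.1.2 = 0 then (d.ℓ : ℤ) else 1) 1
  | .inr _ => HahnSeries.single (-1) 1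

open Classical in
/-- The order of `y` at a place. -/
noncomputable def cxj (d : Dat 𝕜) : d.Pl → ℤ
  | .inl q => if q.1.2 = 0 then 1 else 0
  | .inr _ => -d.m

/-- The condition on the leading coefficient of `y` at a place. -/
def cxc (d : Dat 𝕜) : d.Pl → 𝕜 → Prop
  | .inl q, c => q.1.2 ≠ 0 → c = q.1.2
  | .inr a, c => c = d.ζ ^ a.val

theorem cxξ_ne (d : Dat 𝕜) (P : d.Pl) (c : 𝕜) : cxξ d P ≠ HahnSeries.C c := by
  classical
  have hl := d.prime.two_le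
  intro h
  rcases P with q | a
  · have h0 : (if q.1.2 = 0 then (d.ℓ : ℤ) else 1) ≠ 0 := by split_ifs <;> omega
    have := congrArg (fun f => f.coeff (if q.1.2 = 0 then (d.ℓ : ℤ) else 1)) h
    simp [cxξ, HahnSeries.C_apply, HahnSeries.coeff_single_of_ne h0] at this
  · have := congrArg (fun f => f.coeff (-1)) h
    simp [cxξ, HahnSeries.C_apply] at this

theorem cx_loc [IsAlgClosed 𝕜] (d : Dat 𝕜) (P : d.Pl) :
    ∃ w : 𝕜⟦X⟧, PowerSeries.constantCoeff w ≠ 0 ∧ cxc d P (PowerSeries.constantCoeff w) ∧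
      (HahnSeries.single (cxj d P) (1 : 𝕜) * (w : 𝕜⸨X⸩)) ^ d.ℓ =
        eval₂ HahnSeries.C (cxξ d P) d.f := by
  classical
  rw [cx_eval₂]
  rcases P with q | a
  · have hq : q.1.2 ^ d.ℓ = ∏ j, (q.1.1 - d.r j) := by
      rw [q.2]; simp [Dat.f, eval_prod]
    by_cases h0 : q.1.2 = 0
    · rw [h0, zero_pow d.prime.ne_zero, eq_comm, prod_eq_zero_iff] at hq
      obtain ⟨i, -, hi⟩ := hq
      have hne : ∏ j ∈ univ.erase i, (q.1.1 - d.r j) ≠ 0 := by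
        refine prod_ne_zero_iff.2 fun j hj => ?_
        rw [sub_eq_zero.1 hi, sub_ne_zero]
        exact fun h => (mem_erase.1 hj).1 (d.inj h).symm
      obtain ⟨β, hβ⟩ := IsAlgClosed.exists_pow_nat_eq (∏ j ∈ univ.erase i, (q.1.1 - d.r j))
        d.prime.pos
      have hβ0 : β ≠ 0 := fun h => hne (by rw [← hβ, h, zero_pow d.prime.ne_zero])
      obtain ⟨w, hw, hw'⟩ := cx_root d
        (∏ j ∈ univ.erase i, (PowerSeries.C (q.1.1 - d.r j) + PowerSeries.X ^ d.ℓ)) β hβ0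
        (by simp [hβ, d.prime.ne_zero])
      refine ⟨w, hw' ▸ hβ0, fun h => absurd h0 h, ?_⟩
      rw [mul_pow, ← map_pow (HahnSeries.ofPowerSeries ℤ 𝕜), hw, ← mul_prod_erase _ _ (mem_univ i), map_prod]
      simp only [cxj, cxξ, if_pos h0]
      congr 1
      · rw [HahnSeries.single_pow, sub_eq_zero.1 hi]; simp
      · refine prod_congr rfl fun j _ => ?_
        rw [map_add, HahnSeries.ofPowerSeries_C, HahnSeries.ofPowerSeries_X_pow, map_sub]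
        ring
    · obtain ⟨w, hw, hw'⟩ := cx_root d
        (∏ j, (PowerSeries.C (q.1.1 - d.r j) + PowerSeries.X)) q.1.2 h0 (by simp [hq])
      refine ⟨w, hw' ▸ h0, fun _ => hw', ?_⟩
      simp only [cxj, cxξ, if_neg h0]
      rw [HahnSeries.single_zero_one, one_mul, ← map_pow, hw, map_prod]
      refine prod_congr rfl fun j _ => ?_
      rw [map_add, HahnSeries.ofPowerSeries_C, HahnSeries.ofPowerSeries_X, map_sub]
      ring
  · have hζ : d.ζ ^ a.val ≠ 0 := pow_ne_zero _ (d.prim.ne_zero d.prime.ne_zero)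
    obtain ⟨w, hw, hw'⟩ := cx_root d
      (∏ j, (1 - PowerSeries.C (d.r j) * PowerSeries.X)) (d.ζ ^ a.val) hζ
      (by rw [← pow_mul, mul_comm, pow_mul, d.prim.pow_eq_one]; simp)
    refine ⟨w, hw' ▸ hζ, hw', ?_⟩
    simp only [cxj, cxξ]
    have e : (HahnSeries.single (-(d.m : ℤ)) (1 : 𝕜)) ^ d.ℓ =
        ∏ _j : Fin d.n, (HahnSeries.single (-1 : ℤ) (1 : 𝕜)) := by
      rw [prod_const, HahnSeries.single_pow, HahnSeries.single_pow, card_univ, Fintype.card_fin,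
        one_pow, one_pow, d.hn]
      congr 2
      simp
    rw [mul_pow, ← map_pow (HahnSeries.ofPowerSeries ℤ 𝕜), hw, map_prod, e, ← prod_mul_distrib]
    refine prod_congr rfl fun j _ => ?_
    rw [map_sub, map_one (HahnSeries.ofPowerSeries ℤ 𝕜), map_mul, HahnSeries.ofPowerSeries_C, HahnSeries.ofPowerSeries_X, mul_sub,
      mul_left_comm, HahnSeries.single_mul_single]
    simp

namespace CxPre

variable {d : Dat 𝕜} {L : Type} [Field L] [Algebra 𝕜 L] (T : CxPre d L)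

theorem exists_emb [IsAlgClosed 𝕜] (P : d.Pl) : ∃ ι : L →+* 𝕜⸨X⸩,
    (∀ c, ι (algebraMap 𝕜 L c) = HahnSeries.C c) ∧ ι T.x = cxξ d P ∧
      (∀ j < cxj d P, (ι T.y).coeff j = 0) ∧ (ι T.y).coeff (cxj d P) ≠ 0 ∧
      cxc d P ((ι T.y).coeff (cxj d P)) := by
  obtain ⟨w, h1, h2, h3⟩ := cx_loc d P
  obtain ⟨ι, a1, a2, a3⟩ := T.lift _ HahnSeries.C (cxξ d P) _
    (cx_trans _ _ (cxξ_ne d P)) h3
  have e : (ι T.y).coeff (cxj d P) = PowerSeries.constantCoeff w := by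
    rw [a3, HahnSeries.coeff_single_mul, PowerSeries.coeff_coe]
    simp
  refine ⟨ι, a1, a2, fun j hj => ?_, e ▸ h1, e ▸ h2⟩
  rw [a3, HahnSeries.coeff_single_mul, PowerSeries.coeff_coe, if_pos (by omega), mul_zero]

theorem root_rel {ι ι' : L →+* 𝕜⸨X⸩}
    (hc : ∀ c, ι (algebraMap 𝕜 L c) = ι' (algebraMap 𝕜 L c)) (hx : ι T.x = ι' T.x) :
    ∃ ω : 𝕜, ω ^ d.ℓ = 1 ∧ ι T.y = HahnSeries.C ω * ι' T.y := by
  have : NeZero d.ℓ := ⟨d.prime.ne_zero⟩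
  have hy : ι' T.y ≠ 0 := (_root_.map_ne_zero _).2 (by simpa using T.y_ne 0)
  have e : ι.comp (algebraMap 𝕜 L) = ι'.comp (algebraMap 𝕜 L) := RingHom.ext hc
  have h1 : (ι T.y / ι' T.y) ^ d.ℓ = 1 := by
    rw [div_pow, ← map_pow, ← map_pow, T.hy, T.map_aeval, T.map_aeval, hx, e, ← T.map_aeval,
      ← T.hy, map_pow, div_self (pow_ne_zero _ hy)]
  obtain ⟨i, -, hi⟩ := (d.prim.map_of_injective
    (f := (HahnSeries.C : 𝕜 →+* 𝕜⸨X⸩)) HahnSeries.C_injective).eq_pow_of_pow_eq_one h1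
  refine ⟨d.ζ ^ i, by rw [← pow_mul, mul_comm, pow_mul, d.prim.pow_eq_one, one_pow], ?_⟩
  rw [map_pow, hi, div_mul_cancel₀ _ hy]

theorem eq_of_coeff {ι ι' : L →+* 𝕜⸨X⸩}
    (hc : ∀ c, ι (algebraMap 𝕜 L c) = ι' (algebraMap 𝕜 L c)) (hx : ι T.x = ι' T.x) {j : ℤ}
    (hj : (ι T.y).coeff j = (ι' T.y).coeff j) (h0 : (ι' T.y).coeff j ≠ 0) : ι = ι' := by
  obtain ⟨ω, -, h⟩ := T.root_rel hc hx
  have h1 : ω = 1 := by
    rw [h, HahnSeries.C_mul_eq_smul, HahnSeries.coeff_smul, smul_eq_mul] at hj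
    exact (mul_eq_right₀ h0).1 hj
  exact T.ext hc hx (by rw [h, h1, map_one, one_mul])

theorem order_ram {ι ι' : L →+* 𝕜⸨X⸩} (s : 𝕜 ≃+* 𝕜) (a : 𝕜)
    (hc : ∀ c, ι (algebraMap 𝕜 L c) = HahnSeries.C (s c))
    (hc' : ∀ c, ι' (algebraMap 𝕜 L c) = HahnSeries.C c)
    (hx : ι T.x = HahnSeries.C (s a) + HahnSeries.single (d.ℓ : ℤ) 1)
    (hx' : ι' T.x = HahnSeries.C a + HahnSeries.single (d.ℓ : ℤ) 1)
    (h0 : (ι' T.y).coeff 1 ≠ 0) (z : L) : (ι z).order = (ι' z).order := by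
  have key : ∀ (ω : 𝕜) (hω : ω ≠ 0), ω ^ d.ℓ = 1 →
      (∀ c, ι (algebraMap 𝕜 L c) = (cxTw s ω hω).comp ι' (algebraMap 𝕜 L c)) ∧
      ι T.x = (cxTw s ω hω).comp ι' T.x := by
    intro ω hω h1
    refine ⟨fun c => by rw [RingHom.comp_apply, hc, hc', cxTw_C], ?_⟩
    rw [RingHom.comp_apply, hx, hx', map_add, cxTw_C, cxTw_apply, cxTwF_single, zpow_natCast, h1]
    simp
  obtain ⟨k1, k2⟩ := key 1 one_ne_zero (one_pow _)
  obtain ⟨ω, hω, h⟩ := T.root_rel k1 k2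
  have hω0 : ω ≠ 0 := fun h => by
    rw [h, zero_pow d.prime.ne_zero] at hω
    exact zero_ne_one hω
  obtain ⟨k3, k4⟩ := key ω hω0 hω
  have e : ι = (cxTw s ω hω0).comp ι' := by
    refine T.eq_of_coeff k3 k4 (j := 1) ?_ ?_
    · rw [h, HahnSeries.C_mul_eq_smul, HahnSeries.coeff_smul]
      simp [cxTw_apply, cxTwF_coeff]
    · simp [cxTw_apply, cxTwF_coeff, hω0, h0]
  rw [e, RingHom.comp_apply, cxTw_order]

theorem order_unr {ι ι' : L →+* 𝕜⸨X⸩} (s : 𝕜 ≃+* 𝕜)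
    (hc : ∀ c, ι (algebraMap 𝕜 L c) = HahnSeries.C (s c))
    (hc' : ∀ c, ι' (algebraMap 𝕜 L c) = HahnSeries.C c)
    (hx : ι T.x = cxTw s 1 one_ne_zero (ι' T.x)) {j : ℤ}
    (hj : (ι T.y).coeff j = s ((ι' T.y).coeff j))
    (h0 : (ι' T.y).coeff j ≠ 0) (z : L) : (ι z).order = (ι' z).order := by
  have e : ι = (cxTw s 1 one_ne_zero).comp ι' := by
    refine T.eq_of_coeff (fun c => by rw [RingHom.comp_apply, hc, hc', cxTw_C]) hx (j := j) ?_ ?_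
    · simp [cxTw_apply, cxTwF_coeff, hj]
    · simp [cxTw_apply, cxTwF_coeff, h0]
  rw [e, RingHom.comp_apply, cxTw_order]

end CxPre

end Vale.Agent.P319
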