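import Vale.Agent.P319.Basis

/-! Every invariant function is a norm. -/

namespace Vale.Agent.P319.Curve

open Polynomial Finset

section Abstract

variable {M : Type} [Field M] {ℓ : ℕ} {ζ : M}

theorem ne_pow_succ (ρ : M →+* M) (k : ℕ) (z : M) : (ρ ^ (k + 1)) z = ρ ((ρ ^ k) z) := by
  rw [pow_succ']
  rfl

theorem ne_pow_succ' (ρ : M →+* M) (k : ℕ) (z : M) : (ρ ^ (k + 1)) z = (ρ ^ k) (ρ z) := by
  rw [pow_succ]
  rfl

theorem ne_pow_fix (ρ : M →+* M) {z : M} (h : ρ z = z) (k : ℕ) : (ρ ^ k) z = z := by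
  induction k with
  | zero => rfl
  | succ k ih => rw [ne_pow_succ, ih, h]

theorem ne_pow_eig (ρ : M →+* M) {t : M} (hζ : ρ ζ = ζ) (h : ρ t = ζ * t) (k : ℕ) :
    (ρ ^ k) t = ζ ^ k * t := by
  induction k with
  | zero => simp
  | succ k ih => rw [ne_pow_succ, ih, map_mul, map_pow, hζ, h]; ring

theorem ne_h90 (hl : (ℓ : M) ≠ 0) (h1 : ζ ^ ℓ = 1)
    (hs : ∀ e, ∑ j ∈ range ℓ, ζ ^ (j * e) = if ℓ ∣ e then (ℓ : M) else 0) (ρ : M →+* M) {t u : M}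
    (ht : t ≠ 0) (ρζ : ρ ζ = ζ) (ρt : ρ t = ζ * t) (hu : ∏ k ∈ range ℓ, (ρ ^ k) u = 1) :
    ∃ w, w ≠ 0 ∧ u * ρ w = w := by
  have hpos : 0 < ℓ := Nat.pos_of_ne_zero fun h => hl (by simp [h])
  obtain ⟨P, hP⟩ : ∃ P : ℕ → M, ∀ k, P k = ∏ j ∈ range k, (ρ ^ j) u := ⟨_, fun _ => rfl⟩
  have P0 : P 0 = 1 := by simp [hP]
  have Pl : P ℓ = 1 := by rw [hP, hu]
  have Ps : ∀ k, u * ρ (P k) = P (k + 1) := by
    intro k
    rw [hP, hP, prod_range_succ', map_prod, mul_comm]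
    simp only [ne_pow_succ]
    rfl
  have hsum : ∑ b ∈ range ℓ, ∑ k ∈ range ℓ, P k * ζ ^ (b * k) = ℓ := by
    rw [sum_comm]
    simp only [← mul_sum, hs]
    rw [sum_eq_single 0]
    · simp [P0]
    · intro k hk hk0
      rw [if_neg (Nat.not_dvd_of_pos_of_lt (Nat.pos_of_ne_zero hk0) (mem_range.1 hk)), mul_zero]
    · intro h
      exact absurd (mem_range.2 hpos) h
  obtain ⟨b, -, hb⟩ := exists_ne_zero_of_sum_ne_zero (hsum ▸ hl)
  refine ⟨(∑ k ∈ range ℓ, P k * ζ ^ (b * k)) * t ^ b, mul_ne_zero hb (pow_ne_zero _ ht), ?_⟩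
  have h2 : ∑ k ∈ range ℓ, P (k + 1) * ζ ^ (b * (k + 1)) = ∑ k ∈ range ℓ, P k * ζ ^ (b * k) := by
    have h3 := sum_range_succ (fun k => P k * ζ ^ (b * k)) ℓ
    rw [sum_range_succ', P0, Pl, mul_comm b ℓ, pow_mul ζ ℓ, h1] at h3
    simpa using h3
  rw [map_mul, map_sum, map_pow, ρt, ← h2, ← mul_assoc, mul_sum, sum_mul, sum_mul]
  refine sum_congr rfl fun k _ => ?_
  rw [map_mul, map_pow, ρζ, ← Ps]
  ring

theorem ne_core (hl : (ℓ : M) ≠ 0) (h1 : ζ ^ ℓ = 1)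
    (hs : ∀ e, ∑ j ∈ range ℓ, ζ ^ (j * e) = if ℓ ∣ e then (ℓ : M) else 0) (ρ τ : M →+* M)
    (hc : ∀ z, ρ (τ z) = τ (ρ z)) (hτ : ∀ z, (τ ^ ℓ) z = z) {t y Φ : M} (ht : t ≠ 0) (hy : y ≠ 0)
    (ρζ : ρ ζ = ζ) (ρt : ρ t = ζ * t) (τt : τ t = t) (ρy : ρ y = y) (τy : τ y = ζ * y)
    (τΦ : τ Φ = Φ) (hΦ : ∏ k ∈ range ℓ, (ρ ^ k) Φ = y ^ ℓ) :
    ∃ z, z ≠ 0 ∧ ρ z = z ∧ ∏ k ∈ range ℓ, (τ ^ k) z = t ^ ℓ := by
  have hpos : ℓ ≠ 0 := fun h => hl (by simp [h])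
  have hζ : ζ ≠ 0 := fun h => by simp [h, hpos] at h1
  obtain ⟨w, hw, h2⟩ := ne_h90 hl h1 hs ρ (u := Φ / y) ht ρζ ρt (by
    simp only [map_div₀, ne_pow_fix ρ ρy]
    rw [prod_div_distrib, hΦ, prod_const, card_range, div_self (pow_ne_zero _ hy)])
  have hw' : ∀ k, (τ ^ k) w ≠ 0 := fun k => (_root_.map_ne_zero _).2 hw
  have hw1 : τ w ≠ 0 := (_root_.map_ne_zero _).2 hw
  have hw2 : ρ (τ w) ≠ 0 := (_root_.map_ne_zero _).2 hw1
  have h3 := congrArg τ h2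
  rw [map_mul, map_div₀, τΦ, τy, ← hc] at h3
  refine ⟨t * w / τ w, div_ne_zero (mul_ne_zero ht hw) hw1, ?_, ?_⟩
  · rw [map_div₀, map_mul, ρt, div_eq_div_iff hw2 hw1]
    field_simp at h2 h3
    have h4 : y * (ζ * t * ρ w * τ w - t * w * ρ (τ w)) = 0 := by
      linear_combination (t * ρ (τ w)) * h2 - (t * ρ w) * h3
    exact sub_eq_zero.1 ((mul_eq_zero.1 h4).resolve_left hy)
  · have h4 : ∀ k, ∏ j ∈ range k, (τ ^ j) (t * w / τ w) = t ^ k * w / (τ ^ k) w := by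
      intro k
      induction k with
      | zero => simp [hw]
      | succ k ih =>
        rw [prod_range_succ, ih, map_div₀, map_mul, ne_pow_fix τ τt, ← ne_pow_succ']
        have := hw' k
        have := hw' (k + 1)
        field_simp
        ring
    rw [h4, hτ, mul_div_cancel_right₀ _ hw]

end Abstract

variable {𝕜 L : Type} [Field 𝕜] [IsAlgClosed 𝕜] [Field L] [Algebra 𝕜 L] {d : Dat 𝕜}
  (T : Curve d L)

omit [IsAlgClosed 𝕜] in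
theorem ne_not_pow (c : 𝕜) (b : L) : b ^ d.ℓ ≠ algebraMap 𝕜 L c - T.x := by
  intro h
  have h0 : algebraMap 𝕜 L c - T.x ≠ 0 := fun h1 => T.x_sub_ne c (by rw [← neg_sub, h1, neg_zero])
  have hb : b ≠ 0 := by
    rintro rfl
    rw [zero_pow d.prime.ne_zero] at h
    exact h0 h.symm
  have h1 := T.v_aeval_inf 0 (X_sub_C_ne_zero c)
  rw [natDegree_X_sub_C, map_sub, aeval_X, aeval_C, ← neg_sub, v_neg, ← h, v_pow hb] at h1
  have h2 : (d.ℓ : ℤ) ∣ 1 := ⟨-T.v (.inr 0) b, by push_cast at h1; linarith⟩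
  have h3 := Int.le_of_dvd one_pos h2
  have h4 := d.two_le
  omega

/-- An element of the Kummer extension fixed by the rotation of the root is a scalar. -/
theorem ne_fixed {L : Type} [Field L] {ℓ : ℕ} {u ζ : L} [Fact (Irreducible (X ^ ℓ - C u))]
    (hl : (ℓ : L) ≠ 0) (hs : ∀ e, ∑ j ∈ range ℓ, ζ ^ (j * e) = if ℓ ∣ e then (ℓ : L) else 0)
    (ρ : AdjoinRoot (X ^ ℓ - C u) →+* AdjoinRoot (X ^ ℓ - C u))
    (h1 : ∀ a, ρ (AdjoinRoot.of _ a) = AdjoinRoot.of _ a)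
    (h2 : ρ (AdjoinRoot.root _) = AdjoinRoot.of _ ζ * AdjoinRoot.root _)
    {z : AdjoinRoot (X ^ ℓ - C u)} (hz : ρ z = z) : ∃ g, z = AdjoinRoot.of _ g := by
  have ht : AdjoinRoot.root (X ^ ℓ - C u) ^ ℓ = AdjoinRoot.of _ u := by
    have := AdjoinRoot.eval₂_root (X ^ ℓ - C u)
    rwa [eval₂_sub, eval₂_X_pow, eval₂_C, sub_eq_zero] at this
  have key : ∀ z : AdjoinRoot (X ^ ℓ - C u),
      ∃ g, ∑ k ∈ range ℓ, (ρ ^ k) z = AdjoinRoot.of _ g := by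
    intro z
    induction z using AdjoinRoot.induction_on with
    | ih p =>
      induction p using Polynomial.induction_on' with
      | add p q hp hq =>
        obtain ⟨g, hg⟩ := hp
        obtain ⟨g', hg'⟩ := hq
        exact ⟨g + g', by simp only [map_add, sum_add_distrib, hg, hg']⟩
      | monomial b a =>
        rw [← C_mul_X_pow_eq_monomial, map_mul, map_pow, AdjoinRoot.mk_C, AdjoinRoot.mk_X]
        have h3 : ∑ k ∈ range ℓ, (ρ ^ k) (AdjoinRoot.of _ a * AdjoinRoot.root _ ^ b) =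
            AdjoinRoot.of _ (a * ∑ k ∈ range ℓ, ζ ^ (k * b)) * AdjoinRoot.root _ ^ b := by
          rw [map_mul, map_sum, mul_sum, sum_mul]
          refine sum_congr rfl fun k _ => ?_
          rw [map_mul, map_pow, ne_pow_fix ρ (h1 a), ne_pow_eig ρ (h1 ζ) h2, map_pow, pow_mul]
          ring
        rw [h3, hs]
        split_ifs with h
        · obtain ⟨e, rfl⟩ := h
          exact ⟨a * ℓ * u ^ e, by rw [pow_mul, ht, ← map_pow, ← map_mul]⟩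
        · exact ⟨0, by simp⟩
  obtain ⟨g, hg⟩ := key z
  simp only [ne_pow_fix ρ hz, sum_const, card_range, nsmul_eq_mul] at hg
  refine ⟨g / ℓ, ?_⟩
  rw [map_div₀, ← hg, map_natCast, mul_div_cancel_left₀]
  rw [← map_natCast (AdjoinRoot.of (X ^ ℓ - C u))]
  exact (_root_.map_ne_zero _).2 hl

theorem ne_linear (c : 𝕜) : ∃ g, g ≠ 0 ∧ T.pp g d.ℓ = algebraMap 𝕜 L c - T.x := by
  obtain ⟨u, hu⟩ : ∃ u, u = algebraMap 𝕜 L c - T.x := ⟨_, rfl⟩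
  rw [← hu]
  have hirr : Fact (Irreducible (X ^ d.ℓ - C u)) :=
    ⟨X_pow_sub_C_irreducible_of_prime d.prime (hu ▸ T.ne_not_pow c)⟩
  have hτu : T.τ u = u := by rw [hu, map_sub, T.τx, AlgEquiv.commutes]
  have hl : (d.ℓ : L) ≠ 0 := by
    rw [← map_natCast (algebraMap 𝕜 L)]
    exact (_root_.map_ne_zero _).2 d.ℓ_ne
  have hs : ∀ e, ∑ j ∈ range d.ℓ, algebraMap 𝕜 L d.ζ ^ (j * e) =
      if d.ℓ ∣ e then (d.ℓ : L) else 0 := by
    intro e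
    have := congrArg (algebraMap 𝕜 L) (sum_ζ (d := d) e)
    simpa [apply_ite (algebraMap 𝕜 L)] using this
  have h1 : algebraMap 𝕜 L d.ζ ^ d.ℓ = 1 := by rw [← map_pow, d.prim.pow_eq_one, map_one]
  obtain ⟨ι, hι⟩ : ∃ ι, ι = AdjoinRoot.of (X ^ d.ℓ - C u) := ⟨_, rfl⟩
  obtain ⟨t, ht⟩ : ∃ t, t = AdjoinRoot.root (X ^ d.ℓ - C u) := ⟨_, rfl⟩
  have htl : t ^ d.ℓ = ι u := by
    have := AdjoinRoot.eval₂_root (X ^ d.ℓ - C u)
    rwa [eval₂_sub, eval₂_X_pow, eval₂_C, sub_eq_zero, ← ht, ← hι] at this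
  have hext : ∀ f g : AdjoinRoot (X ^ d.ℓ - C u) →+* AdjoinRoot (X ^ d.ℓ - C u),
      (∀ a, f (ι a) = g (ι a)) → f t = g t → ∀ z, f z = g z := by
    intro f g h2 h3 z
    rw [AdjoinRoot.ringHom_ext (f := f) (g := g) (RingHom.ext (hι ▸ h2)) (ht ▸ h3)]
  obtain ⟨ρ, ρι, ρt⟩ : ∃ ρ : AdjoinRoot (X ^ d.ℓ - C u) →+* AdjoinRoot (X ^ d.ℓ - C u),
      (∀ a, ρ (ι a) = ι a) ∧ ρ t = ι (algebraMap 𝕜 L d.ζ) * t := by
    refine ⟨AdjoinRoot.lift ι (ι (algebraMap 𝕜 L d.ζ) * t) ?_, fun a => ?_, ?_⟩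
    · rw [eval₂_sub, eval₂_X_pow, eval₂_C, mul_pow, ← map_pow, h1, map_one, one_mul, htl, sub_self]
    · subst hι
      exact AdjoinRoot.lift_of _
    · subst ht
      exact AdjoinRoot.lift_root _
  obtain ⟨τ, τι, τt⟩ : ∃ τ : AdjoinRoot (X ^ d.ℓ - C u) →+* AdjoinRoot (X ^ d.ℓ - C u),
      (∀ a, τ (ι a) = ι (T.τ a)) ∧ τ t = t := by
    refine ⟨AdjoinRoot.lift (ι.comp (T.τ : L →+* L)) t ?_, fun a => ?_, ?_⟩
    · rw [eval₂_sub, eval₂_X_pow, eval₂_C, htl, RingHom.comp_apply, RingHom.coe_coe, hτu, sub_self]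
    · subst hι
      exact AdjoinRoot.lift_of _
    · subst ht
      exact AdjoinRoot.lift_root _
  have τk : ∀ k a, (τ ^ k) (ι a) = ι ((T.τ ^ k) a) := by
    intro k a
    induction k with
    | zero => rfl
    | succ k ih => rw [ne_pow_succ, ih, τι, T.τ_pow_succ]
  have τc : ∀ a : 𝕜, τ (ι (algebraMap 𝕜 L a)) = ι (algebraMap 𝕜 L a) := fun a => by
    rw [τι, AlgEquiv.commutes]
  have hu0 : u ≠ 0 := fun h => T.ne_not_pow c 0 (by rw [zero_pow d.prime.ne_zero, ← hu, h])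
  have ht0 : t ≠ 0 := fun h => (_root_.map_ne_zero ι).2 hu0 (by rw [← htl, h, zero_pow d.prime.ne_zero])
  choose β hβ using fun i => IsAlgClosed.exists_pow_nat_eq (c - d.r i) d.prime.pos
  have hprim : IsPrimitiveRoot (ι (algebraMap 𝕜 L d.ζ)) d.ℓ :=
    (d.prim.map_of_injective (algebraMap 𝕜 L).injective).map_of_injective ι.injective
  obtain ⟨z, hz0, hz1, hz2⟩ := ne_core (ℓ := d.ℓ) (ζ := ι (algebraMap 𝕜 L d.ζ))
    (by rw [← map_natCast ι]; exact (_root_.map_ne_zero _).2 hl) hprim.pow_eq_one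
    (fun e => by simpa [apply_ite ι] using congrArg ι (hs e)) ρ τ
    (hext (ρ.comp τ) (τ.comp ρ) (fun a => by simp only [RingHom.comp_apply, ρι, τι])
      (by simp only [RingHom.comp_apply, ρt, τt, map_mul, τc]))
    (hext (τ ^ d.ℓ) (RingHom.id _) (fun a => by rw [τk, T.τ_pow_ℓ]; rfl) (ne_pow_fix τ τt _))
    (y := ι T.y) (Φ := ∏ i, (ι (algebraMap 𝕜 L (β i)) - t)) ht0 ((_root_.map_ne_zero _).2 T.y_ne)
    (ρι _) ρt τt (ρι _) (by rw [τι, T.τy, Algebra.smul_def, map_mul])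
    (by simp only [map_prod, map_sub, τc, τt]) (by
      simp only [map_prod, map_sub, ne_pow_fix ρ (ρι _), ne_pow_eig ρ (ρι _) ρt]
      rw [prod_comm, ← map_pow, T.hy, Dat.f, map_prod, map_prod]
      refine prod_congr rfl fun i _ => ?_
      have h2 := congrArg (eval (ι (algebraMap 𝕜 L (β i))))
        (X_pow_sub_C_eq_prod hprim d.prime.pos htl)
      simp only [eval_sub, eval_pow, eval_X, eval_C, eval_prod] at h2
      rw [← h2, ← map_pow, ← map_pow, hβ, ← map_sub]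
      refine congrArg ι ?_
      simp [hu])
  obtain ⟨g, hg⟩ := ne_fixed hl hs ρ (hι ▸ ρι) (hι ▸ ht ▸ ρt) hz1
  rw [← hι] at hg
  subst hg
  refine ⟨g, fun h => hz0 (by rw [h, map_zero]), ι.injective ?_⟩
  rw [← htl, ← hz2, pp, map_prod]
  exact prod_congr rfl fun k _ => (τk k g).symm

theorem ne_const {c : 𝕜} (hc : c ≠ 0) : ∃ g, g ≠ 0 ∧ T.pp g d.ℓ = algebraMap 𝕜 L c := by
  obtain ⟨b, hb⟩ := IsAlgClosed.exists_pow_nat_eq c d.prime.pos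
  refine ⟨algebraMap 𝕜 L b, (_root_.map_ne_zero (algebraMap 𝕜 L)).2 fun h => hc ?_, ?_⟩
  · rw [← hb, h, zero_pow d.prime.ne_zero]
  · rw [T.pp_fixed (AlgEquiv.commutes _ _), ← map_pow, hb]

omit [IsAlgClosed 𝕜] in
theorem ne_mul {a b : L} (ha : ∃ g, g ≠ 0 ∧ T.pp g d.ℓ = a) (hb : ∃ g, g ≠ 0 ∧ T.pp g d.ℓ = b) :
    ∃ g, g ≠ 0 ∧ T.pp g d.ℓ = a * b := by
  obtain ⟨g, h0, rfl⟩ := ha
  obtain ⟨g', h0', rfl⟩ := hb
  exact ⟨g * g', mul_ne_zero h0 h0', T.pp_mul _ _ _⟩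

theorem ne_poly {a : 𝕜[X]} (ha : a ≠ 0) : ∃ g, g ≠ 0 ∧ T.pp g d.ℓ = aeval T.x a := by
  rw [(IsAlgClosed.splits a).eq_prod_roots, map_mul, aeval_C]
  refine T.ne_mul (T.ne_const (leadingCoeff_ne_zero.2 ha)) ?_
  refine Multiset.prod_induction (fun p => ∃ g, g ≠ 0 ∧ T.pp g d.ℓ = aeval T.x p) _
    (fun p q hp hq => by rw [map_mul]; exact T.ne_mul hp hq) ?_ ?_
  · simpa using T.ne_const one_ne_zero
  · intro p hp
    obtain ⟨c, -, rfl⟩ := Multiset.mem_map.1 hp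
    simpa using T.ne_mul (T.ne_const (neg_ne_zero.2 one_ne_zero)) (T.ne_linear c)

theorem exists_norm {U : L} (h0 : U ≠ 0) (h : T.τ U = U) : ∃ g, g ≠ 0 ∧ T.pp g d.ℓ = U := by
  obtain ⟨a, q, hq, h1⟩ := T.fixed_rat h
  have h2 := T.trans q hq
  have ha : a ≠ 0 := by
    rintro rfl
    rw [map_zero] at h1
    exact mul_ne_zero h2 h0 h1
  obtain ⟨g, hg, h3⟩ := T.ne_poly ha
  obtain ⟨g', hg', h4⟩ := T.ne_poly hq
  refine ⟨g / g', div_ne_zero hg hg', ?_⟩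
  rw [T.pp_div, h3, h4, ← h1, mul_div_cancel_left₀ _ h2]

end Vale.Agent.P319.Curve
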