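import Vale.Agent.P319.Ideal1
import Vale.Agent.P319.NormEq

/-! Division of a divisor class by `1 - τ`. -/

namespace Vale.Agent.P319.Curve

open Polynomial Finset

variable {𝕜 L : Type} [Field 𝕜] [IsAlgClosed 𝕜] [Field L] [Algebra 𝕜 L] {d : Dat 𝕜}
  {T : Curve d L} {i : Fin d.n} {D : d.Pl → ℤ} {h : 𝕜[X]}

omit [IsAlgClosed 𝕜] in
theorem ex_part_ram (A : d.Pl → ℤ) (t : ℕ) (j : Fin d.n) :
    d.part A t (d.ram j) = t * A (d.ram j) := by
  simp [Dat.part, d.act_iter_ram]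

omit [IsAlgClosed 𝕜] in
theorem ex_fs_of {E : d.Pl → ℤ} {B : ℕ → d.Pl → ℤ} (hB : ∀ t, d.FS (B t))
    (hE : ∀ P, (∀ t < d.ℓ, B t P = 0) → E P = 0) : d.FS E := by
  refine ((range d.ℓ).finite_toSet.biUnion fun t _ => hB t).subset fun P hP => ?_
  by_contra hc
  refine hP (hE P fun t ht => ?_)
  by_contra h0
  exact hc (Set.mem_biUnion (mem_coe.2 (mem_range.2 ht)) h0)

omit [IsAlgClosed 𝕜] in
/-- A divisor with vanishing orbit sums is a coboundary. -/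
theorem ex_cob {A : d.Pl → ℤ} (hA : d.FS A) (h0 : ∀ j, A (d.ram j) = 0) :
    ∃ E, d.FS E ∧ (∀ j, E (d.ram j) = 0) ∧
      ∀ P, d.part A d.ℓ P = 0 → E P - E (d.act P) = A P := by
  have hl : (d.ℓ : ℤ) ≠ 0 := by exact_mod_cast d.prime.ne_zero
  refine ⟨fun P => (∑ t ∈ range d.ℓ, d.part A t P) / d.ℓ,
    ex_fs_of (fun t => hA.part t) fun P hP => ?_, fun j => ?_, fun P hP => ?_⟩
  · rw [sum_eq_zero fun t ht => hP t (mem_range.1 ht), Int.zero_ediv]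
  · simp [ex_part_ram, h0]
  · have h1 : ∑ t ∈ range d.ℓ, d.part A t P =
        ∑ t ∈ range d.ℓ, d.part A t (d.act P) + d.ℓ * A P := by
      have a := sum_range_succ (fun t => d.part A t P) d.ℓ
      have b := sum_range_succ' (fun t => d.part A t P) d.ℓ
      have c : d.part A 0 P = 0 := by simp [Dat.part]
      simp only [d.part_succ, sum_add_distrib, sum_const, card_range, nsmul_eq_mul] at b
      rw [hP] at a
      linarith
    simp only [h1]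
    rw [Int.add_mul_ediv_left _ _ hl]
    ring

omit [IsAlgClosed 𝕜] in
theorem ex_v_ram {g : L} (hg : g ≠ 0) (j : Fin d.n) :
    T.v (d.ram j) (T.pp g d.ℓ) = d.ℓ * T.v (d.ram j) g := by
  rw [T.v_pp hg, ex_part_ram]

omit [IsAlgClosed 𝕜] in
theorem ex_dv (hD : d.Eff D) (hh : T.Nrm i D h) {g : L} (hg : g ≠ 0) {κ : 𝕜} (hκ : κ ≠ 0)
    (hp : T.pp g d.ℓ = κ • aeval (T.ξ i) h) :
    ∃ E, d.FS E ∧ (∀ j, E (d.ram j) = 0) ∧ T.Dv i D E g := by
  classical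
  have hl : (d.ℓ : ℤ) ≠ 0 := by exact_mod_cast d.prime.ne_zero
  have h1 : ∀ P, P ≠ d.ram i → T.v P (T.pp g d.ℓ) = d.part D d.ℓ P := fun P hP => by
    rw [hp, v_smul hκ (T.aeval_ξ_ne i hh.1.ne_zero).1, hh.2 P hP]
  obtain ⟨E, e1, e2, e3⟩ := ex_cob (d := d)
    (A := fun P => if P = d.ram i then 0 else D P - T.v P g)
    ((hD.1.sub (T.fs_v hg)).subset fun P hP => by
      intro h0
      apply hP
      simp only [Pi.sub_apply] at h0
      simp [h0])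
    (fun j => by
      by_cases e : d.ram j = d.ram i
      · simp [e]
      · have := h1 _ e
        rw [ex_v_ram hg, ex_part_ram, hD.2.2] at this
        simp [e, hD.2.2, mul_left_cancel₀ hl this])
  refine ⟨E, e1, e2, hg, fun P hP => ?_⟩
  have h2 := e3 P (by
    have := h1 P hP
    rw [T.v_pp hg] at this
    simp only [Dat.part, d.act_iter_ne hP, if_false, sum_sub_distrib] at this ⊢
    linarith)
  simp only [hP, if_false] at h2
  linarith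

omit [IsAlgClosed 𝕜] in
theorem ex_ram_ne {j : Fin d.n} (hj : j ≠ i) : d.ram j ≠ d.ram i := fun e => hj (d.ram_inj e)

omit [IsAlgClosed 𝕜] in
/-- A function with prescribed orders at the branch points of the chart. -/
theorem ex_orders (T : Curve d L) (i : Fin d.n) (e : Fin d.n → ℕ) :
    ∃ w, w ≠ 0 ∧ ∀ j, j ≠ i → T.v (d.ram j) w = e j := by
  classical
  set a : Fin d.n → L := fun j => T.η i + (T.ξ i - algebraMap 𝕜 L (d.rt i j)) with ha
  have hη : ∀ j, j ≠ i → T.v (d.ram j) (T.η i) = 1 := fun j hj => by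
    rw [T.v_η (ex_ram_ne hj), d.rm_ram]
  have h1 : ∀ j, j ≠ i → a j ≠ 0 ∧ T.v (d.ram j) (a j) = 1 := fun j hj => by
    have := v_add_of_ge (T := T) (P := d.ram j) (T.η_ne i)
      (b := T.ξ i - algebraMap 𝕜 L (d.rt i j)) (Or.inr (by
        rw [hη j hj, (T.v_ξ_ram hj).2]
        exact_mod_cast d.two_le))
    rwa [hη j hj] at this
  have h2 : ∀ j j', j' ≠ i → j ≠ j' → T.v (d.ram j') (a j) = 0 := fun j j' hj' hne => by
    have v1 : T.Val (d.ram j') (T.η i) 0 := val_zero_iff.2 (Or.inr (hη j' hj').ge)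
    refine (v1.add ((T.val_ξ_ram hj').sub (val_const _ _))).v_eq ?_ |>.2
    rw [zero_add, sub_ne_zero]
    intro h0
    exact hne (d.inj (sub_left_injective (inv_injective h0))).symm
  have h3 : ∀ j ∈ univ.erase i, a j ^ e j ≠ 0 := fun j hj =>
    pow_ne_zero _ (h1 j (ne_of_mem_erase hj)).1
  refine ⟨∏ j ∈ univ.erase i, a j ^ e j, prod_ne_zero_iff.2 h3, fun j hj => ?_⟩
  rw [v_prod _ _ h3, sum_eq_single j]
  · rw [v_pow (h1 j hj).1, (h1 j hj).2, mul_one]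
  · intro j' h' hne
    rw [v_pow (h1 j' (ne_of_mem_erase h')).1, h2 j' j hj hne, mul_zero]
  · intro h'
    exact absurd (mem_erase.2 ⟨hj, mem_univ j⟩) h'

omit [IsAlgClosed 𝕜] in
theorem ex_pp_twist (z : L) {w : L} (hw : w ≠ 0) :
    T.pp (z * (T.τ w / w)) d.ℓ = T.pp z d.ℓ := by
  rw [T.pp_mul, T.pp_τ_div hw, T.τ_pow_ℓ, div_self hw, mul_one]

omit [IsAlgClosed 𝕜] in
theorem ex_τ_ne {w : L} (hw : w ≠ 0) : T.τ w / w ≠ 0 :=
  div_ne_zero ((map_ne_zero T.τ).2 hw) hw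

omit [IsAlgClosed 𝕜] in
theorem ex_normalise {u : L} (hu : ∀ j, j ≠ i → T.Ge (d.ram j) (T.pp u d.ℓ - 1) d.ℓ) :
    ∃ w₁ w₂, w₁ ≠ 0 ∧ w₂ ≠ 0 ∧ ∀ j, j ≠ i →
      T.Ge (d.ram j) (u * (T.τ w₁ / w₁) * (T.τ w₂ / w₂) - 1) d.ℓ := by
  have hl : (d.ℓ : ℤ) ≠ 0 := by exact_mod_cast d.prime.ne_zero
  have hl2 := d.two_le
  have : NeZero d.ℓ := ⟨d.prime.ne_zero⟩
  have h1 : ∀ j, ∃ k, k < d.ℓ ∧ (j ≠ i → T.Val (d.ram j) u (d.ζ ^ k)) := fun j => by
    by_cases hj : j = i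
    · exact ⟨0, by omega, fun h => absurd hj h⟩
    have v1 : T.Val (d.ram j) (T.pp u d.ℓ) 1 := by
      rw [Val, map_one]
      exact (hu j hj).mono (by exact_mod_cast (by omega : 1 ≤ d.ℓ))
    obtain ⟨a1, a2⟩ := v1.v_eq one_ne_zero
    have hu0 : u ≠ 0 := by
      rintro rfl
      apply a1
      obtain ⟨m, hm⟩ : ∃ m, d.ℓ = m + 1 := ⟨d.ℓ - 1, by omega⟩
      rw [hm, T.pp_succ', zero_mul]
    rw [ex_v_ram hu0] at a2
    have a3 : T.v (d.ram j) u = 0 := (mul_eq_zero.1 a2).resolve_left hl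
    obtain ⟨c, hc⟩ := Ge.exists_val (T := T) (P := d.ram j) (z := u) (Or.inr a3.ge)
    obtain ⟨k, hk, rfl⟩ := d.prim.eq_pow_of_pow_eq_one ((T.val_pp hc d.ℓ).unique v1)
    exact ⟨k, hk, fun _ => hc⟩
  choose k hk hv using h1
  obtain ⟨w₁, hw₁, hw⟩ := ex_orders T i fun j => d.ℓ - k j
  have h2 : ∀ j, j ≠ i → T.Val (d.ram j) (u * (T.τ w₁ / w₁)) 1 := fun j hj => by
    have := (hv j hj).mul (T.val_τ_div j hw₁)
    rwa [hw j hj, zpow_natCast, ← pow_add, Nat.add_sub_cancel' (hk j).le, d.prim.pow_eq_one]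
      at this
  set u₁ := u * (T.τ w₁ / w₁) with hu₁
  have h3 : ∀ j, j ≠ i → (∑ t ∈ range d.ℓ, T.pp u₁ t) ≠ 0 ∧
      T.v (d.ram j) (∑ t ∈ range d.ℓ, T.pp u₁ t) = 0 := fun j hj =>
    (val_sum (range d.ℓ) _ (fun t => 1 ^ t) fun t _ => T.val_pp (h2 j hj) t).v_eq (by
      simpa using d.ℓ_ne)
  have : Nontrivial (Fin d.n) := Fin.nontrivial_iff_two_le.2 (hl2.trans d.ℓ_le_n)
  obtain ⟨j₀, hj₀⟩ := exists_ne i
  have hw₂ := (h3 j₀ hj₀).1
  refine ⟨w₁, _, hw₁, hw₂, fun j hj => ?_⟩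
  have e : (u₁ * (T.τ (∑ t ∈ range d.ℓ, T.pp u₁ t) / ∑ t ∈ range d.ℓ, T.pp u₁ t) - 1) *
      ∑ t ∈ range d.ℓ, T.pp u₁ t = T.pp u d.ℓ - 1 := by
    rw [sub_mul, mul_assoc, div_mul_cancel₀ _ hw₂, T.avg, hu₁, ex_pp_twist u hw₁]
    ring
  have := Ge.of_mul hw₂ (e ▸ hu j hj)
  rwa [(h3 j hj).2, sub_zero] at this

theorem exists_div0 (hD : d.Eff D) (hh : T.Nrm i D h) :
    ∃ g E, d.FS E ∧ (∀ j, E (d.ram j) = 0) ∧ T.Dv i D E g ∧ T.pp g d.ℓ = aeval (T.ξ i) h := by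
  obtain ⟨g, hg, hp⟩ := T.exists_norm (T.aeval_ξ_ne i hh.1.ne_zero).1 (T.τ_aeval (T.τξ i) h)
  obtain ⟨E, e1, e2, e3⟩ := ex_dv hD hh hg one_ne_zero (by rw [hp, one_smul])
  exact ⟨g, E, e1, e2, e3, hp⟩

theorem exists_div (hD : d.Eff D) (hh : T.Nrm i D h) {κ : 𝕜} (hκ : κ ≠ 0) {s : 𝕜[X]}
    (hs : ∀ j, j ≠ i → s.eval (d.rt i j) ^ d.ℓ * (κ * h.eval (d.rt i j)) = 1) :
    ∃ g E, d.FS E ∧ (∀ j, E (d.ram j) = 0) ∧ T.Dv i D E g ∧
      T.pp g d.ℓ = κ • aeval (T.ξ i) h ∧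
      ∀ j, j ≠ i → T.Ge (d.ram j) (aeval (T.ξ i) s * g - 1) d.ℓ := by
  obtain ⟨g, hg, hp⟩ := T.exists_norm (U := κ • aeval (T.ξ i) h)
    (smul_ne_zero hκ (T.aeval_ξ_ne i hh.1.ne_zero).1) (by rw [map_smul, T.τ_aeval (T.τξ i)])
  obtain ⟨w₁, w₂, h1, h2, h3⟩ := ex_normalise (T := T) (i := i) (u := aeval (T.ξ i) s * g)
    fun j hj => by
      have e : T.pp (aeval (T.ξ i) s * g) d.ℓ - 1 = aeval (T.ξ i) (s ^ d.ℓ * (C κ * h) - 1) := by
        rw [T.pp_mul, T.pp_fixed (T.τ_aeval (T.τξ i) s), hp]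
        simp [Algebra.smul_def]
      rw [e]
      exact T.ge_aeval_ram hj (by simp [hs j hj])
  have hp' : T.pp (g * (T.τ w₁ / w₁) * (T.τ w₂ / w₂)) d.ℓ = κ • aeval (T.ξ i) h := by
    rw [ex_pp_twist _ h2, ex_pp_twist _ h1, hp]
  obtain ⟨E, e1, e2, e3⟩ := ex_dv hD hh
    (mul_ne_zero (mul_ne_zero hg (ex_τ_ne h1)) (ex_τ_ne h2)) hκ hp'
  refine ⟨_, E, e1, e2, e3, hp', fun j hj => ?_⟩
  simpa only [mul_assoc] using h3 j hj

theorem exists_E (hD : d.Eff D) (hh : T.Nrm i D h) {c : ℕ → L} (hc : T.Rk i D h c) :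
    ∃ E, d.Eff E ∧ T.Md i E (c 0) ∧ T.Dv i D E (c 1 / c 0) ∧
      T.v (d.ram i) (c 1 / c 0) = -h.natDegree ∧
      ∀ w, T.Md i E w ↔ ∀ j < d.ℓ, T.Md i (d.part D j) (w * T.pp (c 1 / c 0) j) := by
  obtain ⟨c0, c1, c2, -, c3, κ, hκ, hp⟩ := hc
  have hg : c 1 / c 0 ≠ 0 := div_ne_zero c1 c0
  generalize c 1 / c 0 = g at hg c3 hp ⊢
  have hl : (d.ℓ : ℤ) ≠ 0 := by exact_mod_cast d.prime.ne_zero
  have hl2 := d.two_le
  obtain ⟨E, e1, e2, e3⟩ := ex_dv hD hh hg hκ hp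
  have hne : (range d.ℓ).Nonempty := ⟨0, mem_range.2 (by omega)⟩
  set m : d.Pl → ℤ := fun P => (range d.ℓ).inf' hne fun t => E (d.act^[t] P) with hm
  have m1 : ∀ P t, t < d.ℓ → m P ≤ E (d.act^[t] P) := fun P t ht =>
    inf'_le (fun t => E (d.act^[t] P)) (mem_range.2 ht)
  have m2 : ∀ P, ∃ t < d.ℓ, m P = E (d.act^[t] P) := fun P => by
    obtain ⟨t, ht, e⟩ := exists_mem_eq_inf' hne fun t => E (d.act^[t] P)
    exact ⟨t, mem_range.1 ht, e⟩
  have m3 : ∀ P, m (d.act P) = m P := fun P => by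
    apply le_antisymm
    · obtain ⟨t, ht, e⟩ := m2 P
      rw [e]
      rcases t with _ | t
      · have := m1 (d.act P) (d.ℓ - 1) (by omega)
        rwa [← Function.iterate_succ_apply, Nat.succ_eq_add_one, Nat.sub_add_cancel (by omega),
          d.act_iter] at this
      · exact m1 (d.act P) t (by omega)
    · obtain ⟨t, ht, e⟩ := m2 (d.act P)
      rw [e, ← Function.iterate_succ_apply, Nat.succ_eq_add_one]
      rcases (by omega : t + 1 < d.ℓ ∨ t + 1 = d.ℓ) with h1 | h1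
      · exact m1 P _ h1
      · rw [h1, d.act_iter]
        exact m1 P 0 (by omega)
  have vp : ∀ P, P ≠ d.ram i → ∀ t, T.v P (T.pp g t) = d.part D t P + E (d.act^[t] P) - E P := by
    intro P hP t
    rw [T.v_pp hg]
    induction t with
    | zero => simp [Dat.part]
    | succ t ih =>
      have := e3.2 _ (d.act_iter_ne hP t)
      simp only [Dat.part, sum_range_succ, Function.iterate_succ_apply'] at ih ⊢
      linarith
  have key : ∀ w, T.Md i (fun P => E P - m P) w ↔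
      ∀ j < d.ℓ, T.Md i (d.part D j) (w * T.pp g j) := fun w => by
    by_cases hw : w = 0
    · subst hw
      exact ⟨fun _ j _ P _ => Or.inl (zero_mul _), fun _ P _ => Or.inl rfl⟩
    have a : ∀ P j, T.v P (w * T.pp g j) = T.v P w + T.v P (T.pp g j) := fun P j =>
      T.v_mul P _ _ hw (T.pp_ne hg j)
    constructor
    · intro H j hj P hP
      have b := (ge_iff hw).1 (H P hP)
      have b2 := m1 P j hj
      refine Or.inr ?_
      rw [a, vp P hP]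
      linarith
    · intro H P hP
      obtain ⟨t, ht, e⟩ := m2 P
      have b := (ge_iff (mul_ne_zero hw (T.pp_ne hg t))).1 (H t ht P hP)
      rw [a, vp P hP] at b
      exact Or.inr (by linarith)
  refine ⟨fun P => E P - m P, ⟨?_, fun P => ?_, fun j => ?_⟩,
    (key _).2 fun j hj => c3 j hj ▸ c2 j hj, ⟨hg, fun P hP => ?_⟩, ?_, key⟩
  · refine ex_fs_of (fun t => e1.act t) fun P hP => ?_
    obtain ⟨t, ht, e⟩ := m2 P
    have := hP 0 (by omega)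
    simp only [Function.iterate_zero_apply] at this
    rw [e, hP t ht, this, sub_zero]
  · exact sub_nonneg.2 (m1 P 0 (by omega))
  · obtain ⟨t, _, e⟩ := m2 (d.ram j)
    simp only [e, d.act_iter_ram, sub_self]
  · have := e3.2 P hP
    simp only [m3]
    linarith
  · have a := ex_v_ram (T := T) hg i
    rw [hp, v_smul hκ (T.aeval_ξ_ne i hh.1.ne_zero).1, (T.aeval_ξ_ne i hh.1.ne_zero).2] at a
    exact mul_left_cancel₀ hl (by linarith)

end Vale.Agent.P319.Curve
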