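import Vale.Agent.P319.Field1

/-! The Lagrange resolvent is a nonresidue. -/

namespace Vale.Agent.P319

open Polynomial Finset

variable {p : ℕ} [Fact p.Prime] {𝕜 : Type} [Field 𝕜] [Algebra (ZMod p) 𝕜] [CharP 𝕜 p]
  {g h : List ℕ} {gq hq : (ZMod p)[X]} {α ζ : 𝕜}

theorem f2_geom (ℓ t k : ℕ) :
    ∃ u, (ℓ ^ 2 * t + 1) ^ k = 1 + ℓ ^ 2 * t * (k + ℓ ^ 2 * u) := by
  induction k with
  | zero => exact ⟨0, by simp⟩
  | succ k ih =>
    obtain ⟨u, hu⟩ := ih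
    exact ⟨u + (k + ℓ ^ 2 * u) * t, by rw [pow_succ, hu]; ring⟩

theorem f2_sq {ℓ x s : ℕ} (hs : 0 < s) (hx : 0 < x) (h : ℓ ∣ x - 1) :
    ∃ t, x ^ ℓ ^ s = ℓ ^ 2 * t + 1 := by
  have h1 : (ℓ : ℤ) ∣ (x : ℤ) - 1 := by
    have := Int.natCast_dvd_natCast.2 h
    rwa [Nat.cast_sub hx, Nat.cast_one] at this
  have h2 := dvd_sub_pow_of_dvd_sub h1 s
  have h3 : ((ℓ : ℤ) ^ 2) ∣ (x : ℤ) ^ ℓ ^ s - 1 := by
    rw [one_pow] at h2
    exact (pow_dvd_pow _ (by omega)).trans h2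
  have h4 : 1 ≤ x ^ ℓ ^ s := Nat.one_le_pow _ _ hx
  have h5 : ℓ ^ 2 ∣ x ^ ℓ ^ s - 1 := by
    rw [← Int.natCast_dvd_natCast, Nat.cast_sub h4]
    simpa using h3
  obtain ⟨t, ht⟩ := h5
  exact ⟨t, by omega⟩

omit [Algebra (ZMod p) 𝕜] in
/-- The resolvent is an eigenvector of the Frobenius power. -/
theorem f2_res {ℓ m : ℕ} {β : 𝕜} (h1 : ζ ^ p ^ m = ζ) (h2 : ζ ^ ℓ = 1)
    (h3 : β ^ (p ^ m) ^ ℓ = β) :
    (∑ j ∈ range ℓ, ζ ^ (ℓ - j) * β ^ (p ^ m) ^ j) ^ p ^ m =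
      ζ * ∑ j ∈ range ℓ, ζ ^ (ℓ - j) * β ^ (p ^ m) ^ j := by
  rw [sum_pow_char_pow]
  have e1 : ∀ j ∈ range ℓ, (ζ ^ (ℓ - j) * β ^ (p ^ m) ^ j) ^ p ^ m =
      ζ * (ζ ^ (ℓ - (j + 1)) * β ^ (p ^ m) ^ (j + 1)) := by
    intro j hj
    have hj' := mem_range.1 hj
    rw [mul_pow, ← pow_mul, mul_comm (ℓ - j), pow_mul, h1, ← pow_mul, ← pow_succ,
      show ℓ - j = ℓ - (j + 1) + 1 by omega, pow_succ]
    ring
  rw [sum_congr rfl e1, ← mul_sum]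
  congr 1
  have e2 := sum_range_succ' (fun j => ζ ^ (ℓ - j) * β ^ (p ^ m) ^ j) ℓ
  rw [sum_range_succ] at e2
  simp only [Nat.sub_self, pow_zero, one_mul, Nat.sub_zero, pow_one, h2, h3] at e2
  exact (add_right_cancel e2).symm

/-- The conjugates are distinct. -/
theorem f2_inj (hg' : Irreducible gq) (hα : aeval α gq = 0) {ℓ s e : ℕ} (hℓ : ℓ.Prime)
    (hD : gq.natDegree = ℓ * ℓ ^ s) (he0 : 0 < e) (he : e < ℓ) :
    Function.Injective fun j : Fin ℓ => α ^ (p ^ (e * ℓ ^ s)) ^ (j : ℕ) := by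
  have key : ∀ i j : ℕ, i < j → j < ℓ →
      α ^ (p ^ (e * ℓ ^ s)) ^ i ≠ α ^ (p ^ (e * ℓ ^ s)) ^ j := by
    intro i j hij hj hh
    obtain ⟨d, rfl⟩ := Nat.exists_eq_add_of_lt hij
    have e1 : α ^ (p ^ (e * ℓ ^ s)) ^ (i + d + 1) =
        (α ^ p ^ (e * ℓ ^ s * (d + 1))) ^ p ^ (e * ℓ ^ s * i) := by
      rw [← pow_mul, ← pow_mul, ← pow_add]
      congr 2
      ring
    rw [e1, ← pow_mul] at hh
    have e2 : α ^ p ^ (e * ℓ ^ s * (d + 1)) = α :=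
      ((iterateFrobenius_inj 𝕜 p (e * ℓ ^ s * i)) (by simpa [iterateFrobenius_def] using hh)).symm
    have e3 := (pow_card_root hg' hα _).1 e2
    rw [hD, show e * ℓ ^ s * (d + 1) = e * (d + 1) * ℓ ^ s by ring] at e3
    have e4 := Nat.dvd_of_mul_dvd_mul_right (pow_pos hℓ.pos s) e3
    rcases (Nat.Prime.dvd_mul hℓ).1 e4 with h5 | h5
    · exact absurd (Nat.le_of_dvd he0 h5) (by omega)
    · exact absurd (Nat.le_of_dvd (by omega) h5) (by omega)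
  intro i j hij
  rcases lt_trichotomy (i : ℕ) j with h | h | h
  · exact absurd hij (key _ _ h j.2)
  · exact Fin.ext h
  · exact absurd hij.symm (key _ _ h i.2)

theorem nonres_spec (hg : Can p g gq) (hh : Can p h hq) (hg' : Irreducible gq)
    (hh' : Irreducible hq) (hα : aeval α gq = 0) (hζ : aeval ζ hq = 0) {ℓ s : ℕ} (hℓ : ℓ.Prime)
    (hs : 0 < s) (hD : gq.natDegree = ℓ * ℓ ^ s) (he : hq.natDegree < ℓ)
    (hz : IsPrimitiveRoot ζ ℓ) :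
    ℓ ∣ p ^ (hq.natDegree * gq.natDegree) - 1 ∧
    phiK α ζ (nonres p (p ^ (hq.natDegree * gq.natDegree))
      (p ^ (hq.natDegree * (gq.natDegree / ℓ))) ℓ g h) ≠ 0 ∧
    phiK α ζ (nonres p (p ^ (hq.natDegree * gq.natDegree))
      (p ^ (hq.natDegree * (gq.natDegree / ℓ))) ℓ g h) ^
        ((p ^ (hq.natDegree * gq.natDegree) - 1) / ℓ) ≠ 1 := by
  have hp : 0 < p := (Fact.out : p.Prime).pos
  have he0 : 0 < hq.natDegree := hh'.natDegree_pos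
  have hD0 : 0 < gq.natDegree := hg'.natDegree_pos
  have hz0 : ζ ≠ 0 := hz.ne_zero hℓ.ne_zero
  set e := hq.natDegree with he'
  have hdiv : gq.natDegree / ℓ = ℓ ^ s := by rw [hD, Nat.mul_div_cancel_left _ hℓ.pos]
  have hK := khom_oK hg hh hα hζ (Nat.mul_pos he0 hD0)
    ((pow_card_root hg' hα _).2 (dvd_mul_left _ _))
    ((pow_card_root hh' hζ _).2 (dvd_mul_right _ _))
  have hQ : p ^ (e * gq.natDegree) = (p ^ (e * ℓ ^ s)) ^ ℓ := by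
    rw [hD, ← pow_mul]
    congr 1
    ring
  have hpe : ℓ ∣ p ^ e - 1 := by
    have h1 : ζ ^ p ^ e = ζ := (pow_card_root hh' hζ _).2 dvd_rfl
    have h2 : 1 ≤ p ^ e := Nat.one_le_pow _ _ hp
    rw [← hz.pow_eq_one_iff_dvd]
    apply mul_right_cancel₀ hz0
    rw [← pow_succ, Nat.sub_add_cancel h2, h1, one_mul]
  obtain ⟨t, ht⟩ := f2_sq hs (pow_pos hp e) hpe
  rw [← pow_mul] at ht
  obtain ⟨u, hu⟩ := f2_geom ℓ t ℓ
  have hQ1 : p ^ (e * gq.natDegree) - 1 = ℓ * (ℓ ^ 2 * t * (1 + ℓ * u)) := by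
    rw [hQ, ht, hu, Nat.add_sub_cancel_left]
    ring
  refine ⟨⟨_, hQ1⟩, ?_⟩
  rw [hdiv]
  have hval : ∀ a, phiK α ζ ((oK p (p ^ (e * gq.natDegree)) g h).sum ((List.range ℓ).map fun j =>
      (oK p (p ^ (e * gq.natDegree)) g h).mul
        ((oK p (p ^ (e * gq.natDegree)) g h).pow [[], [1]] (ℓ - j))
        ((oK p (p ^ (e * gq.natDegree)) g h).pow
          ((oK p (p ^ (e * gq.natDegree)) g h).pow [[0, 1]] a) ((p ^ (e * ℓ ^ s)) ^ min j ℓ)))) =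
      ∑ j ∈ range ℓ, ζ ^ (ℓ - j) * (α ^ a) ^ (p ^ (e * ℓ ^ s)) ^ j := by
    intro a
    rw [hK.toHom.sum_range]
    refine sum_congr rfl fun j hj => ?_
    rw [hK.toHom.mul, hK.toHom.pow, hK.toHom.pow, hK.toHom.pow, phiK_ζ, phiK_α,
      min_eq_left (mem_range.1 hj).le]
  have hex : ∃ a < ℓ, ∑ j ∈ range ℓ, ζ ^ (ℓ - j) * (α ^ a) ^ (p ^ (e * ℓ ^ s)) ^ j ≠ 0 := by
    by_contra hcon
    push Not at hcon
    have h1 := Matrix.eq_zero_of_forall_pow_sum_mul_pow_eq_zero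
      (v := fun j : Fin ℓ => ζ ^ (ℓ - (j : ℕ))) (f2_inj hg' hα hℓ hD he0 he) (fun i => by
        have h2 := hcon i i.2
        rw [sum_range] at h2
        rw [← h2]
        refine sum_congr rfl fun j _ => ?_
        rw [pow_right_comm])
    exact pow_ne_zero _ hz0 (congrFun h1 ⟨0, hℓ.pos⟩)
  obtain ⟨a, ha, ha0⟩ := hex
  obtain ⟨b, hb, hb0, hb1⟩ := hK.toFHom.first_ne ((List.range ℓ).map fun a =>
    (oK p (p ^ (e * gq.natDegree)) g h).sum ((List.range ℓ).map fun j =>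
      (oK p (p ^ (e * gq.natDegree)) g h).mul
        ((oK p (p ^ (e * gq.natDegree)) g h).pow [[], [1]] (ℓ - j))
        ((oK p (p ^ (e * gq.natDegree)) g h).pow
          ((oK p (p ^ (e * gq.natDegree)) g h).pow [[0, 1]] a) ((p ^ (e * ℓ ^ s)) ^ min j ℓ))))
    ⟨_, List.mem_map.2 ⟨a, List.mem_range.2 ha, rfl⟩, by rw [hval]; exact ha0⟩
  obtain ⟨c, -, rfl⟩ := List.mem_map.1 hb
  unfold nonres
  rw [hb1]
  refine ⟨hb0, ?_⟩
  rw [hval] at hb0 ⊢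
  have hres := f2_res (p := p) (ζ := ζ) (ℓ := ℓ) (m := e * ℓ ^ s) (β := α ^ c)
    ((pow_card_root hh' hζ _).2 (dvd_mul_right _ _)) hz.pow_eq_one (by
      rw [← hQ, ← pow_mul, mul_comm c, pow_mul,
        (pow_card_root hg' hα _).2 (dvd_mul_left _ _)])
  generalize (∑ j ∈ range ℓ, ζ ^ (ℓ - j) * (α ^ c) ^ (p ^ (e * ℓ ^ s)) ^ j) = w at hb0 hres
  have hw : w ^ (ℓ ^ 2 * t) = ζ := by
    apply mul_right_cancel₀ hb0
    rw [← pow_succ, ← ht, hres]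
  rw [hQ1, Nat.mul_div_cancel_left _ hℓ.pos, pow_mul, hw, pow_add, pow_mul, hz.pow_eq_one,
    one_pow, pow_one, mul_one]
  exact hz.ne_one hℓ.one_lt

end Vale.Agent.P319
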