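import Vale.Agent.P319.Basis

/-! The global functions of the chain. -/

namespace Vale.Agent.P319.Curve

open Polynomial Finset

variable {𝕜 L : Type} [Field 𝕜] [IsAlgClosed 𝕜] [Field L] [Algebra 𝕜 L] {d : Dat 𝕜}
  {T : Curve d L} {D E : Fin d.n → d.Pl → ℤ} {γ : Fin d.n → L} {δ : ℕ} {ψ : L} {ρ : ℕ → ℤ}

omit [IsAlgClosed 𝕜] in
theorem fin_inf_ram (c : ℕ → ℤ) (j : Fin d.n) : d.Inf c (d.ram j) = 0 := rfl

omit [IsAlgClosed 𝕜] in
theorem fin_iter_inl (q : {q : 𝕜 × 𝕜 // q.2 ^ d.ℓ = d.f.eval q.1}) (t : ℕ) :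
    ∃ q', d.act^[t] (.inl q) = .inl q' := by
  induction t with
  | zero => exact ⟨q, rfl⟩
  | succ t ih =>
    obtain ⟨q', h⟩ := ih
    rw [Function.iterate_succ_apply', h]
    exact ⟨_, rfl⟩

omit [IsAlgClosed 𝕜] in
theorem fin_sum_ram [DecidableEq d.Pl] (P : d.Pl) :
    ∑ i, (if P = d.ram i then (1 : ℤ) else 0) = d.Rm P := by
  rcases d.rm_cases P with ⟨j, rfl⟩ | h
  · rw [d.rm_ram, Finset.sum_eq_single j]
    · rw [if_pos rfl]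
    · intro i _ hi
      exact if_neg fun h => hi (d.ram_inj h).symm
    · intro h
      exact absurd (Finset.mem_univ j) h
  · rw [h]
    refine Finset.sum_eq_zero fun i _ => if_neg fun h' => ?_
    rw [h', d.rm_ram] at h
    exact one_ne_zero h

omit [IsAlgClosed 𝕜] in
theorem fin_inv_iter {B : d.Pl → ℤ} (h : ∀ P, B (d.act P) = B P) (P : d.Pl) (t : ℕ) :
    B (d.act^[t] P) = B P := by
  induction t with
  | zero => rfl
  | succ t ih => rw [Function.iterate_succ_apply', h, ih]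

omit [IsAlgClosed 𝕜] in
theorem fin_fs_sum (hE : ∀ i, d.FS (E i)) : d.FS fun P => ∑ i, E i P := by
  refine (Set.finite_iUnion hE).subset fun P hP => ?_
  by_contra h
  refine hP (Finset.sum_eq_zero fun i _ => ?_)
  by_contra h'
  exact h (Set.mem_iUnion.2 ⟨i, h'⟩)

omit [IsAlgClosed 𝕜] in
theorem fin_u_ne (hγ : ∀ i, T.Dv i (D i) (E i) (γ i)) (hψ : ψ ≠ 0) :
    ψ / (T.y ^ δ * ∏ i, γ i) ≠ 0 :=
  div_ne_zero hψ (mul_ne_zero (pow_ne_zero _ T.y_ne)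
    (Finset.prod_ne_zero_iff.2 fun i _ => (hγ i).1))

omit [IsAlgClosed 𝕜] in
theorem fin_v_u (hD : ∀ i, d.Eff (D i)) (hγ : ∀ i, T.Dv i (D i) (E i) (γ i))
    (hδ : ∀ i, T.v (d.ram i) (γ i) = -δ) (hψ : ψ ≠ 0) {μ : ℤ}
    (hv : ∀ P, T.v P ψ = ∑ i, D i P - d.Inf ρ P + (μ - δ * d.m) * d.Inf (fun _ => 1) P)
    (P : d.Pl) : T.v P (ψ / (T.y ^ δ * ∏ i, γ i))
      = ∑ i, E i P - ∑ i, E i (d.act P) - d.Inf ρ P + μ * d.Inf (fun _ => 1) P := by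
  classical
  have h1 : ∀ i, T.v P (γ i)
      = D i P + E i (d.act P) - E i P - δ * if P = d.ram i then 1 else 0 := by
    intro i
    by_cases h : P = d.ram i
    · rw [if_pos h, h, hδ, (hD i).2.2, d.act_ram]
      ring
    · rw [if_neg h, ← (hγ i).2 P h]
      ring
  have h2 : ∏ i, γ i ≠ 0 := Finset.prod_ne_zero_iff.2 fun i _ => (hγ i).1
  rw [v_div hψ (mul_ne_zero (pow_ne_zero _ T.y_ne) h2),
    T.v_mul _ _ _ (pow_ne_zero _ T.y_ne) h2, v_pow T.y_ne, v_prod _ _ fun i _ => (hγ i).1, hv,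
    T.v_y_eq]
  simp only [h1, Finset.sum_sub_distrib, Finset.sum_add_distrib, ← Finset.mul_sum, fin_sum_ram]
  ring

theorem fin_pp_u {u : L} (hu : u ≠ 0) {B : d.Pl → ℤ} {μ : ℤ}
    (hv : ∀ P, T.v P u = B P - B (d.act P) - d.Inf ρ P + μ * d.Inf (fun _ => 1) P) :
    ∃ κ : 𝕜, κ ≠ 0 ∧ T.pp u d.ℓ = algebraMap 𝕜 L κ := by
  refine T.const_of_fixed (T.pp_ne hu _) (T.τ_pp u) fun q => ?_
  rw [T.v_pp hu, Dat.part]
  have h1 : ∀ t ∈ range d.ℓ, T.v (d.act^[t] (.inl q)) u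
      = B (d.act^[t] (.inl q)) - B (d.act^[t + 1] (.inl q)) := by
    intro t _
    obtain ⟨q', h⟩ := fin_iter_inl q t
    rw [Function.iterate_succ_apply', h, hv]
    show _ - 0 + μ * 0 = _
    ring
  rw [Finset.sum_congr rfl h1, Finset.sum_range_sub' fun t => B (d.act^[t] (.inl q)), d.act_iter]
  exact sub_self _

theorem psi_zero (T : Curve d L) : T.Psi 1 (fun _ => d.Inf fun b => if b = 0 then 1 else 0) 1
    fun a => if a = 0 then (d.n : ℤ) else 0 := by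
  refine ⟨one_ne_zero, d.m, ?_, fun P => ?_⟩
  · rw [Finset.sum_ite_eq', if_pos (Finset.mem_range.2 d.prime.pos), d.hn]
    push_cast
    rfl
  · rw [v_one]
    cases P with
    | inl q => simp [Dat.Inf]
    | inr a => by_cases h : a.val = 0 <;> simp [Dat.Inf, h]

theorem Psi.smul (h : T.Psi ψ D δ ρ) {c : 𝕜} (hc : c ≠ 0) : T.Psi (c • ψ) D δ ρ := by
  obtain ⟨h0, μ, h1, h2⟩ := h
  exact ⟨smul_ne_zero hc h0, μ, h1, fun P => by rw [v_smul hc h0, h2]⟩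

theorem Psi.bound (h : T.Psi ψ D δ ρ) (hD : ∀ i, d.Eff (D i)) (h0 : ∀ a, 0 ≤ ρ a)
    (h1 : ∀ a, ρ a ≤ d.n) {W : ℕ} (hW : δ * d.m + d.n ≤ W) :
    (∀ q, T.Ge (.inl q) ψ 0) ∧ ∀ a, T.Ge (.inr a) ψ (-W) := by
  obtain ⟨_, μ, h2, h3⟩ := h
  have hs : ∀ P, 0 ≤ ∑ i, D i P := fun P => Finset.sum_nonneg fun i _ => (hD i).2.1 P
  have hμ : 0 ≤ μ := by
    have h4 : (0 : ℤ) < d.ℓ := by exact_mod_cast d.prime.pos
    have h5 : 0 ≤ (d.ℓ : ℤ) * μ := h2 ▸ Finset.sum_nonneg fun a _ => h0 a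
    exact nonneg_of_mul_nonneg_right h5 h4
  refine ⟨fun q => Or.inr ?_, fun a => Or.inr ?_⟩
  · rw [h3]
    have := hs (.inl q)
    show 0 ≤ _ - 0 + _ * 0
    linarith
  · rw [h3]
    have := hs (.inr a)
    have h6 := h1 a.val
    have h7 : (δ : ℤ) * d.m + d.n ≤ W := by exact_mod_cast hW
    show _ ≤ _ - ρ a.val + _ * 1
    linarith

theorem fin_val (hD : ∀ i, d.Eff (D i)) (hE : ∀ i, d.Eff (E i))
    (hγ : ∀ i, T.Dv i (D i) (E i) (γ i)) (hδ : ∀ i, T.v (d.ram i) (γ i) = -δ)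
    (hψ : T.Psi ψ D δ ρ) :
    (∀ j, T.v (d.ram j) (ψ / (T.y ^ δ * ∏ i, γ i)) = 0) ∧ ∃ κ : 𝕜, κ ≠ 0 ∧
      ∀ j c, T.Val (d.ram j) (ψ / (T.y ^ δ * ∏ i, γ i)) c → c ^ d.ℓ = κ := by
  obtain ⟨h0, μ, _, h2⟩ := hψ
  have hv := fin_v_u hD hγ hδ h0 h2
  refine ⟨fun j => ?_, ?_⟩
  · rw [hv, d.act_ram, fin_inf_ram, fin_inf_ram]
    ring
  · obtain ⟨κ, hκ, h3⟩ := fin_pp_u (fin_u_ne hγ h0) (B := fun P => ∑ i, E i P) hv
    refine ⟨κ, hκ, fun j c hc => ?_⟩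
    have h4 := T.val_pp hc d.ℓ
    rw [h3] at h4
    exact h4.unique (val_const _ _)

omit [IsAlgClosed 𝕜] in
theorem fin_v_factor {i : Fin d.n} {B : d.Pl → ℤ} (hB : B (d.ram i) = 0) {h : 𝕜[X]}
    (hh : T.Nrm i B h) (P : d.Pl) :
    T.v P ((T.x - algebraMap 𝕜 L (d.r i)) ^ h.natDegree * aeval (T.ξ i) h)
      = d.part B d.ℓ P - h.natDegree * d.Inf (fun _ => 1) P := by
  obtain ⟨h1, h2⟩ := T.aeval_ξ_ne i hh.1.ne_zero
  rw [T.v_mul _ _ _ (pow_ne_zero _ (T.x_sub_ne _)) h1, v_pow (T.x_sub_ne _)]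
  by_cases hP : P = d.ram i
  · rw [hP, h2, T.v_x_ram, fin_inf_ram, Dat.part,
      Finset.sum_eq_zero fun t _ => by rw [d.act_iter_ram, hB]]
    ring
  · have h3 := T.v_ξ hP
    rw [ξ, v_inv (T.x_sub_ne _)] at h3
    rw [hh.2 P hP, ← h3]
    ring

theorem fin_next (hD : ∀ i, d.Eff (D i)) (hE : ∀ i, d.Eff (E i))
    (hγ : ∀ i, T.Dv i (D i) (E i) (γ i)) (hδ : ∀ i, T.v (d.ram i) (γ i) = -δ)
    (hψ : T.Psi ψ D δ ρ) {dd ρ' : ℕ → ℤ}
    (hρ : ∀ μ : ℤ, d.ℓ * μ = ∑ a ∈ range d.ℓ, ρ a → ∀ a < d.ℓ, (ρ' a - d.n * dd a) -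
      (ρ' ((a + 1) % d.ℓ) - d.n * dd ((a + 1) % d.ℓ)) = ρ a - μ)
    {h' : Fin d.n → 𝕜[X]} {δ' : ℕ} (hh : ∀ i, T.Nrm i (E i + d.Inf dd) (h' i))
    (hδ' : ∀ i, (h' i).natDegree = δ') {κ : 𝕜}
    (hκ : ∀ j, T.Val (d.ram j) (ψ / (T.y ^ δ * ∏ i, γ i)) κ) :
    ∃ (ψ' : L) (c : 𝕜), T.Psi ψ' (fun i => E i + d.Inf dd) δ' ρ' ∧
      κ • ψ' = ψ / (T.y ^ δ * ∏ i, γ i) * T.τ ψ' ∧ c ≠ 0 ∧ T.pp ψ' d.ℓ =
        c • ∏ i, ((T.x - algebraMap 𝕜 L (d.r i)) ^ δ' * aeval (T.ξ i) (h' i)) := by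
  have hv0 := (fin_val hD hE hγ hδ hψ).1
  obtain ⟨h0, μ, hμ, h2⟩ := hψ
  have hv := fin_v_u hD hγ hδ h0 h2
  have hu := fin_u_ne (δ := δ) hγ h0
  generalize ψ / (T.y ^ δ * ∏ i, γ i) = u at *
  have : NeZero d.ℓ := ⟨d.prime.ne_zero⟩
  have j0 : Fin d.n := ⟨0, lt_of_lt_of_le d.prime.pos d.ℓ_le_n⟩
  have hκ0 : κ ≠ 0 := (hκ j0).ne_zero hu (hv0 j0)
  obtain ⟨κ1, _, h3⟩ := fin_pp_u hu (B := fun P => ∑ i, E i P) hv
  have h4 : κ ^ d.ℓ = κ1 := by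
    have h4 := T.val_pp (hκ j0) d.ℓ
    rw [h3] at h4
    exact h4.unique (val_const _ _)
  obtain ⟨w, hw, hw'⟩ := T.hilbert90 (z := κ⁻¹ • u) (by
    rw [T.pp_smul, h3, ← h4, Algebra.smul_def, ← map_mul, ← mul_pow, inv_mul_cancel₀ hκ0, one_pow,
      map_one])
  have hτw : T.τ w ≠ 0 := (map_ne_zero T.τ).2 hw
  have hwv : ∀ P, T.v P w = T.v P u + T.v (d.act P) w := fun P => by
    rw [← T.v_τ, ← v_smul (inv_ne_zero hκ0) hu, ← T.v_mul _ _ _ (smul_ne_zero (inv_ne_zero hκ0) hu)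
      hτw, hw']
  have hA : ∀ P, ∑ i, E i (d.act P) + d.n * d.Inf dd (d.act P) - d.Inf ρ' (d.act P)
        - T.v (d.act P) w = ∑ i, E i P + d.n * d.Inf dd P - d.Inf ρ' P - T.v P w := by
    intro P
    rw [hwv P, hv, d.inf_act, d.inf_act]
    cases P with
    | inl q =>
      show _ + _ * 0 - 0 - _ = _ + _ * 0 - 0 - (_ - _ - 0 + _ * 0 + _)
      ring
    | inr a =>
      have := hρ μ hμ a.val (ZMod.val_lt a)
      show _ + _ * dd ((a.val + 1) % d.ℓ) - ρ' ((a.val + 1) % d.ℓ) - _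
        = _ + _ * dd a.val - ρ' a.val - (_ - _ - ρ a.val + _ * 1 + _)
      linarith
  obtain ⟨U, hU, hτU, hvU⟩ := T.exists_fixed
    (D := fun P => ∑ i, E i P + d.n * d.Inf dd P - d.Inf ρ' P - T.v P w)
    ((((fin_fs_sum fun i => (hE i).1).add ((d.fs_inf dd).smul d.n)).sub (d.fs_inf ρ')).sub
      (T.fs_v hw)) hA fun j => by
      have e1 : T.τ w / w = algebraMap 𝕜 L κ / u := by
        rw [div_eq_div_iff hw hu]
        conv_rhs => rw [← hw', Algebra.smul_def, ← mul_assoc, ← mul_assoc, ← map_mul,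
          mul_inv_cancel₀ hκ0, map_one, one_mul, mul_comm]
      have h5 := T.val_τ_div j hw
      rw [e1] at h5
      have h6 := h5.unique ((val_const _ κ).div (hκ j) hκ0)
      rw [div_self hκ0, d.prim.zpow_eq_one_iff_dvd] at h6
      show _ ∣ ∑ i, E i (d.ram j) + _ * 0 - 0 - _
      rw [Finset.sum_eq_zero fun i _ => (hE i).2.2 j, mul_zero, add_zero, sub_zero, zero_sub]
      exact h6.neg_right
  obtain ⟨a0, ha0⟩ : ∃ a0 : ℤ, ∀ P, T.v P (w * U)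
      = ∑ i, (E i + d.Inf dd) P - d.Inf ρ' P - a0 * d.Inf (fun _ => 1) P := by
    have hB : ∀ P, ∑ i, E i (d.act P) + d.n * d.Inf dd (d.act P) - d.Inf ρ' (d.act P)
        - T.v (d.act P) w - T.v (d.act P) U
        = ∑ i, E i P + d.n * d.Inf dd P - d.Inf ρ' P - T.v P w - T.v P U := fun P => by
      rw [hA, ← T.v_τ, hτU]
    refine ⟨∑ i, E i (.inr 0) + d.n * d.Inf dd (.inr 0) - d.Inf ρ' (.inr 0) - T.v (.inr 0) w
      - T.v (.inr 0) U, fun P => ?_⟩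
    rw [T.v_mul _ _ _ hw hU]
    simp only [Pi.add_apply, Finset.sum_add_distrib, Finset.sum_const, Finset.card_univ,
      Fintype.card_fin, nsmul_eq_mul]
    cases P with
    | inl q =>
      rw [hvU]
      show _ = _ - _ * 0
      ring
    | inr a =>
      obtain ⟨t, _, ht⟩ := d.fibre_inf 0 a
      have h7 := fin_inv_iter (B := fun P => ∑ i, E i P + d.n * d.Inf dd P - d.Inf ρ' P
        - T.v P w - T.v P U) hB (.inr 0) t
      rw [ht] at h7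
      show _ = _ - _ * 1
      linarith
  have hψ' : w * U ≠ 0 := mul_ne_zero hw hU
  have hf : ∀ i, (T.x - algebraMap 𝕜 L (d.r i)) ^ δ' * aeval (T.ξ i) (h' i) ≠ 0 := fun i =>
    mul_ne_zero (pow_ne_zero _ (T.x_sub_ne _)) (T.aeval_ξ_ne i (hh i).1.ne_zero).1
  have hH : ∏ i, ((T.x - algebraMap 𝕜 L (d.r i)) ^ δ' * aeval (T.ξ i) (h' i)) ≠ 0 :=
    Finset.prod_ne_zero_iff.2 fun i _ => hf i
  have hq : ∀ P, T.v P (T.pp (w * U) d.ℓ
        / ∏ i, ((T.x - algebraMap 𝕜 L (d.r i)) ^ δ' * aeval (T.ξ i) (h' i)))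
      = (d.n * δ' - d.ℓ * a0 - ∑ a ∈ range d.ℓ, ρ' a) * d.Inf (fun _ => 1) P := by
    intro P
    have e1 : ∀ i, T.v P ((T.x - algebraMap 𝕜 L (d.r i)) ^ δ' * aeval (T.ξ i) (h' i))
        = d.part (E i + d.Inf dd) d.ℓ P - δ' * d.Inf (fun _ => 1) P := fun i => by
      rw [← hδ' i]
      exact fin_v_factor (by rw [Pi.add_apply, (hE i).2.2, fin_inf_ram, add_zero]) (hh i) P
    have e2 := d.part_inf ρ' P
    have e3 := d.part_inf (fun _ => 1) P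
    rw [v_div (T.pp_ne hψ' _) hH, T.v_pp hψ', v_prod _ _ fun i _ => hf i]
    simp only [e1, ha0]
    simp only [Dat.part, Finset.sum_sub_distrib, ← Finset.mul_sum, Finset.sum_const,
      Finset.card_univ, Fintype.card_fin, nsmul_eq_mul, Finset.card_range, mul_one] at e2 e3 ⊢
    rw [e2, e3, Finset.sum_comm]
    ring
  obtain ⟨c, hc, hc'⟩ := T.const_of_fixed (div_ne_zero (T.pp_ne hψ' d.ℓ) hH) (by
    rw [map_div₀, T.τ_pp, map_prod]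
    refine congrArg _ (Finset.prod_congr rfl fun i _ => ?_)
    rw [map_mul, map_pow, map_sub, T.τx, AlgEquiv.commutes, T.τ_aeval (T.τξ i)])
    fun q => by rw [hq]; exact mul_zero _
  refine ⟨w * U, c, ⟨hψ', δ' * d.m - a0, ?_, fun P => ?_⟩, ?_, hc, ?_⟩
  · have h8 := hq (.inr 0)
    rw [hc', T.v_const _ _ hc] at h8
    have h9 : (d.n : ℤ) = d.ℓ * d.m := by exact_mod_cast d.hn
    have h10 : d.Inf (fun _ => 1) (.inr 0) = 1 := rfl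
    rw [h10, mul_one, h9] at h8
    linarith
  · rw [ha0]
    ring
  · rw [map_mul, hτU, ← mul_assoc, ← smul_mul_assoc]
    refine congrArg (· * U) ?_
    conv_lhs => rw [← hw', ← smul_mul_assoc, smul_smul, mul_inv_cancel₀ hκ0, one_smul]
  · rw [Algebra.smul_def, ← hc', div_mul_cancel₀ _ hH]

end Vale.Agent.P319.Curve
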