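import Vale.Agent.P319.Alg

/-! Two facts on the ring of `ℓ`-th cyclotomic integers and the integer recursion. -/

namespace Vale.Agent.P319

open Finset

open Polynomial in
theorem il_poly {R : Type} [CommRing R] {ℓ : ℕ} (hℓ : ℓ.Prime) (y : R) :
    ∃ q : R, ∑ j ∈ range ℓ, (y + 1) ^ j = y ^ (ℓ - 1) + ℓ * (1 + y * q) := by
  obtain ⟨r, hr⟩ := exists_add_pow_prime_eq hℓ (X : ℤ[X]) 1
  have h1 := geom_sum_mul (X + 1 : ℤ[X]) ℓ
  have hp : (X : ℤ[X]) ^ ℓ = X ^ (ℓ - 1) * X := by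
    rw [← pow_succ, Nat.sub_add_cancel hℓ.pos]
  have h2 : ∑ j ∈ range ℓ, (X + 1 : ℤ[X]) ^ j = X ^ (ℓ - 1) + (ℓ : ℤ[X]) * r := by
    apply mul_right_cancel₀ (X_ne_zero (R := ℤ))
    rw [hr, hp, one_pow] at h1
    linear_combination h1
  have h3 : r.coeff 0 = 1 := by
    have := congrArg (eval (0 : ℤ)) h2
    have hl : ℓ - 1 ≠ 0 := by have := hℓ.two_le; omega
    simp only [eval_finsetSum, eval_pow, eval_add, eval_X, eval_one, zero_add, one_pow, sum_const,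
      card_range, nsmul_eq_mul, mul_one, zero_pow hl, eval_mul, eval_natCast] at this
    rw [coeff_zero_eq_eval_zero]
    have hl0 : (ℓ : ℤ) ≠ 0 := by exact_mod_cast hℓ.ne_zero
    apply mul_left_cancel₀ hl0
    rw [← this, mul_one]
  obtain ⟨q, hq⟩ : (X : ℤ[X]) ∣ r - 1 := X_dvd_iff.2 (by simp [h3])
  have h4 : r = 1 + X * q := by rw [← hq]; ring
  refine ⟨aeval y q, ?_⟩
  have := congrArg (aeval y) h2
  rw [h4] at this
  simpa using this

section galois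
variable {M R : Type} [AddCommGroup M] [CommRing R] (φ : R →+* Module.End ℤ M)
  {M0 N : Submodule ℤ M} {ℓ : ℕ}

theorem il_mul (a b : R) (x : M) : φ (a * b) x = φ a (φ b x) := by
  rw [map_mul, Module.End.mul_apply]

theorem il_add (a b : R) (x : M) : φ (a + b) x = φ a x + φ b x := by
  rw [map_add, LinearMap.add_apply]

theorem il_del (h0 : ∀ r, ∀ x ∈ M0, φ r x ∈ M0) {lam del : R}
    (hb : ∀ x ∈ M0, φ lam x ∈ N → φ del x ∈ N) (j k : ℕ) {x : M} (hx : x ∈ M0)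
    (h : φ (lam ^ (k + j)) x ∈ N) : φ (lam ^ k * del ^ j) x ∈ N := by
  induction j generalizing k with
  | zero => simpa using h
  | succ j ih =>
    have h1 := ih (k + 1) (by rwa [show k + 1 + j = k + (j + 1) by ring])
    rw [show lam ^ (k + 1) * del ^ j = lam * (lam ^ k * del ^ j) by ring, il_mul] at h1
    have h2 := hb _ (h0 _ x hx) h1
    rwa [← il_mul, show del * (lam ^ k * del ^ j) = lam ^ k * del ^ (j + 1) by ring] at h2

theorem il_ell (hℓ : ℓ.Prime) (hN : ∀ r, ∀ x ∈ N, φ r x ∈ N) {t : R}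
    (ha : ∀ x ∈ M0, φ (∑ j ∈ range ℓ, t ^ j) x ∈ N) {x : M} (hx : x ∈ M0)
    (h : φ ((1 - t) ^ (ℓ - 1)) x ∈ N) : φ ℓ x ∈ N := by
  obtain ⟨q, hq⟩ := il_poly hℓ (t - 1)
  rw [sub_add_cancel] at hq
  have h1 : φ ((t - 1) ^ (ℓ - 1)) x ∈ N := by
    have := hN ((-1) ^ (ℓ - 1)) _ h
    rwa [← il_mul, ← mul_pow, neg_one_mul, neg_sub] at this
  have h2 : φ (ℓ * (1 + (t - 1) * q)) x ∈ N := by
    have := ha x hx
    rw [hq, il_add] at this
    exact (N.add_mem_iff_right h1).1 this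
  have h3 := hN (∑ j ∈ range (ℓ - 1), (-((t - 1) * q)) ^ j) _ h2
  have h4 := hN (ℓ * (-q) ^ (ℓ - 1)) _ h1
  rw [← il_mul] at h3 h4
  have h5 := N.add_mem h3 h4
  rw [← il_add] at h5
  have e : (∑ j ∈ range (ℓ - 1), (-((t - 1) * q)) ^ j) * (ℓ * (1 + (t - 1) * q))
      + ℓ * (-q) ^ (ℓ - 1) * (t - 1) ^ (ℓ - 1) = (ℓ : R) := by
    have g := geom_sum_mul (-((t - 1) * q)) (ℓ - 1)
    have g2 : (-((t - 1) * q)) ^ (ℓ - 1) = (-q) ^ (ℓ - 1) * (t - 1) ^ (ℓ - 1) := by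
      rw [← mul_pow]; ring_nf
    linear_combination (-(ℓ : R)) * g - (ℓ : R) * g2
  rwa [e] at h5

theorem il_main (hℓ : ℓ.Prime) (h0 : ∀ r, ∀ x ∈ M0, φ r x ∈ M0) (hN : ∀ r, ∀ x ∈ N, φ r x ∈ N)
    {t : R} (ha : ∀ x ∈ M0, φ (∑ j ∈ range ℓ, t ^ j) x ∈ N) (e : ℕ) (s : R)
    (hb : ∀ x ∈ M0, φ (1 - t) x ∈ N → φ (s - 1) x ∈ N) {x : M} (hx : x ∈ M0)
    (h : φ ((1 - t) ^ (e * (ℓ - 1)) * (s - 1)) x ∈ N) : φ (s ^ ℓ ^ e - 1) x ∈ N := by
  induction e generalizing s with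
  | zero => simpa using h
  | succ e ih =>
    have hg := geom_sum_mul s ℓ
    rw [pow_succ', pow_mul]
    refine ih (s ^ ℓ) (fun y hy h1 => ?_) ?_
    · rw [← hg, il_mul]
      exact hN _ _ (hb y hy h1)
    · obtain ⟨q, hq⟩ := il_poly hℓ (s - 1)
      rw [sub_add_cancel] at hq
      rw [add_mul, one_mul] at h
      have h1 := il_del φ h0 hb (ℓ - 1) (e * (ℓ - 1)) (h0 (s - 1) x hx) (by rwa [← il_mul])
      have h2 := il_ell φ hℓ hN ha (h0 ((1 - t) ^ (e * (ℓ - 1)) * (s - 1)) x hx) (by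
        rwa [← il_mul, ← mul_assoc, ← pow_add, add_comm])
      have h3 := N.add_mem h1 (hN (1 + (s - 1) * q) _ h2)
      rw [← il_mul, ← il_mul, ← il_mul, ← il_add] at h3
      rw [← hg, hq]
      rwa [show (1 - t) ^ (e * (ℓ - 1)) * (((s - 1) ^ (ℓ - 1) + ℓ * (1 + (s - 1) * q)) * (s - 1))
        = (1 - t) ^ (e * (ℓ - 1)) * (s - 1) ^ (ℓ - 1) * (s - 1) +
          (1 + (s - 1) * q) * ℓ * ((1 - t) ^ (e * (ℓ - 1)) * (s - 1)) by ring]

end galois

open Polynomial in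
theorem il_hom {M : Type} [AddCommGroup M] (s t : Module.End ℤ M) (hst : s * t = t * s) :
    ∃ φ : ℤ[X][X] →+* Module.End ℤ M, φ X = s ∧ φ (C X) = t ∧ ∀ N : Submodule ℤ M,
      (∀ x ∈ N, s x ∈ N) → (∀ x ∈ N, t x ∈ N) → ∀ r, ∀ x ∈ N, φ r x ∈ N := by
  have hc : ∀ a : ℤ[X], Commute ((aeval t : ℤ[X] →ₐ[ℤ] Module.End ℤ M).toRingHom a) s := by
    intro a
    show Commute (aeval t a) s
    induction a using Polynomial.induction_on with
    | C a => rw [aeval_C]; exact Algebra.commutes a s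
    | add p q hp hq => rw [map_add]; exact hp.add_left hq
    | monomial n a h =>
      rw [pow_succ, ← mul_assoc, map_mul, aeval_X]
      exact h.mul_left hst.symm
  refine ⟨eval₂RingHom' _ s hc, eval₂_X _ _, (eval₂_C _ _).trans (aeval_X t), fun N hs ht r => ?_⟩
  induction r using Polynomial.induction_on with
  | C a =>
    have : eval₂RingHom' _ s hc (C a) = aeval t a := eval₂_C _ _
    rw [this]
    clear this
    induction a using Polynomial.induction_on with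
    | C a => intro x hx; rw [aeval_C]; exact N.smul_mem a hx
    | add p q hp hq => intro x hx; rw [map_add]; exact N.add_mem (hp x hx) (hq x hx)
    | monomial n a h =>
      intro x hx
      rw [pow_succ, ← mul_assoc, map_mul, aeval_X]
      exact h _ (ht x hx)
  | add p q hp hq => intro x hx; rw [map_add]; exact N.add_mem (hp x hx) (hq x hx)
  | monomial n a h =>
    intro x hx
    have : eval₂RingHom' _ s hc X = s := eval₂_X _ _
    rw [pow_succ, ← mul_assoc, map_mul, this]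
    exact h _ (hs x hx)

/-- Passing to an extension of degree `ℓ` lowers the exponent by `ℓ - 1`. -/
theorem galois_lemma {M : Type} [AddCommGroup M] {ℓ : ℕ} (hℓ : ℓ.Prime) (s t : Module.End ℤ M)
    (hst : s * t = t * s) (M0 N : Submodule ℤ M) (hs0 : ∀ x ∈ M0, s x ∈ M0)
    (ht0 : ∀ x ∈ M0, t x ∈ M0) (hs : ∀ x ∈ N, s x ∈ N) (ht : ∀ x ∈ N, t x ∈ N)
    (ha : ∀ x ∈ M0, (∑ j ∈ range ℓ, t ^ j) x ∈ N)
    (hb : ∀ x ∈ M0, (1 - t) x ∈ N → (s - 1) x ∈ N) (e k : ℕ) (hk : k ≤ e * (ℓ - 1))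
    {x : M} (hx : x ∈ M0) (h : ((1 - t) ^ k) ((s - 1) x) ∈ N) : (s ^ ℓ ^ e - 1) x ∈ N := by
  obtain ⟨φ, h1, h2, h3⟩ := il_hom s t hst
  generalize (Polynomial.X : Polynomial (Polynomial ℤ)) = s' at h1
  generalize (Polynomial.C Polynomial.X : Polynomial (Polynomial ℤ)) = t' at h2
  subst h1 h2
  have hN := h3 N hs ht
  have key := il_main φ hℓ (h3 M0 hs0 ht0) hN (t := t') (by simpa using ha) e s'
    (by simpa using hb) hx (by
      obtain ⟨j, hj⟩ := Nat.exists_eq_add_of_le' hk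
      rw [hj, pow_add, mul_assoc, il_mul, il_mul]
      apply hN
      simpa using h)
  simpa using key

theorem il_shift {O : Type} [CommRing O] {ℓ : ℕ} {z : O} (hz : z ^ ℓ = 1) (x : ℕ → O) :
    ∑ a ∈ range ℓ, x ((a + 1) % ℓ) * z ^ (a + 1) = ∑ a ∈ range ℓ, x a * z ^ a := by
  have h1 := Finset.sum_range_succ' (fun a => x (a % ℓ) * z ^ a) ℓ
  rw [Finset.sum_range_succ, Nat.mod_self, hz, Nat.zero_mod, pow_zero] at h1
  rw [← add_right_cancel h1]
  exact Finset.sum_congr rfl fun a ha => by rw [Nat.mod_eq_of_lt (mem_range.1 ha)]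

theorem il_int {O : Type} [CommRing O] {ℓ n e : ℕ} (hℓ : ℓ.Prime) {z : O}
    (hz : ∑ j ∈ range ℓ, z ^ j = 0) (htf : ∀ x : O, (ℓ : O) * x = 0 → x = 0)
    (φ : O →+* ZMod ℓ) (hφ : φ z = 1) (h1 : ℓ ^ e ∣ n) (h2 : ¬ℓ ^ (e + 1) ∣ n)
    (ρ dd : ℕ → ℕ → ℤ) (μ : ℕ → ℤ) (h0 : ∀ a < ℓ, ρ 0 a = if a = 0 then (n : ℤ) else 0)
    (hs : ∀ k < e * (ℓ - 1), ∀ a < ℓ, (ρ (k + 1) a - n * dd k a) -
      (ρ (k + 1) ((a + 1) % ℓ) - n * dd k ((a + 1) % ℓ)) = ρ k a - μ k) :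
    ¬(ℓ : ℤ) ∣ ∑ a ∈ range ℓ, ρ (e * (ℓ - 1)) a := by
  intro hd
  have hz1 : z ^ ℓ = 1 := by
    have := geom_sum_mul z ℓ
    rw [hz, zero_mul] at this
    exact (sub_eq_zero.1 this.symm)
  have step : ∀ k ≤ e * (ℓ - 1), ∃ w : O,
      (z - 1) ^ k * ∑ a ∈ range ℓ, (ρ k a : O) * z ^ a = n * (1 + (z - 1) * w) := by
    intro k
    induction k with
    | zero =>
      intro _
      refine ⟨0, ?_⟩
      rw [Finset.sum_eq_single 0]
      · simp [h0 0 hℓ.pos]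
      · intro a ha hne
        simp [h0 a (mem_range.1 ha), hne]
      · intro h
        exact absurd (mem_range.2 hℓ.pos) h
    | succ k ih =>
      intro hk
      obtain ⟨w, hw⟩ := ih (by omega)
      have e1 := il_shift hz1 (fun a => (ρ (k + 1) a : O) - n * dd k a)
      have e2 : ∑ a ∈ range ℓ, (((ρ (k + 1) a : O) - n * dd k a) * z ^ a * z -
          ((ρ (k + 1) ((a + 1) % ℓ) : O) - n * dd k ((a + 1) % ℓ)) * z ^ (a + 1))
          = ∑ a ∈ range ℓ, ((ρ k a : O) * z ^ a * z - μ k * z * z ^ a) := by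
        refine Finset.sum_congr rfl fun a ha => ?_
        have := congrArg (Int.cast : ℤ → O) (hs k (by omega) a (mem_range.1 ha))
        push_cast at this
        linear_combination (z ^ a * z) * this
      rw [Finset.sum_sub_distrib, Finset.sum_sub_distrib, e1, ← Finset.sum_mul, ← Finset.sum_mul,
        ← Finset.mul_sum, hz] at e2
      have e3 : ∑ a ∈ range ℓ, ((ρ (k + 1) a : O) - n * dd k a) * z ^ a =
          ∑ a ∈ range ℓ, (ρ (k + 1) a : O) * z ^ a - n * ∑ a ∈ range ℓ, (dd k a : O) * z ^ a := by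
        rw [Finset.mul_sum, ← Finset.sum_sub_distrib]
        exact Finset.sum_congr rfl fun a _ => by ring
      rw [e3] at e2
      refine ⟨1 + z * w + (z - 1) ^ k * ∑ a ∈ range ℓ, (dd k a : O) * z ^ a, ?_⟩
      linear_combination (z - 1) ^ k * e2 + z * hw
  obtain ⟨w, hw⟩ := step _ le_rfl
  obtain ⟨q, hq⟩ := il_poly hℓ (z - 1)
  rw [sub_add_cancel, hz] at hq
  obtain ⟨n', rfl⟩ := h1
  have hu : (z - 1) ^ (ℓ - 1) = ℓ * -(1 + (z - 1) * q) := by linear_combination -hq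
  rw [mul_comm e, pow_mul, hu, mul_pow, mul_comm (ℓ - 1) e] at hw
  have htf' : ∀ (j : ℕ) (x : O), (ℓ : O) ^ j * x = 0 → x = 0 := by
    intro j
    induction j with
    | zero => intro x hx; simpa using hx
    | succ j ih => intro x hx; exact htf x (ih _ (by rw [← mul_assoc, ← pow_succ, hx]))
  have h3 := htf' e ((-(1 + (z - 1) * q)) ^ e * ∑ a ∈ range ℓ, (ρ (e * (ℓ - 1)) a : O) * z ^ a
    - n' * (1 + (z - 1) * w)) (by push_cast at hw; linear_combination hw)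
  have h4 := congrArg φ h3
  have h5 : ∑ a ∈ range ℓ, (ρ (e * (ℓ - 1)) a : ZMod ℓ) = 0 := by
    have := (ZMod.intCast_zmod_eq_zero_iff_dvd _ ℓ).2 hd
    push_cast at this
    exact this
  simp only [map_sub, map_mul, map_sum, map_pow, map_intCast, hφ, one_pow, mul_one, h5, mul_zero,
    map_natCast, map_add, map_one, sub_self, zero_mul, add_zero, zero_sub, map_zero,
    neg_eq_zero] at h4
  exact h2 (by rw [pow_succ]; exact Nat.mul_dvd_mul_left _ ((ZMod.natCast_eq_zero_iff _ _).1 h4))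

open Polynomial in
theorem int_lemma {ℓ n e : ℕ} (hℓ : ℓ.Prime) (h1 : ℓ ^ e ∣ n) (h2 : ¬ℓ ^ (e + 1) ∣ n)
    (ρ dd : ℕ → ℕ → ℤ) (μ : ℕ → ℤ) (h0 : ∀ a < ℓ, ρ 0 a = if a = 0 then (n : ℤ) else 0)
    (hs : ∀ k < e * (ℓ - 1), ∀ a < ℓ, (ρ (k + 1) a - n * dd k a) -
      (ρ (k + 1) ((a + 1) % ℓ) - n * dd k ((a + 1) % ℓ)) = ρ k a - μ k) :
    ¬(ℓ : ℤ) ∣ ∑ a ∈ range ℓ, ρ (e * (ℓ - 1)) a := by
  have hm : (∑ i ∈ range ℓ, (X : ℤ[X]) ^ i).Monic := monic_geom_sum_X hℓ.ne_zero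
  have hev : eval₂ (Int.castRingHom (ZMod ℓ)) 1 (∑ i ∈ range ℓ, (X : ℤ[X]) ^ i) = 0 := by
    simp [eval₂_finsetSum]
  refine il_int (O := AdjoinRoot (∑ i ∈ range ℓ, (X : ℤ[X]) ^ i)) hℓ (z := AdjoinRoot.root _)
    ?_ ?_ (AdjoinRoot.lift _ 1 hev) (AdjoinRoot.lift_root hev) h1 h2 ρ dd μ h0 hs
  · have := AdjoinRoot.mk_self (f := ∑ i ∈ range ℓ, (X : ℤ[X]) ^ i)
    rw [map_sum] at this
    simpa only [map_pow, AdjoinRoot.mk_X] using this
  · intro x hx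
    obtain ⟨g, rfl⟩ := AdjoinRoot.mk_surjective x
    rw [← map_natCast (AdjoinRoot.mk _), ← map_mul, AdjoinRoot.mk_eq_zero,
      ← modByMonic_eq_zero_iff_dvd hm, ← nsmul_eq_mul, ← natCast_zsmul, smul_modByMonic,
      smul_eq_zero] at hx
    rw [AdjoinRoot.mk_eq_zero, ← modByMonic_eq_zero_iff_dvd hm]
    exact hx.resolve_left (by exact_mod_cast hℓ.ne_zero)

theorem il_take (ρ : List ℕ) (a : ℕ) : (ρ.take a).sum = ∑ b ∈ range a, ρ.getD b 0 := by
  induction ρ generalizing a with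
  | nil => simp
  | cons c ρ ih =>
    cases a with
    | zero => simp
    | succ a => rw [List.take_succ_cons, List.sum_cons, ih, Finset.sum_range_succ']; simp [add_comm]

theorem il_getD (ℓ : ℕ) (f g : ℕ → ℕ) (a : ℕ) :
    (((List.range ℓ).map f).map g).getD a 0 = if a < ℓ then g (f a) else 0 := by
  split_ifs with h
  · simp [List.getD_eq_getElem?_getD, List.getElem?_range h]
  · rw [List.getD_eq_default]
    simpa using h

theorem rho_spec {ℓ n : ℕ} (hℓ : 0 < ℓ) (hn : ℓ ≤ n) (ρ : List ℕ) (h1 : ρ.length = ℓ)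
    (h2 : ∀ a, ρ.getD a 0 ≤ n) (μ : ℤ) (h3 : ℓ * μ = ∑ a ∈ range ℓ, (ρ.getD a 0 : ℤ)) :
    (rhoL ℓ n ρ).length = ℓ ∧ (∀ a, (rhoL ℓ n ρ).getD a 0 ≤ n) ∧
      (∀ a, (dL ℓ n ρ).getD a 0 ≤ 2 * n) ∧ ∀ a < ℓ,
        (((rhoL ℓ n ρ).getD a 0 : ℤ) - n * ((dL ℓ n ρ).getD a 0 : ℤ)) -
          (((rhoL ℓ n ρ).getD ((a + 1) % ℓ) 0 : ℤ) - n * ((dL ℓ n ρ).getD ((a + 1) % ℓ) 0 : ℤ)) =
          (ρ.getD a 0 : ℤ) - μ := by
  have hn0 : 0 < n := by omega
  have hS : ∀ a, ∑ b ∈ range a, ρ.getD b 0 ≤ a * n := fun a => by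
    simpa using Finset.sum_le_card_nsmul (range a) _ n fun b _ => h2 b
  have hsum : ρ.sum = ∑ b ∈ range ℓ, ρ.getD b 0 := by rw [← il_take, ← h1, List.take_length]
  have hμ : ((ρ.sum / ℓ : ℕ) : ℤ) = μ := by
    rw [Int.natCast_div, hsum, Nat.cast_sum, ← h3]
    exact Int.mul_ediv_cancel_left _ (by exact_mod_cast hℓ.ne')
  have hμn : ρ.sum / ℓ ≤ n := Nat.div_le_of_le_mul (hsum ▸ hS ℓ)
  have hc : ∀ v, v ≤ n * ((v + n - 1) / n) ∧ n * ((v + n - 1) / n) ≤ v + n := fun v => by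
    have a1 := Nat.div_add_mod (v + n - 1) n
    have a2 := Nat.mod_lt (v + n - 1) hn0
    omega
  have hν : ∀ a < ℓ, ((rhoL ℓ n ρ).getD a 0 : ℤ) - n * ((dL ℓ n ρ).getD a 0 : ℤ) =
      -(ℓ * n + ∑ b ∈ range a, (ρ.getD b 0 : ℤ) - a * μ) := by
    intro a ha
    have h4 : a * (ρ.sum / ℓ) ≤ ℓ * n + (ρ.take a).sum :=
      (Nat.mul_le_mul ha.le hμn).trans (Nat.le_add_right _ _)
    rw [rhoL, dL, nuL, il_getD, il_getD, if_pos ha, if_pos ha, Nat.cast_sub (hc _).1,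
      Nat.cast_sub h4, il_take, Nat.cast_mul a, hμ]
    push_cast
    ring
  refine ⟨by simp [rhoL, nuL], fun a => ?_, fun a => ?_, fun a ha => ?_⟩
  · rw [rhoL, nuL, il_getD]
    split_ifs
    · have := (hc (ℓ * n + (ρ.take a).sum - a * (ρ.sum / ℓ))).2
      omega
    · exact Nat.zero_le _
  · rw [dL, nuL, il_getD]
    split_ifs with ha
    · apply Nat.le_of_lt_succ
      rw [Nat.div_lt_iff_lt_mul hn0]
      have a1 := hS a
      rw [← il_take] at a1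
      have a2 : a * n ≤ n * n := Nat.mul_le_mul_right _ (by omega)
      have a3 : ℓ * n ≤ n * n := Nat.mul_le_mul_right _ hn
      have a4 : (2 * n).succ * n = n * n + n * n + n := by rw [Nat.succ_eq_add_one]; ring
      omega
    · exact Nat.zero_le _
  · rw [hν a ha, hν _ (Nat.mod_lt _ hℓ)]
    rcases Nat.lt_or_ge (a + 1) ℓ with h | h
    · rw [Nat.mod_eq_of_lt h, Finset.sum_range_succ]
      push_cast
      ring
    · have e : ℓ = a + 1 := by omega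
      subst e
      rw [Finset.sum_range_succ] at h3
      rw [Nat.mod_self, Finset.sum_range_zero]
      push_cast at h3 ⊢
      linear_combination h3

end Vale.Agent.P319
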