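import Vale.Agent.P319.Exist
import Vale.Agent.P319.IntLem

/-! Rationality of the division points. -/

namespace Vale.Agent.P319.Curve

open Polynomial Finset

section aux

variable {𝕜 L : Type} [Field 𝕜] [Field L] [Algebra 𝕜 L] {d : Dat 𝕜}

/-- The divisors that are principal in the chart `i`. -/
def ga_N (T : Curve d L) (i : Fin d.n) : Submodule ℤ (d.Pl → ℤ) where
  carrier := {D | T.Prin i D}
  zero_mem' := ⟨1, one_ne_zero, fun P _ => by rw [v_one]; rfl⟩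
  add_mem' := by
    rintro a b ⟨z, hz, ha⟩ ⟨w, hw, hb⟩
    exact ⟨z * w, mul_ne_zero hz hw, fun P hP => by
      rw [T.v_mul P z w hz hw, Pi.add_apply, ha P hP, hb P hP]⟩
  smul_mem' := by
    rintro k a ⟨z, hz, ha⟩
    exact ⟨z ^ k, zpow_ne_zero k hz, fun P hP => by
      rw [v_zpow hz, Pi.smul_apply, ha P hP, smul_eq_mul]⟩

/-- The divisors of finite support. -/
def ga_M (d : Dat 𝕜) : Submodule ℤ (d.Pl → ℤ) where
  carrier := {D | d.FS D}
  zero_mem' := by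
    show (Function.support (0 : d.Pl → ℤ)).Finite
    rw [Function.support_zero]
    exact Set.finite_empty
  add_mem' := fun ha hb => Dat.FS.add ha hb
  smul_mem' := fun k _ ha => Dat.FS.smul ha k

theorem ga_tE (x : d.Pl → ℤ) (P : d.Pl) : d.tE x P = x (d.act P) := rfl

theorem ga_sE (x : d.Pl → ℤ) (P : d.Pl) : d.sE x P = x (d.sact P) := rfl

theorem ga_tE_pow (j : ℕ) (x : d.Pl → ℤ) (P : d.Pl) : (d.tE ^ j) x P = x (d.act^[j] P) := by
  induction j generalizing x with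
  | zero => rfl
  | succ j ih => rw [pow_succ, Module.End.mul_apply, ih, ga_tE, Function.iterate_succ_apply']

theorem ga_sE_pow (j : ℕ) (x : d.Pl → ℤ) (P : d.Pl) : (d.sE ^ j) x P = x (d.sact^[j] P) := by
  induction j generalizing x with
  | zero => rfl
  | succ j ih => rw [pow_succ, Module.End.mul_apply, ih, ga_sE, Function.iterate_succ_apply']

theorem ga_comm (d : Dat 𝕜) : d.sE * d.tE = d.tE * d.sE := by
  refine LinearMap.ext fun x => funext fun P => ?_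
  rw [Module.End.mul_apply, Module.End.mul_apply, ga_sE, ga_tE, ga_tE, ga_sE, d.sact_act]

theorem ga_act_ne {P : d.Pl} {i : Fin d.n} (h : P ≠ d.ram i) : d.act P ≠ d.ram i :=
  d.act_iter_ne h 1

theorem ga_sact_ne {P : d.Pl} {i : Fin d.n} (h : P ≠ d.ram i) : d.sact P ≠ d.ram i :=
  fun h' => h (d.sact_inj (h'.trans (d.sact_ram i).symm))

theorem ga_sact_iter_ne {P : d.Pl} {i : Fin d.n} (h : P ≠ d.ram i) (t : ℕ) :
    d.sact^[t] P ≠ d.ram i := by
  induction t with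
  | zero => exact h
  | succ t ih => rw [Function.iterate_succ_apply']; exact ga_sact_ne ih

theorem ga_sact_iter_ram (j : Fin d.n) (t : ℕ) : d.sact^[t] (d.ram j) = d.ram j :=
  Function.iterate_fixed (d.sact_ram j) t

theorem ga_sact_iter_act (t : ℕ) (P : d.Pl) : d.sact^[t] (d.act P) = d.act (d.sact^[t] P) := by
  induction t with
  | zero => rfl
  | succ t ih => rw [Function.iterate_succ_apply', Function.iterate_succ_apply', ih, d.sact_act]

theorem ga_s_inf (c : ℕ → ℤ) : (d.sE - 1) (d.Inf c) = 0 := by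
  funext P
  rw [LinearMap.sub_apply, Pi.sub_apply, ga_sE, Module.End.one_apply, Pi.zero_apply]
  cases P with
  | inl q => exact sub_self _
  | inr a => exact sub_self _

variable (T : Curve d L) (i : Fin d.n)

theorem ga_ht : ∀ x ∈ ga_N T i, d.tE x ∈ ga_N T i := by
  rintro x ⟨z, hz, hx⟩
  exact ⟨T.τ z, (map_ne_zero_iff _ T.τ.injective).2 hz, fun P hP => by
    rw [ga_tE, hx _ (ga_act_ne hP), T.v_τ]⟩

theorem ga_hs : ∀ x ∈ ga_N T i, d.sE x ∈ ga_N T i := by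
  rintro x ⟨z, hz, hx⟩
  exact ⟨T.σ z, (map_ne_zero_iff _ T.σ.injective).2 hz, fun P hP => by
    rw [ga_sE, hx _ (ga_sact_ne hP), T.v_σ]⟩

theorem ga_one_sub_pow (k : ℕ) : ∀ x ∈ ga_N T i, ((1 - d.tE) ^ k) x ∈ ga_N T i := by
  induction k with
  | zero => intro x hx; exact hx
  | succ k ih =>
    intro x hx
    rw [pow_succ, Module.End.mul_apply]
    refine ih _ ?_
    rw [LinearMap.sub_apply, Module.End.one_apply]
    exact sub_mem hx (ga_ht T i x hx)

theorem ga_s_pow (k : ℕ) : ∀ x ∈ ga_N T i, (d.sE ^ k) x ∈ ga_N T i := by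
  induction k with
  | zero => intro x hx; exact hx
  | succ k ih =>
    intro x hx
    rw [pow_succ, Module.End.mul_apply]
    exact ih _ (ga_hs T i x hx)

theorem ga_mul {a : ℕ} {x : d.Pl → ℤ} (h : (d.sE ^ a - 1) x ∈ ga_N T i) (q : ℕ) :
    (d.sE ^ (a * q) - 1) x ∈ ga_N T i := by
  induction q with
  | zero => rw [mul_zero, pow_zero, sub_self]; exact zero_mem _
  | succ q ih =>
    have e : d.sE ^ (a * (q + 1)) - 1 = d.sE ^ a * (d.sE ^ (a * q) - 1) + (d.sE ^ a - 1) := by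
      rw [mul_sub, mul_one, ← pow_add, sub_add_sub_cancel, mul_add, mul_one, add_comm (a * q) a]
    rw [e, LinearMap.add_apply, Module.End.mul_apply]
    exact add_mem (ga_s_pow T i a _ ih) h

theorem ga_iter_div (s : 𝕜 ≃+* 𝕜) (N : ℕ) (a b : 𝕜) : s^[N] (a / b) = s^[N] a / s^[N] b := by
  induction N with
  | zero => rfl
  | succ N ih => simp only [Function.iterate_succ_apply', ih, map_div₀]

theorem ga_σ_ne (N : ℕ) {g : L} (hg : g ≠ 0) : T.σ^[N] g ≠ 0 := by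
  induction N with
  | zero => exact hg
  | succ N ih =>
    rw [Function.iterate_succ_apply']
    exact (map_ne_zero_iff _ T.σ.injective).2 ih

end aux

variable {𝕜 L : Type} [Field 𝕜] [IsAlgClosed 𝕜] [Field L] [Algebra 𝕜 L] {d : Dat 𝕜}
  {T : Curve d L} {i : Fin d.n} {D E : d.Pl → ℤ}

theorem ga_ha (T : Curve d L) (i : Fin d.n) :
    ∀ x ∈ ga_M d, (∑ j ∈ range d.ℓ, d.tE ^ j) x ∈ ga_N T i := by
  intro x hx
  obtain ⟨U, hU, -, hv⟩ := T.exists_fixed_chart i (Dat.FS.part hx d.ℓ)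
    (fun P _ => d.part_act x P) (fun j _ => ⟨x (d.ram j), by
      simp only [Dat.part, d.act_iter_ram, sum_const, card_range, nsmul_eq_mul]⟩)
  refine ⟨U, hU, fun P hP => ?_⟩
  rw [hv P hP, LinearMap.sum_apply, Finset.sum_apply, Dat.part]
  exact sum_congr rfl fun j _ => ga_tE_pow j x P

/-- A divisor whose coboundary is principal differs from a principal one by an invariant one. -/
theorem ga_inv (T : Curve d L) (i : Fin d.n) {x : d.Pl → ℤ} (h : (1 - d.tE) x ∈ ga_N T i) :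
    ∃ w : L, w ≠ 0 ∧ ∀ P, P ≠ d.ram i →
      x (d.act P) - T.v (d.act P) w = x P - T.v P w := by
  obtain ⟨g, hg, hx⟩ := h
  have hx' : ∀ P, P ≠ d.ram i → T.v P g = x P - x (d.act P) := fun P hP => (hx P hP).symm
  obtain ⟨c, hc, hpp⟩ := T.const_of_unit i (T.pp_ne hg d.ℓ) (fun P hP => by
    rw [T.v_pp hg, Dat.part]
    have : ∀ t ∈ range d.ℓ, T.v (d.act^[t] P) g = x (d.act^[t] P) - x (d.act^[t + 1] P) :=
      fun t _ => by rw [hx' _ (d.act_iter_ne hP t), Function.iterate_succ_apply']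
    rw [sum_congr rfl this, sum_range_sub' (fun t => x (d.act^[t] P)), d.act_iter]
    exact sub_self _)
  obtain ⟨a, ha⟩ := IsAlgClosed.exists_pow_nat_eq c⁻¹ d.prime.pos
  have ha0 : a ≠ 0 := by
    rintro rfl
    rw [zero_pow d.prime.ne_zero] at ha
    exact inv_ne_zero hc ha.symm
  have h1 : T.pp (a • g) d.ℓ = 1 := by
    rw [T.pp_smul, ha, hpp, Algebra.smul_def, ← map_mul, inv_mul_cancel₀ hc, map_one]
  obtain ⟨w, hw, hgw⟩ := T.hilbert90 h1
  refine ⟨w, hw, fun P hP => ?_⟩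
  have h2 := T.v_mul P (a • g) (T.τ w) (smul_ne_zero ha0 hg)
    ((map_ne_zero_iff _ T.τ.injective).2 hw)
  rw [hgw, v_smul ha0 hg, T.v_τ, hx' P hP] at h2
  omega

theorem ga_hb (T : Curve d L) (i : Fin d.n) :
    ∀ x ∈ ga_M d, (1 - d.tE) x ∈ ga_N T i → (d.sE - 1) x ∈ ga_N T i := by
  intro x hx h
  obtain ⟨w, hw, hA⟩ := ga_inv T i h
  have hfs : d.FS (x - fun P => T.v P w) := Dat.FS.sub hx (T.fs_v hw)
  have hfs' : d.FS fun P => (1 - d.Rm P) * (x P - T.v P w) := by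
    refine Set.Finite.subset hfs fun P hP => ?_
    exact right_ne_zero_of_mul hP
  obtain ⟨U, hU, -, hv⟩ := T.exists_fixed_chart i hfs'
    (fun P hP => by rw [d.rm_act, hA P hP]) (fun j _ => by
      rw [d.rm_ram, sub_self, zero_mul]; exact dvd_zero _)
  have hwU : w * U ≠ 0 := mul_ne_zero hw hU
  refine ⟨T.σ (w * U) / (w * U),
    div_ne_zero ((map_ne_zero_iff _ T.σ.injective).2 hwU) hwU, fun P hP => ?_⟩
  rw [v_div ((map_ne_zero_iff _ T.σ.injective).2 hwU) hwU, T.v_σ, T.v_mul _ _ _ hw hU,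
    T.v_mul _ _ _ hw hU, hv P hP, hv _ (ga_sact_ne hP), LinearMap.sub_apply, Pi.sub_apply, ga_sE,
    Module.End.one_apply]
  rcases d.rm_cases P with ⟨j, rfl⟩ | h0
  · rw [d.sact_ram, sub_self, sub_self]
  · rcases d.rm_cases (d.sact P) with ⟨j, hj⟩ | h1
    · have : P = d.ram j := d.sact_inj (hj.trans (d.sact_ram j).symm)
      rw [this, d.sact_ram, sub_self, sub_self]
    · rw [h0, h1]; ring

theorem gi_zero (T : Curve d L) (i : Fin d.n) (c : ℕ → ℤ) : T.GI i 0 (d.Inf c) := by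
  have : ((1 - d.tE) ^ (0 : ℕ)) ((d.sE - 1) (d.Inf c)) ∈ ga_N T i := by
    rw [ga_s_inf, map_zero]
    exact zero_mem _
  exact this

theorem GI.step {k : ℕ} (h : T.GI i k D) {g : L} (hg : T.Dv i D E g) (c : ℕ → ℤ) :
    T.GI i (k + 1) (E + d.Inf c) := by
  have h0 : ((1 - d.tE) ^ k) ((d.sE - 1) D) ∈ ga_N T i := h
  have h1 : D - (1 - d.tE) E ∈ ga_N T i := ⟨g, hg.1, fun P hP => by
    rw [← hg.2 P hP, Pi.sub_apply, LinearMap.sub_apply, Pi.sub_apply, Module.End.one_apply, ga_tE]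
    ring⟩
  have h2 : (d.sE - 1) (D - (1 - d.tE) E) ∈ ga_N T i := by
    rw [LinearMap.sub_apply, Module.End.one_apply]
    exact sub_mem (ga_hs T i _ h1) h1
  have h3 := sub_mem h0 (ga_one_sub_pow T i k _ h2)
  have hc : (d.sE - 1) * (1 - d.tE) = (1 - d.tE) * (d.sE - 1) := by
    simp only [mul_sub, sub_mul, mul_one, one_mul, ga_comm d]
    abel
  have h4 : ((1 - d.tE) ^ (k + 1)) ((d.sE - 1) (E + d.Inf c)) ∈ ga_N T i := by
    rw [map_add, ga_s_inf, add_zero, pow_succ, Module.End.mul_apply,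
      ← Module.End.mul_apply (1 - d.tE) (d.sE - 1), ← hc, Module.End.mul_apply]
    rwa [← map_sub, ← map_sub, sub_sub_cancel] at h3
  exact h4

theorem ratio {h : 𝕜[X]} (hD : d.Eff D) (hh : T.Nrm i D h) {k e N : ℕ} (hk : T.GI i k D)
    (he : k + 1 ≤ e * (d.ℓ - 1)) (hN : d.ℓ ^ e ∣ N)
    (hf : ∀ P, P ≠ d.ram i → D (d.sact^[N] P) = D P) {j j' : Fin d.n} (hj : j ≠ i)
    (hj' : j' ≠ i) :
    ∃ z : 𝕜, z ≠ 0 ∧ d.s^[N] z = z ∧ h.eval (d.rt i j) = z ^ d.ℓ * h.eval (d.rt i j') := by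
  obtain ⟨g, E, hE, -, hg, hpp⟩ := exists_div0 hD hh
  have h1 : ((1 - d.tE) ^ (k + 1)) ((d.sE - 1) (E + d.Inf fun _ => 0)) ∈ ga_N T i :=
    hk.step hg fun _ => 0
  rw [map_add, ga_s_inf, add_zero] at h1
  have h2 := galois_lemma d.prime d.sE d.tE (ga_comm d) (ga_M d) (ga_N T i)
    (fun x hx => Dat.FS.sact hx) (fun x hx => Dat.FS.act hx 1) (ga_hs T i) (ga_ht T i)
    (ga_ha T i) (ga_hb T i) e (k + 1) he hE h1
  obtain ⟨q, rfl⟩ := hN
  obtain ⟨w, hw, hv⟩ := ga_mul T i h2 q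
  generalize d.ℓ ^ e * q = N at hv hf ⊢
  have hv' : ∀ P, P ≠ d.ram i → T.v P w = E (d.sact^[N] P) - E P := fun P hP => by
    rw [← hv P hP, LinearMap.sub_apply, Pi.sub_apply, ga_sE_pow, Module.End.one_apply]
  have hτ : T.τ w ≠ 0 := (map_ne_zero_iff _ T.τ.injective).2 hw
  have hu : T.τ w / w * g ≠ 0 := mul_ne_zero (div_ne_zero hτ hw) hg.1
  obtain ⟨c, hc, hcg⟩ := T.const_of_unit i (div_ne_zero (ga_σ_ne T N hg.1) hu) (fun P hP => by
    rw [v_div (ga_σ_ne T N hg.1) hu, T.v_mul _ _ _ (div_ne_zero hτ hw) hg.1, v_div hτ hw,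
      T.v_σ_iter, T.v_τ, hv' P hP, hv' _ (ga_act_ne hP), ← hg.2 P hP,
      ← hg.2 _ (ga_sact_iter_ne hP N), hf P hP, ga_sact_iter_act]
    ring)
  rw [div_eq_iff hu] at hcg
  have key : ∀ j, j ≠ i → ∃ γ : 𝕜, γ ≠ 0 ∧ d.s^[N] γ = c * γ ∧ h.eval (d.rt i j) = γ ^ d.ℓ := by
    intro j hj
    have hne : d.ram j ≠ d.ram i := fun h' => hj (d.ram_inj h')
    have hv0 : T.v (d.ram j) g = 0 := by
      rw [← hg.2 _ hne, hD.2.2 j, d.act_ram]; ring
    obtain ⟨γ, hγ⟩ := Ge.exists_val (T := T) (P := d.ram j) (z := g) (Or.inr hv0.ge)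
    refine ⟨γ, hγ.ne_zero hg.1 hv0, ?_, ?_⟩
    · have a1 := T.val_σ hγ N
      have a2 := T.val_τ_div j hw
      rw [hv' _ hne, ga_sact_iter_ram, sub_self, zpow_zero] at a2
      have a3 := (val_const (T := T) (d.ram j) c).mul (a2.mul hγ)
      rw [← hcg, one_mul] at a3
      exact a1.unique a3
    · have a1 := T.val_pp hγ d.ℓ
      rw [hpp] at a1
      exact ((T.val_ξ_ram hj).aeval h).unique a1
  obtain ⟨γ, hγ, hs, he⟩ := key j hj
  obtain ⟨γ', hγ', hs', he'⟩ := key j' hj'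
  refine ⟨γ / γ', div_ne_zero hγ hγ', ?_, ?_⟩
  · rw [ga_iter_div, hs, hs', mul_div_mul_left _ _ hc]
  · rw [he, he', div_pow, div_mul_cancel₀ _ (pow_ne_zero _ hγ')]

end Vale.Agent.P319.Curve
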