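import Vale.Agent.P319.StepA

/-! Generators of the next ideal. -/

namespace Vale.Agent.P319

open Polynomial Finset

variable {𝕜 L α : Type} [Field 𝕜] [IsAlgClosed 𝕜] [Field L] [Algebra 𝕜 L] {d : Dat 𝕜}
  {T : Curve d L} {i : Fin d.n} {o : Ops α} {φ : α → 𝕜} {F : List α} {ζ : α}
  {D E : d.Pl → ℤ} {h : 𝕜[X]}

omit [IsAlgClosed 𝕜] in
theorem sc_one_le (d : Dat 𝕜) : 1 ≤ d.n := (le_trans (by norm_num) d.two_le).trans d.ℓ_le_n

omit [IsAlgClosed 𝕜] in
theorem sc_le_W (d : Dat 𝕜) : 5 * (d.n * d.n * d.n) ≤ wW d.n ∧ d.n * d.n ≤ d.n * d.n * d.n ∧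
    d.n ≤ d.n * d.n ∧ (d.ℓ - 1) * (d.n - 1) ≤ d.n * d.n ∧ d.ℓ * d.n ≤ d.n * d.n := by
  have h1 := sc_one_le d
  have h2 := d.ℓ_le_n
  refine ⟨by unfold wW; omega, Nat.le_mul_of_pos_right _ h1, Nat.le_mul_of_pos_right _ h1,
    Nat.mul_le_mul (by omega) (by omega), Nat.mul_le_mul_right _ h2⟩

omit [IsAlgClosed 𝕜] in
theorem sc_span {ι : Type} (l : List ι) (i0 : ι) (u : ι → L) (z : L) :
    z ∈ Submodule.span 𝕜 {g | g ∈ l.map u} ↔ ∃ c : ℕ → 𝕜, (∀ t, l.length ≤ t → c t = 0) ∧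
      z = ∑ t ∈ range l.length, c t • u (l.getD t i0) := by
  constructor
  · intro hz
    obtain ⟨c, h1, h2⟩ := exists_coef (R := 𝕜) l i0 u (fun _ => True) z (by
      refine Submodule.span_mono ?_ hz
      intro g hg
      obtain ⟨q, hq, rfl⟩ := List.mem_map.mp hg
      exact ⟨q, hq, trivial, rfl⟩)
    refine ⟨c, fun t ht => ?_, h2⟩
    by_contra h
    have := (h1 t h).1
    omega
  · rintro ⟨c, -, rfl⟩
    refine Submodule.sum_mem _ fun t ht => Submodule.smul_mem _ _ (Submodule.subset_span ?_)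
    refine List.mem_map.mpr ⟨_, ?_, rfl⟩
    rw [List.getD_eq_getElem _ _ (mem_range.mp ht)]
    exact List.getElem_mem _

omit [IsAlgClosed 𝕜] in
theorem sc_span_mul {a : L} (ha : a ≠ 0) (l : List L) (z : L) :
    a * z ∈ Submodule.span 𝕜 {g | g ∈ l.map fun g => a * g} ↔
      z ∈ Submodule.span 𝕜 {g | g ∈ l} := by
  have e : {g | g ∈ l.map fun g => a * g} = (LinearMap.mulLeft 𝕜 a) '' {g | g ∈ l} := by
    ext g; simp
  rw [e, Submodule.span_image, Submodule.mem_map]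
  constructor
  · rintro ⟨y, hy, h⟩
    rw [LinearMap.mulLeft_apply] at h
    rwa [← mul_left_cancel₀ ha h]
  · intro h; exact ⟨z, h, rfl⟩

omit [IsAlgClosed 𝕜] in
theorem sc_span_lin (hφ : FHom o φ) (X Y : L) (ℓ : ℕ) (M : List (List α))
    (U : List (List (List α))) (z : L) :
    z ∈ Submodule.span 𝕜 {g | g ∈ (M.map fun l => o.lin ℓ l U).map (sem φ X Y ℓ)} ↔
      ∃ c ∈ Submodule.span 𝕜 {w | w ∈ M.map (vec φ)},
        z = ∑ t ∈ range U.length, c t • sem φ X Y ℓ (U.getD t []) := by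
  let Λ : (ℕ → 𝕜) →ₗ[𝕜] L :=
    { toFun := fun c => ∑ t ∈ range U.length, c t • sem φ X Y ℓ (U.getD t [])
      map_add' := fun a b => by simp [add_smul, sum_add_distrib]
      map_smul' := fun a b => by simp [smul_sum, mul_smul] }
  have e : {g | g ∈ (M.map fun l => o.lin ℓ l U).map (sem φ X Y ℓ)}
      = Λ '' {w | w ∈ M.map (vec φ)} := by
    ext g
    simp only [List.map_map, List.mem_map, Function.comp, hφ.toHom.lin, Set.mem_image,
      Set.mem_ofPred_eq]
    constructor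
    · rintro ⟨l, hl, rfl⟩; exact ⟨_, ⟨l, hl, rfl⟩, rfl⟩
    · rintro ⟨_, ⟨l, hl, rfl⟩, rfl⟩; exact ⟨l, hl, rfl⟩
  rw [e, Submodule.span_image, Submodule.mem_map]
  exact ⟨fun ⟨c, h1, h2⟩ => ⟨c, h1, h2.symm⟩, fun ⟨c, h1, h2⟩ => ⟨c, h1, h2.symm⟩⟩

theorem sc_count (ℓ : ℕ) (g : ℕ → ℕ) (b : ℕ) :
    ((List.range ℓ).flatMap fun a => List.replicate (g a) a).count b = if b < ℓ then g b else 0 := by
  induction ℓ with
  | zero => simp
  | succ ℓ ih =>
    rw [List.range_succ, List.flatMap_append, List.count_append, ih]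
    simp only [List.flatMap_cons, List.flatMap_nil, List.append_nil, List.count_replicate,
      beq_iff_eq]
    by_cases h1 : b < ℓ
    · rw [if_pos h1, if_neg (by omega), if_pos (by omega)]; rfl
    · by_cases h2 : ℓ = b
      · subst h2; simp
      · rw [if_neg h1, if_neg h2, if_neg (by omega)]

theorem infG_spec (hφ : FHom o φ) (hζ : φ ζ = d.ζ) (T : Curve d L) (i : Fin d.n) {a : ℕ}
    (ha : a < d.ℓ) : T.Gen i ((o.infG ζ a).map (sem φ (T.ξ i) (T.η i) d.ℓ))
      (d.Inf fun b => if b = a then 1 else 0) ∧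
      ∀ g ∈ o.infG ζ a, T.Dle i (sem φ (T.ξ i) (T.η i) d.ℓ g) (wW d.n) := by
  have hl := d.two_le
  have e : (o.infG ζ a).map (sem φ (T.ξ i) (T.η i) d.ℓ)
      = [T.ξ i, T.η i - algebraMap 𝕜 L (d.ζ ^ a)] := by
    simp only [Ops.infG, List.map_cons, List.map_nil]
    rw [sem_single (by omega), sem_pair (by omega), tp_cons, tp_single, tp_single, hφ.zero,
      hφ.one, hφ.neg, hφ.toHom.pow, hζ]
    simp [sub_eq_neg_add]
  refine ⟨by rw [e]; exact Curve.gen_inf T i ha, fun g hg => ?_⟩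
  have h1 : sem φ (T.ξ i) (T.η i) d.ℓ g ∈ [T.ξ i, T.η i - algebraMap 𝕜 L (d.ζ ^ a)] := by
    rw [← e]; exact List.mem_map_of_mem hg
  obtain ⟨b1, b2, b3, -, -⟩ := sc_le_W d
  have b4 := d.ℓ_le_n
  rcases List.mem_pair.mp h1 with h2 | h2 <;> rw [h2]
  · exact (Curve.ge_self _ _).mono (by rw [T.v_ξ_self]; omega)
  · exact ((Curve.ge_self _ _).mono (by rw [T.v_η_self]; omega)).sub
      ((Curve.ge_const _ _).mono (by omega))

theorem egen_spec (hφ : FHom o φ) (hF : tp φ F = d.F i) (hδ : h.natDegree ≤ 3 * (d.n * d.n))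
    {Ds : List (List (List (List α)))}
    (hDs : ∀ j < d.ℓ, T.Spans i ((Ds.getD j []).map (sem φ (T.ξ i) (T.η i) d.ℓ)) (d.part D j)
      (wW d.n)) {c : List (List (List α))} {c' : ℕ → L}
    (hc' : ∀ j, c' j = sem φ (T.ξ i) (T.η i) d.ℓ (c.getD j [])) (hc : T.Rk i D h c')
    (hv : T.v (d.ram i) (c' 1 / c' 0) = -h.natDegree)
    (hE : ∀ w, T.Md i E w ↔ ∀ j < d.ℓ, T.Md i (d.part D j) (w * T.pp (c' 1 / c' 0) j)) :
    T.Spans i ((o.egen d.ℓ d.n F c Ds).map (sem φ (T.ξ i) (T.η i) d.ℓ)) E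
      (2 * (d.n * d.n) : ℕ) := by
  obtain ⟨hc0, hc1, -, -, hpp, -⟩ := hc
  have hY : T.η i ^ d.ℓ = aeval (T.ξ i) (tp φ F) := by rw [hF]; exact T.η_pow i
  have hg : c' 1 / c' 0 ≠ 0 := div_ne_zero hc1 hc0
  obtain ⟨U, hU⟩ : ∃ U, U = o.monT d.ℓ d.n (2 * (d.n * d.n)) := ⟨_, rfl⟩
  have hUs := monT_spec hφ T i (2 * (d.n * d.n))
  rw [← hU] at hUs
  obtain ⟨-, -, -, hsol⟩ := hφ.solve (T.indep_ξη i)
    (U.map fun u => (List.range d.ℓ).map fun j => o.tmul d.ℓ F u (c.getD j []))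
    ((List.range d.ℓ).map fun j => (Ds.getD j []).map (o.tmul d.ℓ F (c.getD 0 [])))
  have key : ∀ (x : ℕ → 𝕜) (j : ℕ), j < d.ℓ →
      (∑ t ∈ range (U.map fun u => (List.range d.ℓ).map fun j =>
          o.tmul d.ℓ F u (c.getD j [])).length, x t • sem φ (T.ξ i) (T.η i) d.ℓ
        (((U.map fun u => (List.range d.ℓ).map fun j =>
          o.tmul d.ℓ F u (c.getD j [])).getD t []).getD j []) ∈
        Submodule.span 𝕜 {g | g ∈ (((List.range d.ℓ).map fun j =>
          (Ds.getD j []).map (o.tmul d.ℓ F (c.getD 0 []))).getD j []).map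
            (sem φ (T.ξ i) (T.η i) d.ℓ)} ↔
      T.Md i (d.part D j) ((∑ t ∈ range U.length, x t • sem φ (T.ξ i) (T.η i) d.ℓ (U.getD t []))
          * T.pp (c' 1 / c' 0) j) ∧
        T.Dle i ((∑ t ∈ range U.length, x t • sem φ (T.ξ i) (T.η i) d.ℓ (U.getD t []))
          * T.pp (c' 1 / c' 0) j) (wW d.n)) := by
    intro x j hj
    rw [← hDs j hj]
    have e1 : (((List.range d.ℓ).map fun j =>
          (Ds.getD j []).map (o.tmul d.ℓ F (c.getD 0 []))).getD j []).map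
            (sem φ (T.ξ i) (T.η i) d.ℓ)
        = ((Ds.getD j []).map (sem φ (T.ξ i) (T.η i) d.ℓ)).map fun g => c' 0 * g := by
      rw [List.getD_eq_getElem _ _ (by simpa using hj)]
      simp only [List.getElem_map, List.getElem_range, List.map_map]
      refine List.map_congr_left fun g _ => ?_
      simp only [Function.comp, hφ.toHom.tmul hY, hc']
    have e2 : ∑ t ∈ range (U.map fun u => (List.range d.ℓ).map fun j =>
          o.tmul d.ℓ F u (c.getD j [])).length, x t • sem φ (T.ξ i) (T.η i) d.ℓ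
        (((U.map fun u => (List.range d.ℓ).map fun j =>
          o.tmul d.ℓ F u (c.getD j [])).getD t []).getD j [])
        = c' 0 * ((∑ t ∈ range U.length, x t • sem φ (T.ξ i) (T.η i) d.ℓ (U.getD t []))
          * T.pp (c' 1 / c' 0) j) := by
      rw [List.length_map, mul_left_comm, ← hpp j hj, sum_mul]
      refine sum_congr rfl fun t ht => ?_
      have ht' := mem_range.mp ht
      rw [List.getD_eq_getElem (U.map _) _ (by simpa using ht'), List.getElem_map,
        List.getD_eq_getElem _ _ (by simpa using hj), List.getElem_map, List.getElem_range,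
        hφ.toHom.tmul hY, ← hc', List.getD_eq_getElem _ _ ht', smul_mul_assoc]
    rw [e1, e2, sc_span_mul hc0]
  intro z
  unfold Ops.egen
  rw [← hU, sc_span_lin hφ]
  constructor
  · rintro ⟨x, hx, rfl⟩
    obtain ⟨h1, h2⟩ := (hsol x).mp hx
    refine ⟨(hE _).mpr fun j hj => ((key x j hj).mp (h2 j (by simpa using hj))).1,
      ((hUs _).mp ((sc_span U [] _ _).mpr ⟨x, by simpa using h1, rfl⟩)).2⟩
  · rintro ⟨h1, h2⟩
    have h3 := (hE z).mp h1
    have h0 : T.Md i 0 z := by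
      have := h3 0 d.prime.pos
      rw [T.pp_zero, mul_one] at this
      exact this
    obtain ⟨x, hx, rfl⟩ := (sc_span U [] _ z).mp ((hUs z).mpr ⟨h0, h2⟩)
    refine ⟨x, (hsol x).mpr ⟨by simpa using hx, fun j hj => ?_⟩, rfl⟩
    have hj' : j < d.ℓ := by simpa using hj
    refine (key x j hj').mpr ⟨h3 j hj', ?_⟩
    have hvp : T.v (d.ram i) (T.pp (c' 1 / c' 0) j) = -(j * h.natDegree : ℕ) := by
      rw [T.v_pp hg]
      simp only [Dat.part, d.act_iter_ram, hv]
      simp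
    obtain ⟨b1, b2, -, -, -⟩ := sc_le_W d
    have b3 : j * h.natDegree ≤ 3 * (d.n * d.n * d.n) := by
      have := Nat.mul_le_mul (hj'.le.trans d.ℓ_le_n) hδ
      nlinarith
    exact (Curve.Ge.mul h2 (Curve.ge_self _ _)).mono (by rw [hvp]; omega)

theorem addInf_spec (hφ : FHom o φ) (hF : tp φ F = d.F i) (hζ : φ ζ = d.ζ) (hE : d.Eff E) {u : L}
    (hu : u ≠ 0) (h1 : T.Md i E u) (h2 : T.Dle i u (d.n * d.n : ℕ)) {G : List (List (List α))}
    (hG : T.Spans i (G.map (sem φ (T.ξ i) (T.η i) d.ℓ)) E (2 * (d.n * d.n) : ℕ)) (dd : List ℕ)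
    (hdd : ∀ a, dd.getD a 0 ≤ 2 * d.n) :
    T.Gen i ((o.addInf d.ℓ d.n F ζ dd G).map (sem φ (T.ξ i) (T.η i) d.ℓ))
        (E + d.Inf fun a => (dd.getD a 0 : ℤ)) ∧
      (∀ g ∈ o.addInf d.ℓ d.n F ζ dd G, T.Dle i (sem φ (T.ξ i) (T.η i) d.ℓ g) (wW d.n)) ∧
      ∃ u', u' ≠ 0 ∧ T.Md i (E + d.Inf fun a => (dd.getD a 0 : ℤ)) u' ∧
        T.Dle i u' (3 * (d.n * d.n) : ℕ) := by
  obtain ⟨b1, b2, b3, b4, b5⟩ := sc_le_W d
  have hu' : u * T.ξ i ^ (2 * d.n) ≠ 0 := mul_ne_zero hu (pow_ne_zero _ (T.ξ_ne i))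
  have hmd : ∀ c : ℕ → ℤ, (∀ b, c b ≤ 2 * d.n) →
      T.Md i (E + d.Inf c) (u * T.ξ i ^ (2 * d.n)) := by
    intro c hc P hP
    refine ((h1 P hP).mul ((Curve.ge_self P (T.ξ i)).pow (2 * d.n))).mono ?_
    rw [T.v_ξ hP, Pi.add_apply]
    rcases P with q | a
    · simp [Dat.Inf]
    · have := hc a.val
      simp only [Dat.Inf]
      push_cast
      omega
  have hdl : T.Dle i (u * T.ξ i ^ (2 * d.n)) (3 * (d.n * d.n) : ℕ) := by
    refine (Curve.Ge.mul h2 ((Curve.ge_self _ (T.ξ i)).pow (2 * d.n))).mono ?_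
    rw [T.v_ξ_self]
    zify at b5
    push_cast
    nlinarith
  have fold : ∀ (l : List ℕ) (G : List (List (List α))) (c : ℕ → ℤ), (∀ a ∈ l, a < d.ℓ) →
      (∀ b, 0 ≤ c b ∧ c b + l.count b ≤ 2 * d.n) →
      T.Gen i (G.map (sem φ (T.ξ i) (T.η i) d.ℓ)) (E + d.Inf c) →
      (∀ g ∈ G, T.Dle i (sem φ (T.ξ i) (T.η i) d.ℓ g) (wW d.n)) →
      T.Gen i ((l.foldl (fun G a => o.mulI d.ℓ d.n F G (o.infG ζ a)) G).map
        (sem φ (T.ξ i) (T.η i) d.ℓ)) (E + d.Inf fun b => c b + l.count b) ∧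
      ∀ g ∈ l.foldl (fun G a => o.mulI d.ℓ d.n F G (o.infG ζ a)) G,
        T.Dle i (sem φ (T.ξ i) (T.η i) d.ℓ g) (wW d.n) := by
    intro l
    induction l with
    | nil => intro G c _ _ h3 h4; exact ⟨by simpa using h3, h4⟩
    | cons a l ih =>
      intro G c ha hc h3 h4
      obtain ⟨h5, h6⟩ := infG_spec hφ hζ T i (ha a List.mem_cons_self)
      have h7 := mulI_spec hφ hF (hE.add_inf fun b => (hc b).1).2.1
        (fun P => by rcases P with q | b <;> simp only [Dat.Inf] <;> positivity) h3 h5 h4 h6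
      have e : (E + d.Inf c) + d.Inf (fun b => if b = a then 1 else 0)
          = E + d.Inf fun b => c b + if b = a then 1 else 0 := by
        funext P
        rcases P with q | b <;> simp [Dat.Inf, add_assoc]
      rw [e] at h7
      have hcnt : ∀ b, (((a :: l).count b : ℕ) : ℤ) = (if b = a then 1 else 0) + l.count b := by
        intro b
        rw [List.count_cons]
        by_cases hb : b = a
        · subst hb; simp [add_comm]
        · simp [hb, Ne.symm hb]
      have hc' : ∀ b, 0 ≤ c b + (if b = a then 1 else 0) ∧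
          c b + (if b = a then 1 else 0) + l.count b ≤ 2 * d.n := by
        intro b
        have := hc b
        rw [hcnt] at this
        constructor
        · split_ifs <;> omega
        · omega
      have h8 := ih (o.mulI d.ℓ d.n F G (o.infG ζ a)) (fun b => c b + if b = a then 1 else 0)
        (fun b hb => ha b (List.mem_cons_of_mem _ hb)) hc'
        (Curve.gen_of_spans (hE.add_inf fun b => (hc' b).1).1 hu'
          (hmd _ fun b => by have := (hc' b).2; omega) hdl h7 (by omega))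
        (fun g hg => ((h7 _).mp (Submodule.subset_span (List.mem_map_of_mem hg))).2)
      have e3 : (fun b => c b + (((a :: l).count b : ℕ) : ℤ))
          = fun b => (c b + if b = a then 1 else 0) + l.count b := by
        funext b; rw [hcnt, add_assoc]
      rw [e3, List.foldl_cons]
      exact h8
  have e0 : E + d.Inf (fun _ => 0) = E := by
    funext P
    rcases P with q | b <;> simp [Dat.Inf]
  obtain ⟨h3, h4⟩ := fold ((List.range d.ℓ).flatMap fun a =>
      List.replicate (min (dd.getD a 0) (2 * d.n)) a) G (fun _ => 0)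
    (fun a ha => by
      obtain ⟨b, hb, hab⟩ := List.mem_flatMap.mp ha
      rw [List.eq_of_mem_replicate hab]; exact List.mem_range.mp hb)
    (fun b => ⟨le_rfl, by rw [sc_count]; split_ifs <;> omega⟩)
    (by rw [e0]; exact Curve.gen_of_spans hE.1 hu h1 h2 hG (by omega))
    (fun g hg => Curve.Ge.mono ((hG _).mp (Submodule.subset_span (List.mem_map_of_mem hg))).2
      (by omega))
  refine ⟨Curve.Gen.congr h3 fun P _ => ?_, h4, _, hu', hmd _ fun b => ?_, hdl⟩
  · rcases P with q | b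
    · simp [Dat.Inf]
    · have : NeZero d.ℓ := ⟨d.prime.ne_zero⟩
      simp only [Pi.add_apply, Dat.Inf]
      rw [sc_count, if_pos (ZMod.val_lt b), min_eq_left (hdd _), zero_add]
  · have := hdd b
    omega

end Vale.Agent.P319
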