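import Vale.Agent.P319.OpsSpec

/-! Correctness of the root extraction. -/

namespace Vale.Agent.P319

theorem rs_foldl {σ β : Type} (P : σ → Prop) (F : σ → β → σ) (hF : ∀ s b, P s → P (F s b))
    (l : List β) (s : σ) (hs : P s) : P (l.foldl F s) := by
  induction l generalizing s with
  | nil => exact hs
  | cons b l ih => exact ih _ (hF _ _ hs)

theorem rs_cof {β : Type} {ℓ : ℕ} (hℓ : ℓ.Prime) (l : List β) (m : ℕ) (h0 : 0 < m)
    (h1 : m < 2 ^ l.length) :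
    ¬ℓ ∣ l.foldl (fun m _ => if m % ℓ = 0 then m / ℓ else m) m ∧
      ∃ b, m = ℓ ^ b * l.foldl (fun m _ => if m % ℓ = 0 then m / ℓ else m) m := by
  induction l generalizing m with
  | nil => simp at h1; omega
  | cons c l ih =>
    rw [List.foldl_cons]
    by_cases hm : m % ℓ = 0
    · rw [if_pos hm]
      obtain ⟨r, rfl⟩ := Nat.dvd_of_mod_eq_zero hm
      rw [Nat.mul_div_cancel_left _ hℓ.pos]
      have hr : 0 < r := Nat.pos_of_mul_pos_left h0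
      have h2 : r < 2 ^ l.length := by
        rw [List.length_cons, pow_succ] at h1
        nlinarith [hℓ.two_le]
      obtain ⟨h3, b, h4⟩ := ih r hr h2
      refine ⟨h3, b + 1, ?_⟩
      rw [pow_succ', mul_assoc, ← h4]
    · rw [if_neg hm]
      have h2 : l.foldl (fun m _ => if m % ℓ = 0 then m / ℓ else m) m = m :=
        rs_foldl (fun s => s = m) _ (fun s _ hs => by rw [hs, if_neg hm]) l m rfl
      rw [h2]
      exact ⟨fun h => hm (Nat.mod_eq_zero_of_dvd h), 0, by simp⟩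

theorem rs_lt_bits (Q : ℕ) : Q < 2 ^ Q.bits.length := by
  rw [Nat.size_eq_bits_len]
  exact Nat.lt_size_self Q

theorem cof_spec {ℓ Q : ℕ} (hℓ : ℓ.Prime) (hQ : 2 ≤ Q) :
    ¬ℓ ∣ Ops.cof ℓ Q ∧ ∃ b, Q - 1 = ℓ ^ b * Ops.cof ℓ Q :=
  rs_cof hℓ Q.bits (Q - 1) (by omega) (lt_of_le_of_lt (Nat.sub_le _ _) (rs_lt_bits Q))

variable {α R : Type} [Field R] {o : Ops α} {φ : α → R}

theorem tw_ne_zero {w : R} (hw : w ≠ 0) (k : ℕ) (c : R) : tw w k c ≠ 0 := pow_ne_zero _ hw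

theorem tw_one (w : R) (k : ℕ) : tw w k 1 = 1 := by
  unfold tw
  rw [Nat.sInf_eq_zero.2 (Or.inl (by simp)), pow_zero]

theorem rs_loop {β : Type} (P : R → Prop) (g : R) (F : α → α)
    (hF1 : ∀ s, P (φ s) → φ (F s) = φ s) (hF2 : ∀ s, ¬P (φ s) → φ (F s) = φ s * g)
    (l : List β) (s : α) (t : ℕ) (ht : t ≤ l.length) (hP : P (φ s * g ^ t))
    (hmin : ∀ t' < t, ¬P (φ s * g ^ t')) :
    φ (l.foldl (fun s _ => F s) s) = φ s * g ^ t := by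
  induction l generalizing s t with
  | nil =>
    obtain rfl : t = 0 := by simpa using ht
    simp
  | cons b l ih =>
    rw [List.foldl_cons]
    cases t with
    | zero =>
      have h1 := hF1 s (by simpa using hP)
      rw [ih (F s) 0 (Nat.zero_le _) (by rwa [h1]) (by simp), h1]
    | succ t =>
      have h1 := hF2 s (by simpa using hmin 0 (Nat.succ_pos _))
      have h2 : ∀ k, φ (F s) * g ^ k = φ s * g ^ (k + 1) := fun k => by rw [h1]; ring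
      rw [ih (F s) t (by simpa using ht) (by rwa [h2]) (fun t' h' => by
        rw [h2]; exact hmin _ (by omega)), h2]

theorem rs_pow {Q : ℕ} (h : KHom o φ Q) {a : α} (ha : φ a ≠ 0) : φ a ^ (Q - 1) = 1 := by
  have h1 := h.fix a
  have h2 := h.two
  obtain ⟨k, rfl⟩ : ∃ k, Q = k + 1 := ⟨Q - 1, by omega⟩
  rw [pow_succ] at h1
  exact mul_right_cancel₀ ha (by simpa using h1)

theorem rs_ex {ℓ : ℕ} (hℓ : ℓ.Prime) {g c : R} (hg : g ^ ℓ = 1) (hg1 : g ≠ 1) (hc : c ^ ℓ = 1) :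
    ∃ t < ℓ, c * g ^ t = 1 := by
  have := Fact.mk hℓ
  have : NeZero ℓ := ⟨hℓ.ne_zero⟩
  have h1 : IsPrimitiveRoot g ℓ := by
    rw [← orderOf_eq_prime hg hg1]
    exact IsPrimitiveRoot.orderOf g
  have h2 : c ≠ 0 := by
    rintro rfl
    rw [zero_pow hℓ.ne_zero] at hc
    exact zero_ne_one hc
  obtain ⟨t, ht, h3⟩ := h1.eq_pow_of_pow_eq_one (ξ := c⁻¹) (by rw [inv_pow, hc, inv_one])
  exact ⟨t, ht, by rw [h3, mul_inv_cancel₀ h2]⟩

theorem rs_adj {Q ℓ : ℕ} (h : KHom o φ Q) (hℓ : ℓ.Prime) (hd : ℓ ∣ Q - 1) {w : α}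
    (h0 : φ w ≠ 0) (h1 : φ w ^ ((Q - 1) / ℓ) ≠ 1) {a : α} (ha : φ a ≠ 0) :
    φ (o.adj ℓ Q w a) = φ a * tw (φ w) ((Q - 1) / ℓ) (φ a ^ ((Q - 1) / ℓ)) ∧
      φ (o.adj ℓ Q w a) ^ ((Q - 1) / ℓ) = 1 := by
  have e1 : ∀ x : α, φ x ≠ 0 → (φ x ^ ((Q - 1) / ℓ)) ^ ℓ = 1 := fun x hx => by
    rw [← pow_mul, Nat.div_mul_cancel hd, rs_pow h hx]
  obtain ⟨t, ht, h2⟩ := rs_ex hℓ (e1 w h0) h1 (e1 a ha)
  have e2 : ∀ t : ℕ, (φ a * φ w ^ t) ^ ((Q - 1) / ℓ) =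
      φ a ^ ((Q - 1) / ℓ) * (φ w ^ ((Q - 1) / ℓ)) ^ t := fun t => by
    rw [mul_pow, ← pow_mul, ← pow_mul, mul_comm t]
  have h3 := Nat.sInf_mem (s := {t : ℕ | φ a ^ ((Q - 1) / ℓ) * (φ w ^ ((Q - 1) / ℓ)) ^ t = 1})
    ⟨t, h2⟩
  have h4 : φ (o.adj ℓ Q w a) = φ a * tw (φ w) ((Q - 1) / ℓ) (φ a ^ ((Q - 1) / ℓ)) := by
    refine rs_loop (fun x => x ^ ((Q - 1) / ℓ) = 1) (φ w) _ (fun s hs => ?_) (fun s hs => ?_)
      _ a _ ?_ ?_ fun t' h' => ?_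
    · rw [h.toFHom.sel_ind, h.toHom.sub, h.toHom.pow, h.one, if_pos (sub_eq_zero.2 hs)]
    · rw [h.toFHom.sel_ind, h.toHom.sub, h.toHom.pow, h.one,
        if_neg (fun e => hs (sub_eq_zero.1 e)), h.mul]
    · rw [List.length_range]
      exact (Nat.sInf_le h2).trans ht.le
    · exact (e2 _).trans h3
    · exact fun e => Nat.notMem_of_lt_sInf h' ((e2 _).symm.trans e)
  exact ⟨h4, by rw [h4]; exact (e2 _).trans h3⟩

theorem rs_lev {ℓ : ℕ} (h : FHom o φ) (hℓ : ℓ.Prime) {g a x : α} {u : ℕ} (ha : φ a ≠ 0)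
    (hg : (φ g ^ (ℓ * u)) ^ ℓ = 1) (hg1 : φ g ^ (ℓ * u) ≠ 1)
    (hx : φ x ^ (ℓ * (u * ℓ)) = φ a ^ (u * ℓ)) :
    φ (o.lev ℓ g a x u) ^ (ℓ * u) = φ a ^ u := by
  classical
  have h1 : φ a ^ u ≠ 0 := pow_ne_zero _ ha
  obtain ⟨t, ht, h2⟩ := rs_ex hℓ hg hg1 (c := φ x ^ (ℓ * u) / φ a ^ u) (by
    rw [div_pow, ← pow_mul, ← pow_mul, mul_assoc, hx, div_self (pow_ne_zero _ ha)])
  have h3 : ∃ t : ℕ, (φ x * φ g ^ t) ^ (ℓ * u) = φ a ^ u := ⟨t, by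
    rw [div_mul_eq_mul_div, div_eq_one_iff_eq h1] at h2
    rw [mul_pow, ← pow_mul, mul_comm t, pow_mul (φ g), h2]⟩
  have h4 : Nat.find h3 ≤ t := Nat.find_min' h3 (by
    rw [div_mul_eq_mul_div, div_eq_one_iff_eq h1] at h2
    rw [mul_pow, ← pow_mul, mul_comm t, pow_mul (φ g), h2])
  have h5 : φ (o.lev ℓ g a x u) = φ x * φ g ^ Nat.find h3 := by
    refine rs_loop (fun y => y ^ (ℓ * u) = φ a ^ u) (φ g) _ (fun s hs => ?_) (fun s hs => ?_)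
      _ x _ ?_ (Nat.find_spec h3) fun t' h' => Nat.find_min h3 h'
    · rw [h.sel_ind, h.toHom.sub, h.toHom.pow, h.toHom.pow, if_pos (sub_eq_zero.2 hs)]
    · rw [h.sel_ind, h.toHom.sub, h.toHom.pow, h.toHom.pow,
        if_neg (fun e => hs (sub_eq_zero.1 e)), h.mul]
    · rw [List.length_range]
      exact h4.trans ht.le
  rw [h5]
  exact Nat.find_spec h3

theorem rs_levels {β : Type} {Q ℓ : ℕ} (h : KHom o φ Q) (hℓ : ℓ.Prime) {w : α}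
    (h0 : φ w ≠ 0) (h1 : φ w ^ ((Q - 1) / ℓ) ≠ 1) {a : α} (ha : φ a ≠ 0) (l : List β)
    (x : α) (j : ℕ) (hj : j ≤ l.length) (hd : ℓ ^ (j + 1) ∣ Q - 1)
    (hx : φ x ^ (ℓ * ℓ ^ j) = φ a ^ ℓ ^ j) :
    φ (l.foldl (fun (s : α × ℕ) _ => if s.2 ≤ 1 then s else
      (o.lev ℓ (o.pow w ((Q - 1) / (ℓ * s.2))) a s.1 (s.2 / ℓ), s.2 / ℓ)) (x, ℓ ^ j)).1 ^ ℓ
      = φ a := by
  induction l generalizing x j with
  | nil =>
    obtain rfl : j = 0 := by simpa using hj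
    simpa using hx
  | cons b l ih =>
    rw [List.foldl_cons]
    cases j with
    | zero =>
      rw [if_pos (by simp)]
      exact ih x 0 (Nat.zero_le _) hd hx
    | succ j =>
      have h2 : ¬ℓ ^ (j + 1) ≤ 1 := not_le.2 (Nat.one_lt_pow (Nat.succ_ne_zero _) hℓ.one_lt)
      have h3 : ℓ ^ (j + 1) / ℓ = ℓ ^ j := by
        rw [pow_succ, Nat.mul_div_cancel _ hℓ.pos]
      rw [if_neg h2]
      simp only [h3]
      obtain ⟨r, hr⟩ := hd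
      have h4 : φ (o.pow w ((Q - 1) / (ℓ * ℓ ^ (j + 1)))) ^ (ℓ * ℓ ^ j) =
          φ w ^ ((Q - 1) / ℓ) := by
        rw [h.toHom.pow, ← pow_mul, hr, ← pow_succ' ℓ (j + 1),
          Nat.mul_div_cancel_left _ (pow_pos hℓ.pos _), pow_succ' ℓ (j + 1), mul_assoc,
          Nat.mul_div_cancel_left _ hℓ.pos]
        congr 1
        ring
      refine ih _ j (by simpa using hj) ⟨ℓ * r, by rw [hr]; ring⟩
        (rs_lev h.toFHom hℓ ha ?_ (by rwa [h4]) (by rwa [← pow_succ]))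
      rw [h4, ← pow_mul, Nat.div_mul_cancel ⟨ℓ ^ (j + 1) * r, by rw [hr]; ring⟩, rs_pow h h0]

theorem rs_find {ℓ m : ℕ} (hℓ : ℓ.Prime) (hm : ¬ℓ ∣ m) :
    ℓ ∣ 1 + m * (((List.range ℓ).find? fun t => decide ((1 + m * t) % ℓ = 0)).getD 0) := by
  have := Fact.mk hℓ
  have h1 : ∃ t < ℓ, (1 + m * t) % ℓ = 0 := by
    have h2 : (m : ZMod ℓ) ≠ 0 := fun e => hm ((ZMod.natCast_eq_zero_iff _ _).1 e)
    refine ⟨(-(m : ZMod ℓ)⁻¹).val, ZMod.val_lt _, Nat.mod_eq_zero_of_dvd ?_⟩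
    rw [← ZMod.natCast_eq_zero_iff]
    push_cast
    rw [ZMod.natCast_zmod_val, mul_neg, mul_inv_cancel₀ h2, add_neg_cancel]
  obtain ⟨t, ht, h2⟩ := h1
  cases e : (List.range ℓ).find? fun t => decide ((1 + m * t) % ℓ = 0) with
  | none =>
    have := List.find?_eq_none.1 e t (List.mem_range.2 ht)
    simp [h2] at this
  | some s =>
    have := List.find?_some e
    exact Nat.dvd_of_mod_eq_zero (by simpa using this)

theorem rs_root0 {Q ℓ : ℕ} (h : KHom o φ Q) (hℓ : ℓ.Prime) (hd : ℓ ∣ Q - 1) {w : α}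
    (h0 : φ w ≠ 0) (h1 : φ w ^ ((Q - 1) / ℓ) ≠ 1) {a : α} (ha : φ a ≠ 0)
    (ha1 : φ a ^ ((Q - 1) / ℓ) = 1) : φ (o.root0 ℓ Q w a) ^ ℓ = φ a := by
  obtain ⟨h2, b, h3⟩ := cof_spec hℓ h.two
  have h4 := rs_find hℓ h2
  unfold Ops.root0
  generalize ((List.range ℓ).find? fun t =>
    decide ((1 + Ops.cof ℓ Q * t) % ℓ = 0)).getD 0 = t at h4 ⊢
  generalize Ops.cof ℓ Q = m at h2 h3 h4 ⊢
  have hm : 0 < m := Nat.pos_of_ne_zero (by rintro rfl; exact h2 (dvd_zero _))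
  cases b with
  | zero =>
    rw [h3, pow_zero, one_mul] at hd
    exact absurd hd h2
  | succ b =>
    have h5 : (Q - 1) / (m * ℓ) = ℓ ^ b := by
      rw [h3, show ℓ ^ (b + 1) * m = m * ℓ * ℓ ^ b by ring,
        Nat.mul_div_cancel_left _ (Nat.mul_pos hm hℓ.pos)]
    have h6 : (Q - 1) / ℓ = m * ℓ ^ b := by
      rw [h3, show ℓ ^ (b + 1) * m = ℓ * (m * ℓ ^ b) by ring, Nat.mul_div_cancel_left _ hℓ.pos]
    rw [h5]
    refine rs_levels h hℓ h0 h1 ha _ _ b ?_ ⟨m, h3⟩ ?_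
    · have e1 : 2 ^ (b + 1) ≤ ℓ ^ (b + 1) * m :=
        (Nat.pow_le_pow_left hℓ.two_le _).trans (Nat.le_mul_of_pos_right _ hm)
      have e2 := rs_lt_bits Q
      have e3 : 2 ^ (b + 1) < 2 ^ Q.bits.length := by omega
      have := (Nat.pow_lt_pow_iff_right (by norm_num)).1 e3
      omega
    · rw [h.toHom.pow, ← pow_mul, ← mul_assoc, Nat.div_mul_cancel h4,
        show (1 + m * t) * ℓ ^ b = ℓ ^ b + m * ℓ ^ b * t by ring, pow_add, pow_mul, ← h6, ha1,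
        one_pow, mul_one]

theorem KHom.root {Q ℓ : ℕ} (h : KHom o φ Q) (hℓ : ℓ.Prime) (hd : ℓ ∣ Q - 1) {w : α}
    (h0 : φ w ≠ 0) (h1 : φ w ^ ((Q - 1) / ℓ) ≠ 1) {a : α} (ha : φ a ≠ 0) :
    φ (o.root ℓ Q w a) ^ ℓ = φ a * tw (φ w) ((Q - 1) / ℓ) (φ a ^ ((Q - 1) / ℓ)) := by
  obtain ⟨h2, h3⟩ := rs_adj h hℓ hd h0 h1 ha
  rw [← h2]
  exact rs_root0 h hℓ hd h0 h1 (by rw [h2]; exact mul_ne_zero ha (tw_ne_zero h0 _ _)) h3

theorem rs_len_lev (m : List α) (Q ℓ : ℕ) (g a x : List α) (u : ℕ)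
    (hx : x.length ≤ m.length - 1) : ((o.quot m Q).lev ℓ g a x u).length ≤ m.length - 1 := by
  unfold Ops.lev
  refine rs_foldl (fun s : List α => s.length ≤ m.length - 1) _ (fun s _ _ => ?_) _ _ hx
  unfold Ops.sel
  generalize (o.quot m Q).mul _ _ = y
  generalize (o.quot m Q).mul _ _ = z
  exact length_prem_le (o.padd _ _) m

theorem length_root_le (m : List α) (Q ℓ : ℕ) (w a : List α) :
    ((o.quot m Q).root ℓ Q w a).length ≤ m.length - 1 := by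
  unfold Ops.root Ops.root0
  generalize (o.quot m Q).adj ℓ Q w a = x
  refine rs_foldl (fun s : List α × ℕ => s.1.length ≤ m.length - 1) _ (fun s _ hs => ?_) _ _
    (length_quot0_pow (o := o) m _ _)
  split_ifs
  · exact hs
  · exact rs_len_lev m Q ℓ _ _ _ _ hs

end Vale.Agent.P319
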