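import Vale.Agent.P319.TSpec
import Vale.Agent.P319.RootSpec
import Vale.Agent.P319.Basis

/-! Passing from all branch points at once to the ground field. -/

namespace Vale.Agent.P319

open Polynomial Finset

variable {𝕜 L α : Type} [Field 𝕜] [IsAlgClosed 𝕜] [Field L] [Algebra 𝕜 L] {d : Dat 𝕜}
  {o : Ops α} {φ : α → 𝕜} {f : List α} {Q : ℕ}

section aux
omit [IsAlgClosed 𝕜]

theorem sd_mon (hf : tp φ f = d.f) (hl : f.length = d.n + 1) : IsMon φ f :=
  isMon_of_monic (hf ▸ d.f_monic.1) (by rw [hf, d.f_monic.2, hl])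

theorem sd_root (hf : tp φ f = d.f) (i : Fin d.n) : eval (d.r i) (tp φ f) = 0 := by
  rw [hf, Dat.f, eval_prod]
  exact prod_eq_zero (mem_univ i) (by rw [eval_sub, eval_X, eval_C, sub_self])

theorem sd_theta (hφ : Hom o φ) (x : 𝕜) : eval x (tp φ [o.zero, o.one]) = x := by
  rw [tp_cons, tp_single, hφ.zero, hφ.one, eval_add, eval_mul, eval_C, eval_C, eval_X, zero_add,
    mul_one]

theorem sd_npos (d : Dat 𝕜) : 0 < d.n := d.prime.pos.trans_le d.ℓ_le_n

theorem sd_reflect {ι : Type} (s : Finset ι) (a : ι → 𝕜) :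
    (∏ j ∈ s, (X + C (a j))).natDegree ≤ s.card ∧
      reflect s.card (∏ j ∈ s, (X + C (a j))) = ∏ j ∈ s, (1 + C (a j) * X) := by
  classical
  induction s using Finset.induction_on with
  | empty => simp
  | insert i s hi ih =>
    rw [prod_insert hi, prod_insert hi, card_insert_of_notMem hi, add_comm s.card 1]
    refine ⟨natDegree_mul_le.trans (add_le_add (natDegree_X_add_C _).le ih.1), ?_⟩
    rw [reflect_mul _ _ (natDegree_X_add_C _).le ih.1, ih.2, reflect_add, reflect_one_X,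
      reflect_C, pow_one]

theorem sd_tp_sum (p : List α) {k : ℕ} (h : ∀ t, k ≤ t → vec φ p t = 0) :
    tp φ p = ∑ t ∈ range k, C (vec φ p t) * X ^ t := by
  ext j
  simp only [coeff_tp, finsetSum_coeff, coeff_C_mul_X_pow, sum_ite_eq, mem_range]
  split_ifs with h1
  · rfl
  · exact h j (not_lt.1 h1)

theorem sd_conv (hφ : Hom o φ) {x ξ : L} {θ : α} (h1 : (x - algebraMap 𝕜 L (φ θ)) * ξ = 1)
    {k e M : ℕ} (hk : k + e = M + 1) (p : List α) (hp : ∀ t, k ≤ t → vec φ p t = 0) :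
    aeval x (tp φ (o.pshift (o.neg θ) (o.prev k p)))
      = (x - algebraMap 𝕜 L (φ θ)) ^ M * (aeval ξ (tp φ p) * ξ ^ e) := by
  rw [hφ.pshift, aeval_comp, hφ.prev_eq, hφ.neg, sd_tp_sum p hp, map_sum, map_sum, sum_mul,
    mul_sum]
  refine sum_congr rfl fun t ht => ?_
  have ht' := mem_range.1 ht
  have hM : M = k - 1 - t + (t + e) := by omega
  have h2 : (x - algebraMap 𝕜 L (φ θ)) ^ (t + e) * ξ ^ (t + e) = 1 := by
    rw [← mul_pow, h1, one_pow]
  simp only [map_mul, map_pow, aeval_X, aeval_C, map_add, map_neg]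
  rw [← sub_eq_add_neg]
  rw [hM, pow_add _ (k - 1 - t)]
  linear_combination
    (-(algebraMap 𝕜 L (vec φ p t) * (x - algebraMap 𝕜 L (φ θ)) ^ (k - 1 - t))) * h2

theorem sd_getD {β : Type} {k j : ℕ} (hj : j < k) (g : ℕ → β) (b : β) :
    ((List.range k).map g).getD j b = g j := by
  simp [hj]

theorem sd_tp_sum_fun {β ι : Type} (s : Finset ι) (g : ι → β → 𝕜) (q : List β) :
    tp (fun b => ∑ i ∈ s, g i b) q = ∑ i ∈ s, tp (g i) q := by
  induction q with
  | nil => simp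
  | cons c q ih => simp only [tp_cons, ih, map_sum, mul_sum, sum_add_distrib]

theorem sd_newton {n : ℕ} (s : Fin n → L) (k : ℕ) :
    ((k + 1 : ℕ) : L) * MvPolynomial.eval s (MvPolynomial.esymm (Fin n) L (k + 1))
      = ∑ i ∈ range (k + 1), (-1) ^ i *
        (MvPolynomial.eval s (MvPolynomial.esymm (Fin n) L (k - i)) * ∑ j, s j ^ (i + 1)) := by
  have h := congrArg (MvPolynomial.eval s) (MvPolynomial.mul_esymm_eq_sum (Fin n) L (k + 1))
  rw [sum_filter, Finset.Nat.sum_antidiagonal_succ', if_neg (lt_irrefl _), zero_add,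
    ← Finset.Nat.sum_antidiagonal_swap, Finset.Nat.sum_antidiagonal_eq_sum_range_succ_mk, map_mul,
    map_natCast, map_mul, map_sum, mul_sum] at h
  rw [h]
  refine sum_congr rfl fun i hi => ?_
  have hi' := mem_range.1 hi
  have h1 : (-1 : L) ^ (k + 1 + 1) * (-1) ^ (k - i) = (-1) ^ i := by
    rw [← pow_add, show k + 1 + 1 + (k - i) = 2 * (k - i + 1) + i by omega, pow_add, pow_mul,
      neg_one_sq, one_pow, one_mul]
  simp only [Prod.fst_swap, Prod.snd_swap]
  rw [if_pos (by omega), ← h1]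
  simp only [map_mul, map_pow, map_neg, map_one, MvPolynomial.psum, map_sum, MvPolynomial.eval_X]
  ring

theorem sd_newton_spec (hφ : FHom o φ) {x y : L} {ℓ n : ℕ} (hℓ : 0 < ℓ)
    (hY : y ^ ℓ = aeval x (tp φ f)) (hc : ∀ k : ℕ, 0 < k → k ≤ n → (k : 𝕜) ≠ 0) (s : Fin n → L)
    (ps : List (List (List α)))
    (hps : ∀ i < n, sem φ x y ℓ (ps.getD i []) = ∑ j, s j ^ (i + 1)) :
    sem φ x y ℓ ((o.newton ℓ n f ps).getD n []) = ∏ j, s j := by
  have key : ∀ m, m ≤ n → ∀ es, es = (List.range m).foldl (fun es k => es ++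
      [o.tsm (o.inv (o.nat (k + 1))) (o.tsum ℓ ((List.range n).map fun i => if i ≤ k then
        o.tsm (if i % 2 = 0 then o.one else o.neg o.one)
          (o.tmul ℓ f (es.getD (k - i) []) (ps.getD i [])) else []))]) [[[o.one]]] →
      es.length = m + 1 ∧ ∀ j ≤ m, sem φ x y ℓ (es.getD j [])
        = MvPolynomial.eval s (MvPolynomial.esymm (Fin n) L j) := by
    intro m
    induction m with
    | zero =>
      rintro - es rfl
      refine ⟨rfl, fun j hj => ?_⟩
      obtain rfl : j = 0 := by omega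
      rw [MvPolynomial.esymm_zero, map_one]
      show sem φ x y ℓ [[o.one]] = 1
      rw [sem_single hℓ, tp_single, hφ.one, map_one, map_one]
    | succ m ih =>
      intro hm es he
      rw [List.range_succ, List.foldl_append, List.foldl_cons, List.foldl_nil] at he
      obtain ⟨h1, h2⟩ := ih (by omega) _ rfl
      generalize (List.range m).foldl _ [[[o.one]]] = es' at he h1 h2
      subst he
      refine ⟨by rw [List.length_append, h1, List.length_singleton], fun j hj => ?_⟩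
      rcases Nat.lt_or_ge j (m + 1) with h3 | h3
      · rw [List.getD_append _ _ _ _ (by omega)]
        exact h2 j (by omega)
      · obtain rfl : j = m + 1 := by omega
        rw [List.getD_append_right _ _ _ _ h1.le, h1, Nat.sub_self, List.getD_cons_zero,
          hφ.toHom.tsm, hφ.inv, hφ.toHom.nat, hφ.toHom.tsum, List.map_map, ← List.sum_toFinset _
          List.nodup_range, List.toFinset_range,
          inv_smul_eq_iff₀ (hc _ (Nat.succ_pos m) hm), Nat.cast_smul_eq_nsmul, nsmul_eq_mul,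
          sd_newton, ← sum_subset (range_subset_range.2 hm) fun i _ hi => by
            rw [Function.comp, if_neg (fun h => hi (mem_range.2 (by omega))), sem_nil]]
        refine sum_congr rfl fun i hi => ?_
        have hi' := mem_range.1 hi
        rw [Function.comp, if_pos (by omega), hφ.toHom.tsm, hφ.toHom.tmul hY, h2 _ (by omega),
          hps i (by omega)]
        split_ifs with h4
        · rw [hφ.one, one_smul, (Nat.even_iff.2 h4).neg_one_pow, one_mul]
        · rw [hφ.neg, hφ.one, neg_one_smul, (Nat.odd_iff.2 (by omega)).neg_one_pow, neg_one_mul]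
  rw [(key n le_rfl (o.newton ℓ n f ps) rfl).2 n le_rfl, MvPolynomial.esymm]
  have h : powersetCard n (univ : Finset (Fin n)) = {univ} := by
    have := powersetCard_self (univ : Finset (Fin n))
    rwa [card_univ, Fintype.card_fin] at this
  simp only [h, sum_singleton, map_prod, MvPolynomial.eval_X]

theorem sd_flat {β : Type} {ℓ : ℕ} (g : ℕ → ℕ → β) (A : ℕ) :
    ((List.range A).flatMap fun a => (List.range ℓ).map (g a))
      = (List.range (A * ℓ)).map fun t => g (t / ℓ) (t % ℓ) := by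
  induction A with
  | zero => simp
  | succ A ih =>
    rw [List.range_succ, List.flatMap_append, ih, Nat.succ_mul, List.range_add, List.map_append,
      List.flatMap_singleton, List.map_map]
    refine congrArg _ (List.map_congr_left fun t ht => ?_)
    have h := List.mem_range.1 ht
    rw [Function.comp, mul_comm A, Nat.mul_add_div (by omega), Nat.mul_add_mod,
      Nat.div_eq_of_lt h, Nat.mod_eq_of_lt h, add_zero]

theorem sd_sum_flat {ℓ : ℕ} (g : ℕ → ℕ → L) (A : ℕ) :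
    ∑ t ∈ range (A * ℓ), g (t / ℓ) (t % ℓ) = ∑ a ∈ range A, ∑ b ∈ range ℓ, g a b := by
  induction A with
  | zero => simp
  | succ A ih =>
    rw [Nat.succ_mul, sum_range_add, ih, sum_range_succ]
    refine congrArg _ (sum_congr rfl fun t ht => ?_)
    have h := mem_range.1 ht
    rw [mul_comm A, Nat.mul_add_div (by omega), Nat.mul_add_mod,
      Nat.div_eq_of_lt h, Nat.mod_eq_of_lt h, add_zero]

/-- The monomial of order `t` at a branch point. -/
noncomputable def sd_w (T : Curve d L) (j : Fin d.n) (t : ℕ) : L :=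
  (T.x - algebraMap 𝕜 L (d.r j)) ^ (t / d.ℓ) * T.y ^ (t % d.ℓ)

theorem sd_w_spec (T : Curve d L) (j : Fin d.n) (t : ℕ) :
    sd_w T j t ≠ 0 ∧ T.v (d.ram j) (sd_w T j t) = t := by
  have h1 := pow_ne_zero (t / d.ℓ) (T.x_sub_ne (d.r j))
  have h2 := pow_ne_zero (t % d.ℓ) T.y_ne
  refine ⟨mul_ne_zero h1 h2, ?_⟩
  have h3 : d.Inf (fun _ => 1) (d.ram j) = 0 := rfl
  rw [sd_w, T.v_mul _ _ _ h1 h2, Curve.v_pow (T.x_sub_ne _), Curve.v_pow T.y_ne, T.v_x_ram,
    T.v_y_eq, d.rm_ram, h3, mul_zero, sub_zero, mul_one]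
  exact_mod_cast Nat.div_add_mod' t d.ℓ

theorem sd_lead (hφ : FHom o φ) (T : Curve d L) {j : Fin d.n} {θ : α} (hθ : φ θ = d.r j)
    {z : List (List α)} (hz : sem φ T.x T.y d.ℓ z ≠ 0) :
    φ (o.lead d.ℓ θ z) ≠ 0 ∧
      ∃ t : ℕ, T.Val (d.ram j) (sem φ T.x T.y d.ℓ z / sd_w T j t) (φ (o.lead d.ℓ θ z)) := by
  classical
  obtain ⟨A, hA⟩ : ∃ A, A = Vale.Agent.Lib.PolyTime.lmax (z.map List.length) := ⟨_, rfl⟩
  obtain ⟨l, hl⟩ : ∃ l, l = (List.range (A * d.ℓ)).map fun t =>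
    (o.pshift θ (z.getD (t % d.ℓ) [])).getD (t / d.ℓ) o.zero := ⟨_, rfl⟩
  have h1 : o.lead d.ℓ θ z = o.first l := by
    rw [Ops.lead, ← hA, hl,
      sd_flat fun a b => (o.pshift θ (z.getD b [])).getD a o.zero]
  have hlen : ∀ b, (z.getD b []).length ≤ A := by
    intro b
    rcases Nat.lt_or_ge b z.length with h | h
    · rw [List.getD_eq_getElem _ _ h, hA]
      exact Vale.Agent.Lib.PolyTime.le_lmax (List.mem_map_of_mem (List.getElem_mem h))
    · rw [List.getD_eq_default _ _ h]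
      exact Nat.zero_le _
  have h2 : sem φ T.x T.y d.ℓ z = ∑ t ∈ range (A * d.ℓ), vec φ l t • sd_w T j t := by
    rw [sum_congr rfl fun t ht => by
      rw [hl, vec_map_range, if_pos (mem_range.1 ht), ← hφ.toHom.vec_eq, sd_w],
      sd_sum_flat fun a b => vec φ (o.pshift θ (z.getD b [])) a •
        ((T.x - algebraMap 𝕜 L (d.r j)) ^ a * T.y ^ b), sum_comm, sem]
    refine sum_congr rfl fun b _ => ?_
    have h3 : aeval T.x (tp φ (z.getD b []))
        = aeval (T.x - algebraMap 𝕜 L (d.r j)) (tp φ (o.pshift θ (z.getD b []))) := by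
      rw [hφ.toHom.pshift, aeval_comp, hθ, map_add, aeval_X, aeval_C, sub_add_cancel]
    rw [h3, sd_tp_sum (k := A) _ fun t ht =>
      vec_of_le _ (((length_pshift _ _).trans_le (hlen b)).trans ht), map_sum, sum_mul]
    refine sum_congr rfl fun a _ => ?_
    rw [map_mul, map_pow, aeval_X, aeval_C, Algebra.smul_def, mul_assoc]
  have hex : ∃ t, vec φ l t ≠ 0 := by
    by_contra h
    push Not at h
    exact hz (by rw [h2]; exact sum_eq_zero fun t _ => by rw [h t, zero_smul])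
  have h4 := Nat.find_spec hex
  have h5 : ∀ t < Nat.find hex, vec φ l t = 0 := fun t ht => not_not.1 (Nat.find_min hex ht)
  generalize Nat.find hex = t0 at h4 h5
  have h6 : t0 ∈ range (A * d.ℓ) := by
    by_contra h
    exact h4 (by rw [hl, vec_map_range, if_neg (fun h' => h (mem_range.2 h'))])
  rw [h1, hφ.first l t0 h4 h5]
  refine ⟨h4, t0, ?_⟩
  obtain ⟨w0, w1⟩ := sd_w_spec T j t0
  have h7 : T.Ge (d.ram j) ((sem φ T.x T.y d.ℓ z / sd_w T j t0 - algebraMap 𝕜 L (vec φ l t0))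
      * sd_w T j t0) (t0 + 1) := by
    rw [sub_mul, div_mul_cancel₀ _ w0, ← Algebra.smul_def, h2, ← add_sum_erase _ _ h6,
      add_sub_cancel_left]
    refine Curve.ge_sum _ _ fun t ht => ?_
    rcases Nat.lt_or_ge t t0 with h | h
    · rw [h5 t h, zero_smul]
      exact Curve.ge_zero _ _
    · have h8 := (mem_erase.1 ht).1
      refine ((Curve.ge_self _ _).mono ?_).smul _
      rw [(sd_w_spec T j t).2]
      omega
  have h9 := h7.of_mul w0
  rwa [w1, add_sub_cancel_left] at h9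

end aux

omit [IsAlgClosed 𝕜] in
theorem khom_A (hφ : KHom o φ Q) (hf : tp φ f = d.f) (hl : f.length = d.n + 1)
    (hr : ∀ i, d.r i ^ Q = d.r i) (i : Fin d.n) :
    KHom (o.quot f Q) (fun a => eval (d.r i) (tp φ a)) Q :=
  hφ.quot (sd_mon hf hl) (sd_root hf i) (hr i)

omit [IsAlgClosed 𝕜] in
theorem chartF_spec (hφ : Hom o φ) (hf : tp φ f = d.f) (hl : f.length = d.n + 1) (Q : ℕ)
    (i : Fin d.n) : tp (fun a => eval (d.r i) (tp φ a)) (o.chartF Q f) = d.F i ∧
      (o.chartF Q f).length = d.n := by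
  have h := hφ.quot (sd_mon hf hl) (sd_root hf i) Q
  have hn := sd_npos d
  refine ⟨?_, by rw [Ops.chartF, length_prev, hl, Nat.add_sub_cancel]⟩
  have h1 := h.pshift [o.zero, o.one] (f.map fun c => [c])
  have h2 : d.f.comp (X + C (d.r i)) = X * ∏ j ∈ univ.erase i, (X + C (d.r i - d.r j)) := by
    rw [Dat.f, Polynomial.prod_comp, ← mul_prod_erase _ _ (mem_univ i), sub_comp, X_comp, C_comp,
      add_sub_cancel_right]
    refine congrArg _ (prod_congr rfl fun j _ => ?_)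
    rw [sub_comp, X_comp, C_comp, map_sub, add_sub_assoc]
  rw [tp_map_single, sd_theta hφ, hf, h2] at h1
  obtain ⟨h3, h4⟩ := sd_reflect (univ.erase i) fun j => d.r i - d.r j
  rw [card_erase_of_mem (mem_univ i), card_univ, Fintype.card_fin] at h3 h4
  ext t
  rw [Ops.chartF, h.prev, hl, Nat.add_sub_cancel, Dat.F, ← h4, coeff_reflect]
  split_ifs with ht
  · rw [revAt_le (by omega), ← coeff_X_mul, ← h1, coeff_tp]
    simp only [vec, List.map_drop, List.getD_eq_getElem?_getD, List.getElem?_drop, add_comm]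
  · rw [revAt_eq_self_of_lt (by omega), coeff_eq_zero_of_natDegree_lt (by omega)]

omit [IsAlgClosed 𝕜] in
theorem conv_spec (hφ : Hom o φ) (T : Curve d L) {i : Fin d.n} {θ : α} (hθ : φ θ = d.r i) {M : ℕ}
    {z : List (List α)} (hz : ∀ b < d.ℓ, d.m * b + (z.getD b []).length ≤ M + 1) :
    sem φ T.x T.y d.ℓ (o.conv d.ℓ d.m M θ z) =
      (T.x - algebraMap 𝕜 L (d.r i)) ^ M * sem φ (T.ξ i) (T.η i) d.ℓ z := by
  have h1 : (T.x - algebraMap 𝕜 L (φ θ)) * T.ξ i = 1 := by
    rw [hθ]; exact mul_inv_cancel₀ (T.x_sub_ne _)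
  rw [sem, sem, mul_sum]
  refine sum_congr rfl fun b hb => ?_
  have hb' := hz b (mem_range.1 hb)
  rw [Ops.conv, sd_getD (mem_range.1 hb), sd_conv hφ h1 (e := d.m * b) (M := M) (by omega) _
    fun t ht => vec_of_le _ (by omega), hθ, Curve.η, mul_pow, ← pow_mul]
  ring

omit [IsAlgClosed 𝕜] in
theorem conv_one (hφ : Hom o φ) (T : Curve d L) {i : Fin d.n} {θ : α} (hθ : φ θ = d.r i) {M : ℕ}
    {a : List α} (ha : (tp φ a).natDegree ≤ M) :
    sem φ T.x T.y d.ℓ (o.conv 1 0 M θ [a]) =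
      (T.x - algebraMap 𝕜 L (d.r i)) ^ M * aeval (T.ξ i) (tp φ a) := by
  have h1 : (T.x - algebraMap 𝕜 L (φ θ)) * T.ξ i = 1 := by
    rw [hθ]; exact mul_inv_cancel₀ (T.x_sub_ne _)
  show sem φ T.x T.y d.ℓ [o.pshift (o.neg θ) (o.prev (M + 1) a)] = _
  rw [sem_single d.prime.pos, sd_conv hφ h1 (e := 0) (M := M) rfl _ fun t ht => by
    rw [← coeff_tp]; exact coeff_eq_zero_of_natDegree_lt (by omega), hθ, pow_zero, mul_one]

omit [IsAlgClosed 𝕜] in
theorem trA_spec (hφ : Hom o φ) (hf : tp φ f = d.f) (hl : f.length = d.n + 1) (a : List α) :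
    φ (o.trA f a) = ∑ i, eval (d.r i) (tp φ a) := by
  have hn := sd_npos d
  have hP : ∀ i : Fin d.n, (∏ j ∈ univ.erase i, (X - C (d.r j))).Monic ∧
      (∏ j ∈ univ.erase i, (X - C (d.r j))).natDegree = d.n - 1 := fun i =>
    ⟨monic_prod_X_sub_C _ _, by
      rw [natDegree_finsetProd_X_sub_C_eq_card, card_erase_of_mem (mem_univ i), card_univ,
        Fintype.card_fin]⟩
  have h1 : d.f ∣ tp φ a * derivative d.f
      - ∑ i, C (eval (d.r i) (tp φ a)) * ∏ j ∈ univ.erase i, (X - C (d.r j)) := by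
    rw [Dat.f, derivative_prod_finset, mul_sum, ← sum_sub_distrib]
    refine dvd_sum fun i _ => ?_
    rw [derivative_X_sub_C, mul_one, ← sub_mul, ← mul_prod_erase _ _ (mem_univ i)]
    exact mul_dvd_mul_right X_sub_C_dvd_sub_C_eval _
  have h2 : (∑ i, C (eval (d.r i) (tp φ a)) * ∏ j ∈ univ.erase i, (X - C (d.r j))).degree
      < d.f.degree := by
    refine degree_lt_degree (lt_of_le_of_lt (natDegree_sum_le_of_forall_le _ _ (n := d.n - 1)
      fun i _ => (natDegree_C_mul_le _ _).trans (hP i).2.le) ?_)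
    rw [d.f_monic.2]
    omega
  rw [Ops.trA, ← hφ.vec_eq, ← coeff_tp, hφ.prem (sd_mon hf hl), hφ.pmul, hφ.pder, hf,
    modByMonic_eq_of_dvd_sub d.f_monic.1 h1, (modByMonic_eq_self_iff d.f_monic.1).2 h2,
    finsetSum_coeff]
  refine sum_congr rfl fun i _ => ?_
  rw [coeff_C_mul, hl, show d.n + 1 - 2 = d.n - 1 by omega, ← (hP i).2, (hP i).1.coeff_natDegree,
    mul_one]

omit [IsAlgClosed 𝕜] in
theorem nrm_spec (hφ : FHom o φ) (hf : tp φ f = d.f) (hl : f.length = d.n + 1)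
    (hc : ∀ k : ℕ, 0 < k → k ≤ d.n → (k : 𝕜) ≠ 0) (T : Curve d L) (Q : ℕ)
    (z : List (List (List α))) : sem φ T.x T.y d.ℓ (o.nrm Q d.ℓ f z) =
      ∏ i, sem (fun a => eval (d.r i) (tp φ a)) T.x T.y d.ℓ z := by
  have hY : T.y ^ d.ℓ = aeval T.x (tp φ f) := by rw [hf, T.hy]
  have h1 : ∀ w : List (List (List α)), sem φ T.x T.y d.ℓ (w.map fun a => a.map (o.trA f))
      = ∑ i, sem (fun a => eval (d.r i) (tp φ a)) T.x T.y d.ℓ w := by
    intro w
    simp only [sem]
    rw [sum_comm]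
    refine sum_congr rfl fun b _ => ?_
    have h2 := List.getD_map w [] (n := b) fun a => a.map (o.trA f)
    rw [List.map_nil] at h2
    rw [h2, tp_map, funext (trA_spec hφ.toHom hf hl), sd_tp_sum_fun, map_sum, sum_mul]
  rw [Ops.nrm, hl, Nat.add_sub_cancel]
  refine sd_newton_spec hφ d.prime.pos hY hc _ _ fun t ht => ?_
  rw [sd_getD ht, h1]
  refine sum_congr rfl fun i _ => ?_
  exact (hφ.toHom.quot (sd_mon hf hl) (sd_root hf i) Q).tpow d.prime.pos
    (by rw [tp_map_single, hY]) ht z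

omit [IsAlgClosed 𝕜] in
theorem toK_spec (hφ : Hom o φ) (hf : tp φ f = d.f) (hl : f.length = d.n + 1) {a : List α} {c : 𝕜}
    (ha : ∀ i, eval (d.r i) (tp φ a) = c) : φ (o.toK f a) = c := by
  have h1 : d.f ∣ tp φ a - C c :=
    Fintype.prod_dvd_of_coprime (pairwise_coprime_X_sub_C d.inj) fun i =>
      ha i ▸ X_sub_C_dvd_sub_C_eval
  have h2 : (C c).degree < d.f.degree :=
    degree_lt_degree (by rw [natDegree_C, d.f_monic.2]; exact sd_npos d)
  rw [Ops.toK, ← hφ.vec_eq, ← coeff_tp, hφ.prem (sd_mon hf hl), hf,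
    modByMonic_eq_of_dvd_sub d.f_monic.1 h1, (modByMonic_eq_self_iff d.f_monic.1).2 h2,
    coeff_C_zero]

omit [IsAlgClosed 𝕜] in
theorem valA_spec (hφ : KHom o φ Q) (hf : tp φ f = d.f) (hl : f.length = d.n + 1)
    (hr : ∀ i, d.r i ^ Q = d.r i) (T : Curve d L) {a b : List (List α)}
    (ha : sem φ T.x T.y d.ℓ a ≠ 0) (hb : sem φ T.x T.y d.ℓ b ≠ 0) (j : Fin d.n)
    (hv : T.v (d.ram j) (sem φ T.x T.y d.ℓ a / sem φ T.x T.y d.ℓ b) = 0) :
    T.Val (d.ram j) (sem φ T.x T.y d.ℓ a / sem φ T.x T.y d.ℓ b)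
      (eval (d.r j) (tp φ (o.valA Q d.ℓ f a b))) := by
  have K := khom_A hφ hf hl hr j
  have hθ := sd_theta hφ.toHom (d.r j)
  obtain ⟨a0, s, a1⟩ := sd_lead K.toFHom T hθ (z := a.map fun q => q.map fun c => [c])
    (by rwa [sem_map_single])
  obtain ⟨b0, t, b1⟩ := sd_lead K.toFHom T hθ (z := b.map fun q => q.map fun c => [c])
    (by rwa [sem_map_single])
  rw [sem_map_single] at a1 b1
  have a2 := (a1.v_eq a0).2
  have b2 := (b1.v_eq b0).2
  rw [Curve.v_div ha (sd_w_spec T j s).1, (sd_w_spec T j s).2] at a2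
  rw [Curve.v_div hb (sd_w_spec T j t).1, (sd_w_spec T j t).2] at b2
  rw [Curve.v_div ha hb] at hv
  obtain rfl : s = t := by omega
  have h := a1.div b1 b0
  rw [div_div_div_cancel_right₀ (sd_w_spec T j s).1] at h
  have e := K.mul ((o.quot f Q).lead d.ℓ [o.zero, o.one] (a.map fun q => q.map fun c => [c]))
    ((o.quot f Q).inv ((o.quot f Q).lead d.ℓ [o.zero, o.one] (b.map fun q => q.map fun c => [c])))
  rw [K.inv, ← div_eq_mul_inv] at e
  rw [Ops.valA, e]
  exact h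

omit [IsAlgClosed 𝕜] in
theorem cands_spec (hφ : KHom o φ Q) (hf : tp φ f = d.f) (hl : f.length = d.n + 1)
    (hr : ∀ i, d.r i ^ Q = d.r i) (hQ : d.ℓ ∣ Q - 1) {ζ w : α} (hζ : φ ζ = d.ζ) (h0 : φ w ≠ 0)
    (h1 : φ w ^ ((Q - 1) / d.ℓ) ≠ 1) {v : List α} {κ : 𝕜} (hκ : κ ≠ 0)
    (hv : ∀ j, eval (d.r j) (tp φ v) ^ d.ℓ = κ)
    (hu : ∀ a ∈ o.cands Q d.ℓ f ζ w v,
      (∀ j, eval (d.r j) (tp φ a) = 0) ∨ ∀ j, eval (d.r j) (tp φ a) ≠ 0) :
    ∃ c : 𝕜, c ≠ 0 ∧ ∀ j, eval (d.r j) (tp φ v) = c := by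
  have K := khom_A hφ hf hl hr
  have : NeZero d.ℓ := ⟨d.prime.ne_zero⟩
  let j0 : Fin d.n := ⟨0, sd_npos d⟩
  have e1 : φ (o.toK f ((o.quot f Q).pow v d.ℓ)) = κ :=
    toK_spec hφ.toHom hf hl fun j => ((K j).toHom.pow v d.ℓ).trans (hv j)
  have e2 : eval (d.r j0) (tp φ v) ≠ 0 := fun h =>
    hκ (by rw [← hv j0, h, zero_pow d.prime.ne_zero])
  have e3 : κ ^ ((Q - 1) / d.ℓ) = 1 := by
    have h2 := hφ.two
    have h3 : eval (d.r j0) (tp φ v) ^ Q = eval (d.r j0) (tp φ v) := (K j0).fix v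
    rw [← hv j0, ← pow_mul, Nat.mul_div_cancel' hQ]
    refine mul_right_cancel₀ e2 ?_
    rw [← pow_succ, Nat.sub_add_cancel (by omega), h3, one_mul]
  have e4 := hφ.root d.prime hQ h0 h1 (a := o.toK f ((o.quot f Q).pow v d.ℓ)) (e1 ▸ hκ)
  rw [e1, e3, tw_one, mul_one] at e4
  generalize hρ : o.root d.ℓ Q w (o.toK f ((o.quot f Q).pow v d.ℓ)) = ρ at e4
  have e5 : φ ρ ≠ 0 := fun h => hκ (by rw [← e4, h, zero_pow d.prime.ne_zero])
  obtain ⟨a, ha, e6⟩ := d.prim.eq_pow_of_pow_eq_one (ξ := eval (d.r j0) (tp φ v) / φ ρ)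
    (by rw [div_pow, hv, e4, div_self hκ])
  have e7 : ∀ j, eval (d.r j) (tp φ ((o.quot f Q).sub v [o.mul ρ (o.pow ζ a)]))
      = eval (d.r j) (tp φ v) - eval (d.r j0) (tp φ v) := fun j => by
    refine ((K j).toHom.sub v _).trans ?_
    rw [tp_single, eval_C, hφ.mul, hφ.toHom.pow, hζ, e6, mul_div_cancel₀ _ e5]
  refine ⟨_, e2, fun j => ?_⟩
  rcases hu _ (List.mem_map.2 ⟨a, List.mem_range.2 ha, by rw [hρ]⟩) with h | h
  · exact sub_eq_zero.1 ((e7 j).symm.trans (h j))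
  · exact absurd ((e7 j0).trans (sub_self _)) (h j0)

end Vale.Agent.P319
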