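import Vale.Agent.P319.StepB
import Vale.Agent.P319.StepC
import Vale.Agent.P319.StepD
import Vale.Agent.P319.Galois

/-! One division step in all charts at once. -/

namespace Vale.Agent.P319

open Polynomial Finset

/-- The standing hypotheses of the loop. -/
structure lp_Ctx {𝕜 α : Type} [Field 𝕜] (d : Dat 𝕜) (o : Ops α) (φ : α → 𝕜) (f : List α)
    (Q N e : ℕ) (ζ w : α) (nz : List α → Bool) : Prop where
  hφ : KHom o φ Q
  hf : tp φ f = d.f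
  hl : f.length = d.n + 1
  hc : ∀ k : ℕ, 0 < k → k ≤ wW d.n → (k : 𝕜) ≠ 0
  hs : ∀ c, d.s^[N] c = c ^ Q
  hN : d.ℓ ^ e ∣ N
  hQ : d.ℓ ∣ Q - 1
  hζ : φ ζ = d.ζ
  hw0 : φ w ≠ 0
  hw1 : φ w ^ ((Q - 1) / d.ℓ) ≠ 1
  hnz : ∀ a, nz a = false ↔ ∀ i, eval (d.r i) (tp φ a) = 0

/-- Evaluation at the `i`-th root. -/
noncomputable abbrev lp_ev {𝕜 α : Type} [Field 𝕜] (d : Dat 𝕜) (φ : α → 𝕜) (i : Fin d.n) :
    List α → 𝕜 := fun a => eval (d.r i) (tp φ a)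

/-- The function in the chart `i` given by a list. -/
noncomputable abbrev lp_sm {𝕜 L α : Type} [Field 𝕜] [Field L] [Algebra 𝕜 L] {d : Dat 𝕜}
    (T : Curve d L) (φ : α → 𝕜) (i : Fin d.n) : List (List (List α)) → L :=
  sem (lp_ev d φ i) (T.ξ i) (T.η i) d.ℓ

/-- The invariant of the generators. -/
structure lp_IG {𝕜 L α : Type} [Field 𝕜] [Field L] [Algebra 𝕜 L] {d : Dat 𝕜} (T : Curve d L)
    (φ : α → 𝕜) (k : ℕ) (G : List (List (List (List α)))) (D : Fin d.n → d.Pl → ℤ)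
    (h : Fin d.n → 𝕜[X]) : Prop where
  eff : ∀ i, d.Eff (D i)
  gen : ∀ i, T.Gen i (G.map (lp_sm T φ i)) (D i)
  dle : ∀ i, ∀ g ∈ G, T.Dle i (lp_sm T φ i g) (wW d.n)
  nrm : ∀ i, T.Nrm i (D i) (h i)
  deg : ∀ i, (h i).natDegree ≤ 3 * (d.n * d.n)
  gi : ∀ i, T.GI i k (D i)

/-- No root is separated from another one. -/
def lp_Uns {𝕜 α : Type} [Field 𝕜] (d : Dat 𝕜) (φ : α → 𝕜) (a : List α) : Prop :=
  (∀ j, eval (d.r j) (tp φ a) = 0) ∨ ∀ j, eval (d.r j) (tp φ a) ≠ 0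

theorem lp_count {β : Type} (l : List β) (p : β → Bool) {M δ : ℕ} (hl : l.length = M + 1)
    (hδ : δ ≤ M) (h : ∀ t (ht : t < l.length), p l[t] = true ↔ M - t < δ) :
    (l.filter p).length = δ := by
  have h1 : (l.take (M + 1 - δ)).filter p = [] := by
    rw [List.filter_eq_nil_iff]
    intro a ha
    obtain ⟨j, hj, rfl⟩ := List.mem_take_iff_getElem.1 ha
    rw [h]
    omega
  have h2 : (l.drop (M + 1 - δ)).filter p = l.drop (M + 1 - δ) := by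
    rw [List.filter_eq_self]
    intro a ha
    obtain ⟨j, hj, rfl⟩ := List.mem_drop_iff_getElem.1 ha
    rw [h]
    omega
  rw [← List.take_append_drop (M + 1 - δ) l, List.filter_append, h1, h2, List.nil_append,
    List.length_drop]
  omega

theorem lp_vec {α R : Type} [CommRing R] (φ : α → R) (l : List α) {t : ℕ} (ht : t < l.length) :
    vec φ l t = φ l[t] := by
  simp [vec, List.getD_eq_getElem?_getD, ht]

section

variable {𝕜 L α : Type} [Field 𝕜] [Field L] [Algebra 𝕜 L] {d : Dat 𝕜}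
  {o : Ops α} {φ : α → 𝕜} {f : List α} {Q N e : ℕ} {ζ w : α} {nz : List α → Bool}

theorem lp_npos (d : Dat 𝕜) : 0 < d.n := lt_of_lt_of_le d.prime.pos d.ℓ_le_n

theorem lp_Ctx.len (C : lp_Ctx d o φ f Q N e ζ w nz) : f.length - 1 = d.n := by
  rw [C.hl]; rfl

theorem lp_Ctx.hr (C : lp_Ctx d o φ f Q N e ζ w nz) (i : Fin d.n) : d.r i ^ Q = d.r i := by
  rw [← C.hs]; exact Function.iterate_fixed (d.sr i) N

theorem lp_Ctx.hrt (C : lp_Ctx d o φ f Q N e ζ w nz) (i j : Fin d.n) :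
    d.rt i j ^ Q = d.rt i j := by
  rw [← C.hs]
  refine Function.iterate_fixed ?_ N
  rw [Dat.rt, map_inv₀, map_sub, d.sr, d.sr]

theorem lp_Ctx.kA (C : lp_Ctx d o φ f Q N e ζ w nz) (i : Fin d.n) :
    KHom (o.quot f Q) (lp_ev d φ i) Q := khom_A C.hφ C.hf C.hl C.hr i

theorem lp_Ctx.cF (C : lp_Ctx d o φ f Q N e ζ w nz) (i : Fin d.n) :
    tp (lp_ev d φ i) (o.chartF Q f) = d.F i :=
  (chartF_spec C.hφ.toFHom.toHom C.hf C.hl Q i).1

theorem lp_ev_single (i : Fin d.n) (c : α) : lp_ev d φ i [c] = φ c := by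
  simp [lp_ev]

theorem lp_Ctx.evζ (C : lp_Ctx d o φ f Q N e ζ w nz) (i : Fin d.n) : lp_ev d φ i [ζ] = d.ζ := by
  rw [lp_ev_single, C.hζ]

theorem lp_Ctx.evθ (C : lp_Ctx d o φ f Q N e ζ w nz) (i : Fin d.n) :
    lp_ev d φ i [o.zero, o.one] = d.r i := by
  simp [lp_ev, tp_cons, C.hφ.zero, C.hφ.one]

theorem lp_Ctx.fixed (C : lp_Ctx d o φ f Q N e ζ w nz) (T : Curve d L) (i : Fin d.n)
    (z : List (List (List α))) : T.σ^[N] (lp_sm T φ i z) = lp_sm T φ i z := by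
  refine sem_fixed (T.σ^[N]) (d.s^[N]) (iterate_map_zero T.σ N) (iterate_map_one T.σ N)
    (iterate_map_add T.σ N) (iterate_map_mul T.σ N) (fun c => ?_) (fun a => ?_)
    (Function.iterate_fixed (T.σξ i) N) (Function.iterate_fixed (T.ση i) N) z
  · exact (Function.Semiconj.iterate_right (f := algebraMap 𝕜 L) (ga := d.s) (gb := T.σ)
      (fun c => (T.σc c).symm) N c).symm
  · rw [C.hs]; exact (C.kA i).fix a

end

variable {𝕜 L α : Type} [Field 𝕜] [IsAlgClosed 𝕜] [Field L] [Algebra 𝕜 L] {d : Dat 𝕜}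
  {T : Curve d L} {o : Ops α} {φ : α → 𝕜} {f : List α} {Q N e : ℕ} {ζ w : α}
  {nz : List α → Bool} {k : ℕ} {G : List (List (List (List α)))} {D : Fin d.n → d.Pl → ℤ}
  {h : Fin d.n → 𝕜[X]} {δ : ℕ}

theorem lp_hpol (C : lp_Ctx d o φ f Q N e ζ w nz) (I : lp_IG T φ k G D h) (i : Fin d.n) :
    tp (lp_ev d φ i) ((o.quot f Q).hpol d.ℓ d.n (o.chartF Q f) [ζ] G) = h i ∧
      (o.hdiag Q d.ℓ f ζ G).length = 3 * (d.n * d.n) + 1 ∧
      ∀ t ≤ 3 * (d.n * d.n), vec (lp_ev d φ i) (o.hdiag Q d.ℓ f ζ G) t =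
        if (h i).natDegree ≤ 3 * (d.n * d.n) - t then 1 else 0 := by
  rw [Ops.hdiag, C.len]
  exact hpol_spec (C.kA i).toFHom (C.cF i) (C.evζ i) (I.eff i) (I.nrm i) (I.deg i) (I.gen i)
    (I.dle i)

theorem lp_dl (C : lp_Ctx d o φ f Q N e ζ w nz) (I : lp_IG T φ k G D h)
    (hδ : ∀ i, (h i).natDegree = δ) : o.dl nz Q d.ℓ f ζ G = δ := by
  have i0 : Fin d.n := ⟨0, lp_npos d⟩
  have hl := (lp_hpol C I i0).2.1
  refine lp_count _ _ hl (hδ i0 ▸ I.deg i0) fun t ht => ?_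
  have key : ∀ i, eval (d.r i) (tp φ (o.hdiag Q d.ℓ f ζ G)[t]) =
      if δ ≤ 3 * (d.n * d.n) - t then 1 else 0 := fun i => by
    rw [← hδ i, ← (lp_hpol C I i).2.2 t (by omega), lp_vec _ _ ht]
  rw [Bool.not_eq_true', C.hnz]
  constructor
  · intro h0
    have := h0 i0
    rw [key] at this
    by_contra hc
    rw [if_pos (not_lt.1 hc)] at this
    exact one_ne_zero this
  · intro h0 i
    rw [key, if_neg (not_le.2 h0)]

theorem lp_deg (C : lp_Ctx d o φ f Q N e ζ w nz) (I : lp_IG T φ k G D h)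
    (hu : ∀ a ∈ o.hdiag Q d.ℓ f ζ G, lp_Uns d φ a) : ∃ δ, ∀ i, (h i).natDegree = δ := by
  have key : ∀ i i', (h i').natDegree ≤ (h i).natDegree := by
    intro i i'
    have hd := I.deg i
    have ht : 3 * (d.n * d.n) - (h i).natDegree < (o.hdiag Q d.ℓ f ζ G).length := by
      rw [(lp_hpol C I i).2.1]; omega
    have a1 := (lp_hpol C I i).2.2 (3 * (d.n * d.n) - (h i).natDegree) (by omega)
    have a2 := (lp_hpol C I i').2.2 (3 * (d.n * d.n) - (h i).natDegree) (by omega)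
    rw [lp_vec _ _ ht] at a1 a2
    rw [if_pos (by omega)] at a1
    rcases hu _ (List.getElem_mem ht) with h0 | h0
    · exact absurd ((h0 i).symm.trans a1) zero_ne_one
    · by_contra hc
      rw [if_neg (by omega)] at a2
      exact h0 i' a2
  exact ⟨(h ⟨0, lp_npos d⟩).natDegree, fun i => le_antisymm (key _ _) (key _ _)⟩

theorem lp_cs (C : lp_Ctx d o φ f Q N e ζ w nz) (I : lp_IG T φ k G D h)
    (hδ : ∀ i, (h i).natDegree = δ) (hk : k + 1 ≤ e * (d.ℓ - 1)) (i : Fin d.n) :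
    T.Rk i (D i) (h i) (fun j => lp_sm T φ i ((o.csA nz Q d.ℓ f ζ w G).getD j [])) ∧
      ∀ j b, (((o.csA nz Q d.ℓ f ζ w G).getD j []).getD b []).length ≤ wW d.n + 1 := by
  have hp := (lp_hpol C I i).1
  have hfix := (I.gen i).fixed N fun g hg => by
    obtain ⟨z, -, rfl⟩ := List.mem_map.1 hg
    exact C.fixed T i z
  obtain ⟨hl, κ, hκ, hs⟩ := sroot_spec (C.kA i) (C.cF i)
    (chartF_spec C.hφ.toFHom.toHom C.hf C.hl Q i).2 C.hQ (w := [w])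
    (by rw [lp_ev_single]; exact C.hw0) (by rw [lp_ev_single]; exact C.hw1) (C.hrt i)
    ((o.quot f Q).hpol d.ℓ d.n (o.chartF Q f) [ζ] G)
    (fun j hj => by rw [hp]; exact (I.nrm i).eval_ne hj ((I.eff i).2.2 j))
    (fun j j' hj hj' => by
      obtain ⟨z, h1, h2, h3⟩ := Curve.ratio (I.eff i) (I.nrm i) (I.gi i) hk C.hN hfix hj hj'
      exact ⟨z, h1, by rw [← C.hs, h2], by rw [hp, h3]⟩)
  rw [hp] at hs
  rw [Ops.csA, C.len, lp_dl C I hδ, ← hδ i]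
  exact cs_spec (C.kA i).toFHom (C.cF i) (C.evζ i) (I.eff i) (I.nrm i) (I.deg i)
    (fun j hj => parts_spec (C.kA i).toFHom (C.cF i) (C.evζ i) (I.eff i) (I.nrm i) (I.deg i)
      (I.gen i) (I.dle i) hj.le) hl hκ hs

theorem lp_next1 (C : lp_Ctx d o φ f Q N e ζ w nz) (I : lp_IG T φ k G D h)
    (hδ : ∀ i, (h i).natDegree = δ) (hk : k + 1 ≤ e * (d.ℓ - 1)) {ρ : List ℕ}
    (hρ : ∀ a, (dL d.ℓ d.n ρ).getD a 0 ≤ 2 * d.n) (i : Fin d.n) :
    ∃ (E : d.Pl → ℤ) (h' : 𝕜[X]), d.Eff E ∧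
      T.Dv i (D i) E (lp_sm T φ i ((o.csA nz Q d.ℓ f ζ w G).getD 1 []) /
        lp_sm T φ i ((o.csA nz Q d.ℓ f ζ w G).getD 0 [])) ∧
      T.v (d.ram i) (lp_sm T φ i ((o.csA nz Q d.ℓ f ζ w G).getD 1 []) /
        lp_sm T φ i ((o.csA nz Q d.ℓ f ζ w G).getD 0 [])) = -δ ∧
      T.Gen i ((o.nextG nz Q d.ℓ f ζ w G ρ).map (lp_sm T φ i))
        (E + d.Inf fun a => ((dL d.ℓ d.n ρ).getD a 0 : ℤ)) ∧
      (∀ g ∈ o.nextG nz Q d.ℓ f ζ w G ρ, T.Dle i (lp_sm T φ i g) (wW d.n)) ∧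
      T.Nrm i (E + d.Inf fun a => ((dL d.ℓ d.n ρ).getD a 0 : ℤ)) h' ∧
      h'.natDegree ≤ 3 * (d.n * d.n) := by
  have hR := (lp_cs C I hδ hk i).1
  obtain ⟨E, hE, h0, hg, hv, hw⟩ := Curve.exists_E (I.eff i) (I.nrm i) hR
  have hsp := egen_spec (o := o.quot f Q) (C.kA i).toFHom (C.cF i) (I.deg i)
    (fun j hj => parts_spec (C.kA i).toFHom (C.cF i) (C.evζ i) (I.eff i) (I.nrm i) (I.deg i)
      (I.gen i) (I.dle i) hj.le) (c := o.csA nz Q d.ℓ f ζ w G) (fun _ => rfl) hR hv hw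
  have hb : (d.ℓ - 1) * (d.n - 1) ≤ d.n * d.n :=
    Nat.mul_le_mul (le_trans (Nat.sub_le _ _) d.ℓ_le_n) (Nat.sub_le _ _)
  have hd : T.Dle i (lp_sm T φ i ((o.csA nz Q d.ℓ f ζ w G).getD 0 [])) (d.n * d.n : ℕ) := by
    refine Curve.Ge.mono (hR.2.2.2.1 0 d.prime.pos) ?_
    have : (((d.ℓ - 1) * (d.n - 1) : ℕ) : ℤ) ≤ (d.n * d.n : ℕ) := by exact_mod_cast hb
    simpa using this
  obtain ⟨a1, a2, u, hu, a3, a4⟩ := addInf_spec (C.kA i).toFHom (C.cF i) (C.evζ i) hE hR.1 h0 hd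
    hsp (dL d.ℓ d.n ρ) hρ
  have hE' := hE.add_inf (c := fun a => ((dL d.ℓ d.n ρ).getD a 0 : ℤ)) fun a => Int.natCast_nonneg _
  obtain ⟨h', hh'⟩ := T.exists_nrm i hE'.1 hE'.2.1
  refine ⟨E, h', hE, hg, by rw [← hδ i]; exact hv, ?_, ?_, hh', hh'.deg_le hE'.2.1 hu a3 a4⟩
  · rw [Ops.nextG, C.len]; exact a1
  · rw [Ops.nextG, C.len]; exact a2

theorem lp_next (C : lp_Ctx d o φ f Q N e ζ w nz) (I : lp_IG T φ k G D h)
    (hδ : ∀ i, (h i).natDegree = δ) (hk : k + 1 ≤ e * (d.ℓ - 1)) {ρ : List ℕ}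
    (hρ : ∀ a, (dL d.ℓ d.n ρ).getD a 0 ≤ 2 * d.n) :
    ∃ (E : Fin d.n → d.Pl → ℤ) (h' : Fin d.n → 𝕜[X]), (∀ i, d.Eff (E i)) ∧
      (∀ i, T.Dv i (D i) (E i) (lp_sm T φ i ((o.csA nz Q d.ℓ f ζ w G).getD 1 []) /
        lp_sm T φ i ((o.csA nz Q d.ℓ f ζ w G).getD 0 []))) ∧
      (∀ i, T.v (d.ram i) (lp_sm T φ i ((o.csA nz Q d.ℓ f ζ w G).getD 1 []) /
        lp_sm T φ i ((o.csA nz Q d.ℓ f ζ w G).getD 0 [])) = -δ) ∧
      lp_IG T φ (k + 1) (o.nextG nz Q d.ℓ f ζ w G ρ)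
        (fun i => E i + d.Inf fun a => ((dL d.ℓ d.n ρ).getD a 0 : ℤ)) h' := by
  choose E h' a1 a2 a3 a4 a5 a6 a7 using lp_next1 C I hδ hk hρ
  exact ⟨E, h', a1, a2, a3, fun i => (a1 i).add_inf fun a => Int.natCast_nonneg _, a4, a5, a6, a7,
    fun i => (I.gi i).step (a2 i) _⟩

theorem lp_init (C : lp_Ctx d o φ f Q N e ζ w nz) (T : Curve d L) :
    lp_IG T φ 0 ((o.quot f Q).infG [ζ] 0) (fun _ => d.Inf fun b => if b = 0 then 1 else 0)
      fun _ => X := by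
  have hn := lp_npos d
  refine ⟨fun _ => ⟨d.fs_inf _, fun P => ?_, fun _ => rfl⟩,
    fun i => (infG_spec (C.kA i).toFHom (C.evζ i) T i d.prime.pos).1,
    fun i => (infG_spec (C.kA i).toFHom (C.evζ i) T i d.prime.pos).2,
    fun i => T.nrm_inf i, fun _ => ?_, fun i => T.gi_zero i _⟩
  · cases P with
    | inl q => exact le_rfl
    | inr a =>
      show (0 : ℤ) ≤ if a.val = 0 then 1 else 0
      split_ifs
      · exact zero_le_one
      · exact le_rfl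
  · rw [natDegree_X]
    have := Nat.mul_pos hn hn
    omega

end Vale.Agent.P319
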