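import Vale.Agent.P319.TSpec
import Vale.Agent.P319.Basis

/-! Recovering the next global function. -/

namespace Vale.Agent.P319

open Polynomial Finset

theorem se_ker {α R L ι : Type} [Field R] [CommRing L] [Algebra R L] {o : Ops α} {φ : α → R}
    {X Y : L} {ℓ : ℕ} (h : FHom o φ) (hI : Indep R X Y ℓ) (l : List ι) (i0 : ι)
    (e : ι → List (List α)) :
    ∑ t ∈ range l.length, vec φ (o.last (o.solve ℓ (l.map fun i => [e i]) [[]])) t •
        sem φ X Y ℓ (e (l.getD t i0)) = 0 ∧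
      ∀ c : ℕ → R, (∀ t, l.length ≤ t → c t = 0) →
        ∑ t ∈ range l.length, c t • sem φ X Y ℓ (e (l.getD t i0)) = 0 → c ≠ 0 →
        ∃ i < l.length, vec φ (o.last (o.solve ℓ (l.map fun i => [e i]) [[]])) i = 1 ∧
          (∀ j < i, vec φ (o.last (o.solve ℓ (l.map fun i => [e i]) [[]])) j = 0) ∧
          ∃ j ≤ i, c j ≠ 0 := by
  obtain ⟨h1, h2, h3, h4⟩ := h.solve hI (l.map fun i => [e i]) [[]]
  rw [List.length_map] at h1 h2 h3 h4
  obtain ⟨h5, h6⟩ := h.last (o.solve ℓ (l.map fun i => [e i]) [[]]) (by rwa [h1]) (by rwa [h1])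
  have key : ∀ c : ℕ → R, ∑ t ∈ range l.length,
      c t • sem φ X Y ℓ (((l.map fun i => [e i]).getD t []).getD 0 []) =
      ∑ t ∈ range l.length, c t • sem φ X Y ℓ (e (l.getD t i0)) := by
    intro c
    refine sum_congr rfl fun t ht => ?_
    have ht' := mem_range.1 ht
    rw [List.getD_eq_getElem (l.map fun i => [e i]) _ (by simpa using ht'),
      List.getD_eq_getElem l _ ht']
    simp
  constructor
  · have := ((h4 _).1 h5).2 0 (by simp)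
    rw [key] at this
    simpa using this
  · intro c hc hs h0
    rw [← h1]
    refine h6 c ((h4 c).2 ⟨hc, fun j hj => ?_⟩) h0
    obtain rfl : j = 0 := by simpa using hj
    rw [key, hs]
    exact Submodule.zero_mem _

theorem se_deg {R : Type} [Field R] {W : ℕ} (hc : ∀ k : ℕ, 0 < k → k ≤ W → (k : R) ≠ 0)
    {U V : R[X]} (hU : U ≠ 0) (hV : V ≠ 0) (hdU : U.natDegree ≤ W) (hdV : V.natDegree ≤ W)
    (h : derivative V * U = V * derivative U) : V.natDegree = U.natDegree := by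
  have h1 : ∀ (P : R[X]) (k : ℕ), (X * derivative P).coeff k = P.coeff k * k := by
    intro P k
    rcases k with _ | k
    · simp
    · rw [coeff_X_mul, coeff_derivative]
      push_cast
      rfl
  have h2 : ∀ P : R[X], (X * derivative P).natDegree ≤ P.natDegree := fun P =>
    natDegree_le_iff_coeff_eq_zero.2 fun k hk => by
      rw [h1, coeff_eq_zero_of_natDegree_lt hk, zero_mul]
  have h3 : (X * derivative V) * U = V * (X * derivative U) := by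
    rw [mul_assoc, h]
    ring
  have h4 := congrArg (fun P => coeff P (V.natDegree + U.natDegree)) h3
  simp only [coeff_mul_add_eq_of_natDegree_le (h2 V) le_rfl,
    coeff_mul_add_eq_of_natDegree_le le_rfl (h2 U), h1, coeff_natDegree] at h4
  have h5 : (V.natDegree : R) = U.natDegree := by
    have h6 := mul_ne_zero (leadingCoeff_ne_zero.2 hV) (leadingCoeff_ne_zero.2 hU)
    exact mul_left_cancel₀ h6 (by linear_combination h4)
  rcases lt_trichotomy V.natDegree U.natDegree with h6 | h6 | h6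
  · refine absurd ?_ (hc (U.natDegree - V.natDegree) (by omega) (by omega))
    rw [Nat.cast_sub h6.le, h5, sub_self]
  · exact h6
  · refine absurd ?_ (hc (V.natDegree - U.natDegree) (by omega) (by omega))
    rw [Nat.cast_sub h6.le, h5, sub_self]

theorem se_line {R : Type} [Field R] {W : ℕ} (hc : ∀ k : ℕ, 0 < k → k ≤ W → (k : R) ≠ 0)
    {U V : R[X]} (hU : U ≠ 0) (hV : V ≠ 0) (hdU : U.natDegree ≤ W) (hdV : V.natDegree ≤ W)
    (h : derivative V * U = V * derivative U) : ∃ c : R, c ≠ 0 ∧ V = C c * U := by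
  have hU' := leadingCoeff_ne_zero.2 hU
  have hV' := leadingCoeff_ne_zero.2 hV
  have h1 := se_deg hc hU hV hdU hdV h
  refine ⟨V.leadingCoeff / U.leadingCoeff, div_ne_zero hV' hU', ?_⟩
  by_contra h2
  have h3 : (V - C (V.leadingCoeff / U.leadingCoeff) * U).natDegree ≤ W :=
    (natDegree_sub_le _ _).trans (max_le hdV ((natDegree_C_mul_le _ _).trans hdU))
  have h4 := se_deg hc hU (sub_ne_zero.2 h2) hdU h3 (by
    rw [derivative_sub, derivative_C_mul]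
    linear_combination h)
  refine leadingCoeff_ne_zero.2 (sub_ne_zero.2 h2) ?_
  rw [leadingCoeff, h4, coeff_sub, coeff_C_mul, coeff_natDegree, div_mul_cancel₀ _ hU', ← h1,
    coeff_natDegree, sub_self]

variable {𝕜 L α : Type} [Field 𝕜] [IsAlgClosed 𝕜] [Field L] [Algebra 𝕜 L] {d : Dat 𝕜}
  {o : Ops α} {φ : α → 𝕜} {f : List α}

omit [IsAlgClosed 𝕜] in
theorem uPol_spec (hφ : FHom o φ) {ℓ W : ℕ} (hℓ : (ℓ : 𝕜) ≠ 0)
    (hc : ∀ k : ℕ, 0 < k → k ≤ W → (k : 𝕜) ≠ 0) {N H : List α} {U : 𝕜[X]} (hU : U ≠ 0)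
    (hd : U.natDegree ≤ W) (hN : tp φ N ≠ 0) {c : 𝕜} (h : U ^ ℓ * tp φ N = C c * tp φ H) :
    ∃ c' : 𝕜, c' ≠ 0 ∧ tp φ (o.uPol ℓ W N H) = C c' * U := by
  have hH := hφ.toHom
  let Φ : 𝕜[X] →ₗ[𝕜] 𝕜[X] :=
    LinearMap.mulLeft 𝕜 (C (ℓ : 𝕜) * (tp φ N * tp φ H)) ∘ₗ derivative +
      LinearMap.mulRight 𝕜 (derivative (tp φ N) * tp φ H - tp φ N * derivative (tp φ H))
  have hΦ : ∀ V, Φ V = C (ℓ : 𝕜) * (tp φ N * tp φ H) * derivative V +
      V * (derivative (tp φ N) * tp φ H - tp φ N * derivative (tp φ H)) := fun V => rfl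
  obtain ⟨h1, h2⟩ := se_ker hφ (indep_one (R := 𝕜)) (List.range (W + 1)) 0 fun t =>
    [o.padd (o.psm (o.nat ℓ) (o.pmul (o.pmul N H) (o.pder (o.pmon (W + 1) (W - t)))))
      (o.pmul (o.pmon (W + 1) (W - t)) (o.psub (o.pmul (o.pder N) H) (o.pmul N (o.pder H))))]
  have key : ∀ c : ℕ → 𝕜, ∑ t ∈ range (List.range (W + 1)).length, c t • sem φ (X : 𝕜[X]) 1 1
      ((fun t => [o.padd (o.psm (o.nat ℓ) (o.pmul (o.pmul N H) (o.pder (o.pmon (W + 1) (W - t)))))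
      (o.pmul (o.pmon (W + 1) (W - t)) (o.psub (o.pmul (o.pder N) H) (o.pmul N (o.pder H))))])
        ((List.range (W + 1)).getD t 0)) = Φ (∑ t ∈ range (W + 1), C (c t) * X ^ (W - t)) := by
    intro c
    rw [List.length_range, map_sum]
    refine sum_congr rfl fun t ht => ?_
    rw [List.getD_eq_getElem _ _ (by simpa using mem_range.1 ht), List.getElem_range, sem_one,
      ← smul_eq_C_mul, map_smul, hΦ]
    simp only [hH.padd, hH.psm, hH.pmul, hH.pder, hH.psub, hH.nat,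
      hH.pmon (show W - t < W + 1 by omega), mul_assoc]
  rw [key] at h1
  simp only [key] at h2
  have hℓ0 : ℓ ≠ 0 := by
    rintro rfl
    simp at hℓ
  obtain ⟨k, rfl⟩ := Nat.exists_eq_add_one_of_ne_zero hℓ0
  have hne : C c * tp φ H ≠ 0 := h ▸ mul_ne_zero (pow_ne_zero _ hU) hN
  have hΦU : Φ U = 0 := by
    have h3 := congrArg derivative h
    rw [derivative_mul, derivative_pow_succ, derivative_C_mul] at h3
    refine mul_left_cancel₀ (left_ne_zero_of_mul hne) ?_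
    rw [hΦ, Nat.cast_add_one]
    linear_combination (-(C ((k : 𝕜) + 1) * tp φ N * derivative U) - U * derivative (tp φ N)) * h +
      U * tp φ N * h3
  have hUe : ∑ t ∈ range (W + 1), C (if t ≤ W then U.coeff (W - t) else 0) * X ^ (W - t) = U := by
    conv_rhs => rw [as_sum_range_C_mul_X_pow' U (Nat.lt_succ_of_le hd), ← sum_range_reflect]
    refine sum_congr rfl fun t ht => ?_
    rw [if_pos (Nat.le_of_lt_succ (mem_range.1 ht)), Nat.succ_sub_one]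
  obtain ⟨i, hi, h3, -⟩ := h2 (fun t => if t ≤ W then U.coeff (W - t) else 0)
    (fun t ht => if_neg (by rw [List.length_range] at ht; omega)) (by rw [hUe, hΦU]) (by
      intro h0
      have := congrFun h0 (W - U.natDegree)
      rw [if_pos (by omega), show W - (W - U.natDegree) = U.natDegree by omega] at this
      exact leadingCoeff_ne_zero.2 hU this)
  rw [List.length_range] at hi
  have hV : tp φ (o.uPol (k + 1) W N H) ≠ 0 := by
    intro h0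
    have h4 := congrArg (fun P => coeff P (W - i)) h0
    simp only [Ops.uPol, hH.prev, coeff_zero] at h4
    rw [if_pos (by omega), show W + 1 - 1 - (W - i) = i by omega, h3] at h4
    exact one_ne_zero h4
  have hΦV : Φ (tp φ (o.uPol (k + 1) W N H)) = 0 := by
    rw [Ops.uPol, hH.prev_eq]
    exact h1
  refine se_line hc hU hV hd ((natDegree_tp_le _).trans (by rw [Ops.uPol, length_prev]; omega)) ?_
  refine mul_left_cancel₀ (mul_ne_zero (C_ne_zero.2 hℓ) (mul_ne_zero hN (right_ne_zero_of_mul hne))) ?_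
  rw [hΦ] at hΦU hΦV
  linear_combination U * hΦV - tp φ (o.uPol (k + 1) W N H) * hΦU

theorem se_inf (T : Curve d L) {z : L} (h0 : z ≠ 0) (h1 : ∀ q, T.Ge (.inl q) z 0) :
    ∃ e, T.v (.inr e) z ≤ 0 := by
  by_contra h
  push Not at h
  have h2 := (T.mem_span_std 0 z).2 ⟨h1, fun e => Or.inr (by have := h e; omega)⟩
  have h3 : z ∈ Submodule.span 𝕜 {(1 : L)} := by
    refine Submodule.span_mono ?_ h2
    rintro w ⟨a, b, -, h4, rfl⟩
    have := d.mpos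
    have ha : a = 0 := by omega
    have hb : b = 0 := by
      by_contra hb
      have := Nat.mul_pos d.mpos (Nat.pos_of_ne_zero hb)
      omega
    simp [ha, hb]
  obtain ⟨c, rfl⟩ := Submodule.mem_span_singleton.1 h3
  have hc : c ≠ 0 := by
    rintro rfl
    simp at h0
  have h4 := h 0
  rw [Curve.v_smul hc one_ne_zero, Curve.v_one] at h4
  omega

omit [IsAlgClosed 𝕜] in
theorem se_ge_aeval (T : Curve d L) (q) (g : 𝕜[X]) : T.Ge (.inl q) (aeval T.x g) 0 :=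
  ((T.val_x q).aeval g).ge

/-- The shortest solution of a homogeneous equation. -/
theorem se_short (T : Curve d L) (Ψ : L →ₗ[𝕜] L) {W : ℕ} (z : ℕ → 𝕜) (u : ℕ × ℕ → L)
    (hu : ∀ q, u q = T.x ^ q.1 * T.y ^ q.2) (l : List (ℕ × ℕ)) (hl : l = mons 1 d.m d.ℓ W)
    (hz : ∀ c : ℕ → 𝕜, (∀ t, l.length ≤ t → c t = 0) →
      Ψ (∑ t ∈ range l.length, c t • u (l.getD t (0, 0))) = 0 → c ≠ 0 →
      ∃ i < l.length, z i = 1 ∧ (∀ j < i, z j = 0) ∧ ∃ j ≤ i, c j ≠ 0)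
    {ψ : L} (h0 : ψ ≠ 0) (h1 : ∀ q, T.Ge (.inl q) ψ 0) (h2 : ∀ e, T.Ge (.inr e) ψ (-W))
    (h3 : Ψ ψ = 0) {z0 : L} (hz0 : z0 = ∑ t ∈ range l.length, z t • u (l.getD t (0, 0))) :
    z0 ≠ 0 ∧ (∀ q, T.Ge (.inl q) z0 0) ∧ ∃ w : ℕ, (∀ e, T.Ge (.inr e) z0 (-w)) ∧
      ∀ (s : L) (w' : ℕ), s ≠ 0 → Ψ s = 0 → (∀ q, T.Ge (.inl q) s 0) →
        (∀ e, T.Ge (.inr e) s (-w')) → w' ≤ w → w ≤ w' := by
  have hm : ∀ q, q ∈ l ↔ q.2 < d.ℓ ∧ 1 * q.1 + d.m * q.2 ≤ W := fun q => hl ▸ mem_mons one_pos _ _ _ q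
  have hsort : ∀ i j, j ≤ i → i < l.length → 1 * (l.getD i (0, 0)).1 + d.m * (l.getD i (0, 0)).2 ≤
      1 * (l.getD j (0, 0)).1 + d.m * (l.getD j (0, 0)).2 := by
    intro i j hji hi
    rcases hji.eq_or_lt with rfl | hji
    · exact le_rfl
    rw [List.getD_eq_getElem l _ hi, List.getD_eq_getElem l _ (hji.trans hi)]
    exact List.pairwise_iff_getElem.1 (hl ▸ sorted_mons 1 d.m d.ℓ W) j i (hji.trans hi) hi hji
  have hmem : ∀ t < l.length, l.getD t (0, 0) ∈ l := fun t ht => by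
    rw [List.getD_eq_getElem l _ ht]
    exact List.getElem_mem ht
  have key : ∀ (s : L) (w' : ℕ), s ≠ 0 → Ψ s = 0 → (∀ q, T.Ge (.inl q) s 0) →
      (∀ e, T.Ge (.inr e) s (-w')) → w' ≤ W → ∃ i < l.length, z i = 1 ∧ (∀ j < i, z j = 0) ∧
        1 * (l.getD i (0, 0)).1 + d.m * (l.getD i (0, 0)).2 ≤ w' := by
    intro s w' s0 s1 s2 s3 hw
    obtain ⟨c, hc, hs⟩ := exists_coef (R := 𝕜) l (0, 0) u (fun q => 1 * q.1 + d.m * q.2 ≤ w') s (by
      refine Submodule.span_mono ?_ ((T.mem_span_std w' s).2 ⟨s2, s3⟩)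
      rintro _ ⟨a, b, hb, h4, rfl⟩
      exact ⟨(a, b), (hm _).2 ⟨hb, h4.trans hw⟩, h4, (hu (a, b)).symm⟩)
    obtain ⟨i, hi, e1, e2, j, hj, e3⟩ := hz c (fun t ht => by
      by_contra h4
      exact (hc t h4).1.not_ge ht) (hs ▸ s1) (by
      rintro rfl
      simp at hs
      exact s0 hs)
    exact ⟨i, hi, e1, e2, (hsort i j hj hi).trans (hc j e3).2⟩
  obtain ⟨i, hi, e1, e2, e3⟩ := key ψ W h0 h3 h1 h2 le_rfl
  have hsp := (T.mem_span_std (1 * (l.getD i (0, 0)).1 + d.m * (l.getD i (0, 0)).2) z0).1 (by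
    rw [hz0]
    refine Submodule.sum_mem _ fun t ht => ?_
    rcases lt_or_ge t i with h | h
    · rw [e2 t h, zero_smul]
      exact Submodule.zero_mem _
    · exact Submodule.smul_mem _ _ (Submodule.subset_span
        ⟨_, _, ((hm _).1 (hmem t (mem_range.1 ht))).1, hsort t i h (mem_range.1 ht), hu _⟩))
  refine ⟨fun h => ?_, hsp.1, _, hsp.2, fun s w' s0 s1 s2 s3 hw => ?_⟩
  · have := T.indep_xy.list l (hl ▸ nodup_mons _ _ _ _) (fun q hq => ((hm q).1 hq).1) z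
      (by simpa only [hu] using hz0.symm.trans h) i hi
    rw [e1] at this
    exact one_ne_zero this
  · obtain ⟨i', -, f1, f2, f3⟩ := key s w' s0 s1 s2 s3 (hw.trans e3)
    obtain rfl : i' = i := by
      rcases lt_trichotomy i' i with h | h | h
      · exact absurd ((e2 i' h).symm.trans f1) zero_ne_one
      · exact h
      · exact absurd ((f2 i h).symm.trans e1) zero_ne_one
    exact f3

theorem se_div (T : Curve d L) {κ : 𝕜} (hκ : κ ≠ 0) {a b : L} (hb : b ≠ 0) {W : ℕ} {ψ z0 : L}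
    (h0 : ψ ≠ 0) (h1 : ∀ q, T.Ge (.inl q) ψ 0) (h2 : ∀ e, T.Ge (.inr e) ψ (-W))
    (h3 : κ • (b * ψ) = a * T.τ ψ) (z1 : z0 ≠ 0) (z2 : ∀ q, T.Ge (.inl q) z0 0)
    (z3 : κ • (b * z0) = a * T.τ z0) {w : ℕ} (z4 : ∀ e, T.Ge (.inr e) z0 (-w))
    (z5 : ∀ (s : L) (w' : ℕ), s ≠ 0 → κ • (b * s) = a * T.τ s → (∀ q, T.Ge (.inl q) s 0) →
      (∀ e, T.Ge (.inr e) s (-w')) → w' ≤ w → w ≤ w') :
    ∃ U : 𝕜[X], U.natDegree ≤ W ∧ ψ = aeval T.x U * z0 := by
  classical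
  have ha : a ≠ 0 := by
    rintro rfl
    exact smul_ne_zero hκ (mul_ne_zero hb h0) (by rw [h3, zero_mul])
  have hτ : T.τ z0 ≠ 0 := (map_ne_zero T.τ).2 z1
  have hfix : T.τ (ψ / z0) = ψ / z0 := by
    rw [map_div₀, div_eq_div_iff hτ z1]
    refine mul_left_cancel₀ ha ?_
    rw [← mul_assoc, ← h3, mul_left_comm a ψ, ← z3, smul_mul_assoc, mul_smul_comm]
    congr 1
    ring
  obtain ⟨A, B, hB, hAB⟩ := T.fixed_rat hfix
  obtain ⟨A1, B1, e1, e2, e3⟩ := extract_gcd A B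
  have hg : gcd A B ≠ 0 := fun h => hB (by rw [e2, h, zero_mul])
  have hB1 : B1 ≠ 0 := fun h => hB (by rw [e2, h, mul_zero])
  have hB1' := T.trans B1 hB1
  have e4 : aeval T.x B1 * ψ = aeval T.x A1 * z0 := by
    generalize gcd A B = g at e1 e2 hg
    rw [e1, e2, map_mul, map_mul, mul_assoc] at hAB
    rw [← mul_left_cancel₀ (T.trans g hg) hAB]
    field_simp
  obtain ⟨p, q, hpq⟩ := (gcd_isUnit_iff A1 B1).1 e3
  have e5 : z0 / aeval T.x B1 = aeval T.x p * ψ + aeval T.x q * z0 := by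
    have := congrArg (aeval T.x) hpq
    rw [map_add, map_mul, map_mul, map_one] at this
    rw [div_eq_iff hB1']
    linear_combination (-z0) * this - aeval T.x p * e4
  have s0 : z0 / aeval T.x B1 ≠ 0 := div_ne_zero z1 hB1'
  have s2 : ∀ q', T.Ge (.inl q') (z0 / aeval T.x B1) 0 := fun q' => by
    rw [e5]
    simpa using ((se_ge_aeval T q' p).mul (h1 q')).add ((se_ge_aeval T q' q).mul (z2 q'))
  have s4 : ∀ e, T.v (.inr e) (z0 / aeval T.x B1) = T.v (.inr e) z0 + B1.natDegree := fun e => by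
    rw [Curve.v_div z1 hB1', T.v_aeval_inf e hB1, sub_neg_eq_add]
  have z4' : ∀ e, -(w : ℤ) ≤ T.v (.inr e) z0 := fun e => (Curve.ge_iff z1).1 (z4 e)
  obtain ⟨e0, he0⟩ := se_inf T s0 s2
  have h4 : B1.natDegree ≤ w := by
    have := z4' e0
    rw [s4] at he0
    omega
  have h5 := z5 _ (w - B1.natDegree) s0 (by
    rw [map_div₀, T.τ_aeval T.τx, ← mul_div_assoc, ← mul_div_assoc, ← z3, smul_div_assoc]) s2
    (fun e => Or.inr (by
      have := z4' e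
      rw [s4]
      omega)) (Nat.sub_le _ _)
  have h6 : B1.natDegree = 0 := by
    rcases Nat.eq_zero_or_pos w with h | h <;> omega
  obtain ⟨β, rfl⟩ := natDegree_eq_zero.1 h6
  have hβ : β ≠ 0 := C_ne_zero.1 hB1
  have h7 : ψ = aeval T.x (C β⁻¹ * A1) * z0 := by
    rw [map_mul, mul_assoc, ← e4, ← mul_assoc, ← map_mul, ← C_mul, inv_mul_cancel₀ hβ]
    simp
  refine ⟨_, ?_, h7⟩
  have hU : C β⁻¹ * A1 ≠ 0 := fun h => h0 (by rw [h7, h, map_zero, zero_mul])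
  obtain ⟨e, he⟩ := se_inf T z1 z2
  have h8 := (Curve.ge_iff h0).1 (h2 e)
  rw [h7, T.v_mul _ _ _ (T.trans _ hU) z1, T.v_aeval_inf e hU] at h8
  omega

theorem psiP_spec (hφ : FHom o φ) (hf : tp φ f = d.f) (T : Curve d L) {ζ κ : α} (hζ : φ ζ = d.ζ)
    (hκ : φ κ ≠ 0) {a b : List (List α)} (hb : sem φ T.x T.y d.ℓ b ≠ 0) {ψ : L} (h0 : ψ ≠ 0)
    (h1 : ∀ q, T.Ge (.inl q) ψ 0) (h2 : ∀ e, T.Ge (.inr e) ψ (-(wW d.n : ℕ)))
    (h3 : φ κ • ψ = sem φ T.x T.y d.ℓ a / sem φ T.x T.y d.ℓ b * T.τ ψ) :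
    (∀ q, T.Ge (.inl q) (sem φ T.x T.y d.ℓ (o.psiP d.ℓ d.n f ζ κ a b)) 0) ∧
      ∃ U : 𝕜[X], U.natDegree ≤ wW d.n ∧
        ψ = aeval T.x U * sem φ T.x T.y d.ℓ (o.psiP d.ℓ d.n f ζ κ a b) := by
  have hH := hφ.toHom
  have hy : T.y ^ d.ℓ = aeval T.x (tp φ f) := by rw [hf, T.hy]
  have hm : d.n / d.ℓ = d.m := by rw [d.hn, Nat.mul_div_cancel_left _ d.prime.pos]
  let Ψ : L →ₗ[𝕜] L := φ κ • LinearMap.mulLeft 𝕜 (sem φ T.x T.y d.ℓ b) -
    LinearMap.mulLeft 𝕜 (sem φ T.x T.y d.ℓ a) ∘ₗ T.τ.toLinearMap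
  have hΨ : ∀ s, Ψ s = φ κ • (sem φ T.x T.y d.ℓ b * s) - sem φ T.x T.y d.ℓ a * T.τ s := fun s => rfl
  have hΨ' : ∀ s, Ψ s = 0 ↔ φ κ • (sem φ T.x T.y d.ℓ b * s) = sem φ T.x T.y d.ℓ a * T.τ s :=
    fun s => by rw [hΨ, sub_eq_zero]
  have hψ : Ψ ψ = 0 := by
    rw [hΨ', ← mul_smul_comm, h3]
    field_simp
  obtain ⟨l, hl⟩ : ∃ l, l = mons 1 d.m d.ℓ (wW d.n) := ⟨_, rfl⟩
  have hmon : ∀ t < l.length, sem φ T.x T.y d.ℓ (o.tmon d.ℓ (wW d.n + 1) (l.getD t (0, 0))) =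
      T.x ^ (l.getD t (0, 0)).1 * T.y ^ (l.getD t (0, 0)).2 := by
    intro t ht
    have h4 : l.getD t (0, 0) ∈ mons 1 d.m d.ℓ (wW d.n) := by
      rw [List.getD_eq_getElem l _ ht, ← hl]
      exact List.getElem_mem ht
    rw [mem_mons one_pos] at h4
    exact hH.tmon (by omega) h4.1
  obtain ⟨k1, k2⟩ := se_ker hφ T.indep_xy l (0, 0) fun q =>
    o.tadd d.ℓ (o.tsm κ (o.tmul d.ℓ f b (o.tmon d.ℓ (wW d.n + 1) q)))
      (o.tsm (o.neg o.one) (o.tmul d.ℓ f a (o.ttau d.ℓ ζ (o.tmon d.ℓ (wW d.n + 1) q))))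
  have key : ∀ c : ℕ → 𝕜, ∑ t ∈ range l.length, c t • sem φ T.x T.y d.ℓ ((fun q =>
      o.tadd d.ℓ (o.tsm κ (o.tmul d.ℓ f b (o.tmon d.ℓ (wW d.n + 1) q)))
        (o.tsm (o.neg o.one) (o.tmul d.ℓ f a (o.ttau d.ℓ ζ (o.tmon d.ℓ (wW d.n + 1) q)))))
        (l.getD t (0, 0))) =
      Ψ (∑ t ∈ range l.length, c t • (T.x ^ (l.getD t (0, 0)).1 * T.y ^ (l.getD t (0, 0)).2)) := by
    intro c
    rw [map_sum]
    refine sum_congr rfl fun t ht => ?_
    rw [map_smul, hΨ, hH.tadd, hH.tsm, hH.tsm, hH.tmul hy, hH.tmul hy,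
      hH.ttau (T.τ : L →ₐ[𝕜] L) ζ T.τx (by rw [hζ]; exact T.τy), hmon t (mem_range.1 ht), hH.neg,
      hH.one, neg_one_smul, sub_eq_add_neg]
    rfl
  rw [key] at k1
  simp only [key] at k2
  have hz0 : sem φ T.x T.y d.ℓ (o.psiP d.ℓ d.n f ζ κ a b) = ∑ t ∈ range l.length,
      vec φ (o.last (o.solve d.ℓ (l.map fun q => [o.tadd d.ℓ
        (o.tsm κ (o.tmul d.ℓ f b (o.tmon d.ℓ (wW d.n + 1) q)))
        (o.tsm (o.neg o.one) (o.tmul d.ℓ f a (o.ttau d.ℓ ζ (o.tmon d.ℓ (wW d.n + 1) q))))]) [[]])) t •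
        (T.x ^ (l.getD t (0, 0)).1 * T.y ^ (l.getD t (0, 0)).2) := by
    rw [Ops.psiP, hH.lin, hm, ← hl, List.length_map, List.map_map]
    refine sum_congr rfl fun t ht => ?_
    rw [← hmon t (mem_range.1 ht), List.getD_eq_getElem (l.map _) _ (by simpa using mem_range.1 ht),
      List.getD_eq_getElem l _ (mem_range.1 ht), List.getElem_map]
    rfl
  rw [← hz0] at k1
  obtain ⟨z1, z2, w, z4, z5⟩ := se_short T Ψ _ (fun q => T.x ^ q.1 * T.y ^ q.2) (fun _ => rfl) l hl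
    k2 h0 h1 h2 hψ hz0
  exact ⟨z2, se_div T hκ hb h0 h1 h2 ((hΨ' _).1 hψ) z1 z2 ((hΨ' _).1 k1) z4
    fun s w' s0 s1 => z5 s w' s0 ((hΨ' _).2 s1)⟩

theorem psiN_spec (hφ : FHom o φ) (hf : tp φ f = d.f)
    (hc : ∀ k : ℕ, 0 < k → k ≤ wW d.n → (k : 𝕜) ≠ 0) (T : Curve d L) {ζ κ : α} (hζ : φ ζ = d.ζ)
    (hκ : φ κ ≠ 0) {a b : List (List α)} (hb : sem φ T.x T.y d.ℓ b ≠ 0) {ψ : L} (h0 : ψ ≠ 0)
    (h1 : ∀ q, T.Ge (.inl q) ψ 0) (h2 : ∀ e, T.Ge (.inr e) ψ (-(wW d.n : ℕ)))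
    (h3 : φ κ • ψ = sem φ T.x T.y d.ℓ a / sem φ T.x T.y d.ℓ b * T.τ ψ) {H : List α} {c : 𝕜}
    (h4 : T.pp ψ d.ℓ = c • aeval T.x (tp φ H)) :
    ∃ c' : 𝕜, c' ≠ 0 ∧ sem φ T.x T.y d.ℓ (o.psiN d.ℓ d.n f ζ κ a b H) = c' • ψ := by
  have hH := hφ.toHom
  have hy : T.y ^ d.ℓ = aeval T.x (tp φ f) := by rw [hf, T.hy]
  obtain ⟨z2, U, hU, hψ⟩ := psiP_spec hφ hf T hζ hκ hb h0 h1 h2 h3
  rw [Ops.psiN, hH.tmul hy, sem_single d.prime.pos]
  generalize o.psiP d.ℓ d.n f ζ κ a b = Z at z2 hψ ⊢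
  have hU0 : U ≠ 0 := fun h => h0 (by rw [hψ, h, map_zero, zero_mul])
  have z1 : sem φ T.x T.y d.ℓ Z ≠ 0 := fun h => h0 (by rw [hψ, h, mul_zero])
  have hP : sem φ T.x T.y d.ℓ (o.tprod d.ℓ f ((List.range d.ℓ).map fun j =>
      o.ttau d.ℓ (o.pow ζ j) Z)) = T.pp (sem φ T.x T.y d.ℓ Z) d.ℓ := by
    rw [hH.tprod d.prime.pos hy, List.map_map, Curve.pp, ← List.prod_toFinset _ List.nodup_range,
      List.toFinset_range]
    refine prod_congr rfl fun j _ => ?_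
    exact hH.ttau ((T.τ ^ j : L ≃ₐ[𝕜] L) : L →ₐ[𝕜] L) _ (T.τ_pow_fixed T.τx j)
      (by rw [hH.pow, hζ]; exact T.τ_pow_eigen T.τy j) Z
  obtain ⟨N, hN⟩ := T.poly_of_fixed (T.τ_pp (sem φ T.x T.y d.ℓ Z)) fun q => by
    have hact : ∀ (t : ℕ) q, ∃ q', d.act^[t] (.inl q) = .inl q' := by
      intro t
      induction t with
      | zero => exact fun q => ⟨q, rfl⟩
      | succ t ih => exact fun q => ih _
    have := Curve.ge_prod (T := T) (P := .inl q) (range d.ℓ)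
      (fun t => (T.τ ^ t) (sem φ T.x T.y d.ℓ Z)) (fun _ => 0) fun t _ => by
        obtain ⟨q', hq'⟩ := hact t q
        rw [T.ge_τ_pow, hq']
        exact z2 q'
    simpa [Curve.pp] using this
  have hN' := T.indep_xy.comp0 d.prime.pos (hP.trans hN)
  have hN0 : N ≠ 0 := fun h => T.pp_ne z1 d.ℓ (by rw [hN, h, map_zero])
  have hE : U ^ d.ℓ * N = C c * tp φ H := by
    by_contra h5
    refine T.trans _ (sub_ne_zero.2 h5) ?_
    rw [hψ, T.pp_mul, T.pp_fixed (T.τ_aeval T.τx U), hN] at h4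
    rw [map_sub, map_mul, map_pow, h4, map_mul, aeval_C, Algebra.smul_def, sub_self]
  rw [← hN'] at hN0 hE
  obtain ⟨c', hc', h5⟩ := uPol_spec hφ d.ℓ_ne hc hU0 hU hN0 hE
  refine ⟨c', hc', ?_⟩
  rw [h5, hψ, map_mul, aeval_C, Algebra.smul_def, mul_assoc]

end Vale.Agent.P319
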