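import Vale.Agent.P319.StepB
import Vale.Agent.P319.StepC
import Vale.Agent.P319.StepD
import Vale.Agent.P319.StepE
import Vale.Agent.P319.Galois
import Vale.Agent.P319.Final
import Vale.Agent.P319.CurveEx
import Vale.Agent.P319.LoopA

/-! Some test element separates two roots. -/

namespace Vale.Agent.P319

open Polynomial Finset

/-- The invariant of the loop. -/
def lp_Inv {𝕜 L α : Type} [Field 𝕜] [Field L] [Algebra 𝕜 L] {d : Dat 𝕜} (T : Curve d L)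
    (φ : α → 𝕜) (k : ℕ) (G : List (List (List (List α)))) (ρ : List ℕ) (ψ : List (List α)) :
    Prop :=
  ∃ (D : Fin d.n → d.Pl → ℤ) (h : Fin d.n → 𝕜[X]) (δ : ℕ), lp_IG T φ k G D h ∧
    (∀ i, (h i).natDegree = δ) ∧
    T.Psi (sem φ T.x T.y d.ℓ ψ) D δ (fun a => (ρ.getD a 0 : ℤ)) ∧ ρ.length = d.ℓ ∧
    ∀ a, ρ.getD a 0 ≤ d.n

theorem lp_le_wW {n : ℕ} (hn : 0 < n) : n ≤ wW n ∧ 3 * (n * n) ≤ wW n ∧
    3 * (n * n) * n + n ≤ wW n := by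
  have h1 : n ≤ n * n := Nat.le_mul_of_pos_left n hn
  have h2 : n * n ≤ n * n * n := Nat.le_mul_of_pos_right _ hn
  have h3 : 3 * (n * n) * n = 3 * (n * n * n) := by ring
  unfold wW
  omega

theorem lp_bern {ℓ : ℕ} (hℓ : 0 < ℓ) (e : ℕ) : e * (ℓ - 1) + 1 ≤ ℓ ^ e := by
  obtain ⟨a, rfl⟩ : ∃ a, ℓ = a + 1 := ⟨ℓ - 1, by omega⟩
  induction e with
  | zero => simp
  | succ e ih =>
    rw [Nat.add_sub_cancel] at ih ⊢
    have h1 : a * 1 ≤ a * (a + 1) ^ e := Nat.mul_le_mul_left a (Nat.pow_pos hℓ)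
    have h2 : (a + 1) ^ (e + 1) = a * (a + 1) ^ e + (a + 1) ^ e := by ring
    have h3 : (e + 1) * a = e * a + a := by ring
    omega

section

variable {𝕜 L α : Type} [Field 𝕜] [IsAlgClosed 𝕜] [Field L] [Algebra 𝕜 L] {d : Dat 𝕜}
  {T : Curve d L} {o : Ops α} {φ : α → 𝕜} {f : List α} {Q N e : ℕ} {ζ w : α}
  {nz : List α → Bool} {k : ℕ} {G : List (List (List (List α)))} {D : Fin d.n → d.Pl → ℤ}
  {h : Fin d.n → 𝕜[X]} {δ : ℕ}

theorem lp_cN (C : lp_Ctx d o φ f Q N e ζ w nz) (I : lp_IG T φ k G D h)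
    (hδ : ∀ i, (h i).natDegree = δ) (hk : k + 1 ≤ e * (d.ℓ - 1)) (j : ℕ) :
    sem φ T.x T.y d.ℓ (o.cN nz Q d.ℓ f ζ w G j) =
      (∏ i, (T.x - algebraMap 𝕜 L (d.r i)) ^ (2 * wW d.n)) *
        ∏ i, lp_sm T φ i ((o.csA nz Q d.ℓ f ζ w G).getD j []) := by
  have hW := (lp_le_wW (lp_npos d)).1
  have hm : d.n / d.ℓ = d.m := by rw [d.hn]; exact Nat.mul_div_cancel_left _ d.prime.pos
  rw [Ops.cN, nrm_spec C.hφ.toFHom C.hf C.hl (fun k h0 hk => C.hc k h0 (hk.trans hW)), C.len, hm,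
    ← prod_mul_distrib]
  refine prod_congr rfl fun i _ => conv_spec (C.kA i).toFHom.toHom T (C.evθ i) fun b hb => ?_
  have h1 := (lp_cs C I hδ hk i).2 j b
  have h2 : d.m * b ≤ d.n := by
    rw [d.hn, mul_comm d.ℓ]; exact Nat.mul_le_mul_left _ hb.le
  omega

theorem lp_quot (C : lp_Ctx d o φ f Q N e ζ w nz) (I : lp_IG T φ k G D h)
    (hδ : ∀ i, (h i).natDegree = δ) (hk : k + 1 ≤ e * (d.ℓ - 1)) {ψ : List (List α)}
    (hψ : sem φ T.x T.y d.ℓ ψ ≠ 0) :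
    sem φ T.x T.y d.ℓ (o.numA nz Q d.ℓ f ζ w G ψ) ≠ 0 ∧
      sem φ T.x T.y d.ℓ (o.denA nz Q d.ℓ f ζ w G) ≠ 0 ∧
      sem φ T.x T.y d.ℓ (o.numA nz Q d.ℓ f ζ w G ψ) / sem φ T.x T.y d.ℓ (o.denA nz Q d.ℓ f ζ w G) =
        sem φ T.x T.y d.ℓ ψ / (T.y ^ δ * ∏ i, (lp_sm T φ i ((o.csA nz Q d.ℓ f ζ w G).getD 1 []) /
          lp_sm T φ i ((o.csA nz Q d.ℓ f ζ w G).getD 0 []))) := by
  have hH := C.hφ.toFHom.toHom
  have hY : T.y ^ d.ℓ = aeval T.x (tp φ f) := by rw [C.hf]; exact T.hy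
  have hW := (lp_le_wW (lp_npos d)).2.1
  have hd : δ ≤ wW d.n + 1 := by
    have := I.deg ⟨0, lp_npos d⟩
    rw [hδ] at this
    omega
  have hy : sem φ T.x T.y d.ℓ [[], [o.one]] = T.y := by
    rw [sem_pair d.prime.one_lt, tp_nil, tp_single, hH.one, map_zero, zero_add, C_1, map_one,
      one_mul]
  have hx : (∏ i, (T.x - algebraMap 𝕜 L (d.r i)) ^ (2 * wW d.n)) ≠ 0 :=
    prod_ne_zero_iff.2 fun i _ => pow_ne_zero _ (T.x_sub_ne _)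
  have h0 : (∏ i, lp_sm T φ i ((o.csA nz Q d.ℓ f ζ w G).getD 0 [])) ≠ 0 :=
    prod_ne_zero_iff.2 fun i _ => (lp_cs C I hδ hk i).1.1
  have h1 : (∏ i, lp_sm T φ i ((o.csA nz Q d.ℓ f ζ w G).getD 1 [])) ≠ 0 :=
    prod_ne_zero_iff.2 fun i _ => (lp_cs C I hδ hk i).1.2.1
  have hy0 := pow_ne_zero δ T.y_ne
  rw [Ops.numA, Ops.denA, hH.tmul hY, hH.tmul hY, lp_dl C I hδ, C.len,
    hH.tpow d.prime.pos hY hd, hy, lp_cN C I hδ hk, lp_cN C I hδ hk, prod_div_distrib]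
  refine ⟨mul_ne_zero hψ (mul_ne_zero hx h0), mul_ne_zero hy0 (mul_ne_zero hx h1), ?_⟩
  generalize (∏ i, (T.x - algebraMap 𝕜 L (d.r i)) ^ (2 * wW d.n)) = A at hx
  generalize (∏ i, lp_sm T φ i ((o.csA nz Q d.ℓ f ζ w G).getD 0 [])) = B at h0
  generalize (∏ i, lp_sm T φ i ((o.csA nz Q d.ℓ f ζ w G).getD 1 [])) = B' at h1
  generalize T.y ^ δ = Y at hy0
  field_simp

theorem lp_hN (C : lp_Ctx d o φ f Q N e ζ w nz) (I : lp_IG T φ k G D h)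
    (hδ : ∀ i, (h i).natDegree = δ) : aeval T.x (tp φ (o.hN nz Q d.ℓ f ζ G)) =
      ∏ i, ((T.x - algebraMap 𝕜 L (d.r i)) ^ δ * aeval (T.ξ i) (h i)) := by
  have hW := lp_le_wW (lp_npos d)
  have hd : δ ≤ wW d.n := by
    have := I.deg ⟨0, lp_npos d⟩
    rw [hδ] at this
    omega
  have h1 := nrm_spec C.hφ.toFHom C.hf C.hl (fun k h0 hk => C.hc k h0 (hk.trans hW.1)) T Q
    ((o.quot f Q).conv 1 0 δ [o.zero, o.one] [(o.quot f Q).hpol d.ℓ d.n (o.chartF Q f) [ζ] G])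
  have h2 : ∀ i, sem (lp_ev d φ i) T.x T.y d.ℓ ((o.quot f Q).conv 1 0 δ [o.zero, o.one]
      [(o.quot f Q).hpol d.ℓ d.n (o.chartF Q f) [ζ] G]) =
      (T.x - algebraMap 𝕜 L (d.r i)) ^ δ * aeval (T.ξ i) (h i) := fun i => by
    rw [conv_one (C.kA i).toFHom.toHom T (C.evθ i) (by rw [(lp_hpol C I i).1, hδ]),
      (lp_hpol C I i).1]
  obtain ⟨q, hq⟩ : ∃ q, (o.quot f Q).conv 1 0 δ [o.zero, o.one]
      [(o.quot f Q).hpol d.ℓ d.n (o.chartF Q f) [ζ] G] = [q] := ⟨_, rfl⟩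
  have h3 : sem φ T.x T.y d.ℓ (o.nrm Q d.ℓ f ((o.quot f Q).conv 1 0 δ [o.zero, o.one]
      [(o.quot f Q).hpol d.ℓ d.n (o.chartF Q f) [ζ] G])) =
      aeval T.x (∏ i, tp (lp_ev d φ i) q) := by
    rw [h1, map_prod, hq]
    exact prod_congr rfl fun i _ => sem_single d.prime.pos q
  rw [Ops.hN, lp_dl C I hδ, C.len, min_eq_left hd, T.indep_xy.comp0 d.prime.pos h3, ← h3, h1]
  exact prod_congr rfl fun i _ => h2 i

theorem lp_step (C : lp_Ctx d o φ f Q N e ζ w nz) {ρ : List ℕ} {ψ : List (List α)}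
    (J : lp_Inv T φ k G ρ ψ) (hk : k + 1 ≤ e * (d.ℓ - 1))
    (hu : ∀ a ∈ o.logA nz Q d.ℓ f ζ w G ρ ψ, lp_Uns d φ a) :
    lp_Inv T φ (k + 1) (o.nextG nz Q d.ℓ f ζ w G ρ) (rhoL d.ℓ d.n ρ)
      (o.nextP nz Q d.ℓ f ζ w G ρ ψ) := by
  obtain ⟨D, h, δ, I, hδ, hψ, hl, hb⟩ := J
  obtain ⟨μ0, hμ0, -⟩ := hψ.2
  obtain ⟨r1, r2, r3, -⟩ := rho_spec d.prime.pos d.ℓ_le_n ρ hl hb μ0 hμ0
  obtain ⟨E, h', hE, hγ, hv, I'⟩ := lp_next C I hδ hk r3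
  obtain ⟨δ', hδ'⟩ := lp_deg C I' fun a ha => hu a (List.mem_append_left _ ha)
  obtain ⟨ha, hb', hq⟩ := lp_quot C I hδ hk hψ.1
  obtain ⟨v0, κ, hκ, hv1⟩ := Curve.fin_val I.eff hE hγ hv hψ
  have hval := fun j => valA_spec C.hφ C.hf C.hl C.hr T ha hb' j (by rw [hq]; exact v0 j)
  rw [hq] at hval
  obtain ⟨c, hc, hcv⟩ := cands_spec C.hφ C.hf C.hl C.hr C.hQ C.hζ C.hw0 C.hw1 hκ
    (fun j => hv1 j _ (hval j)) fun a ha => hu a (List.mem_append_right _ ha)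
  have hK := toK_spec C.hφ.toFHom.toHom C.hf C.hl hcv
  obtain ⟨ψ', c', p1, p2, -, p4⟩ := Curve.fin_next I.eff hE hγ hv hψ
    (dd := fun a => ((dL d.ℓ d.n ρ).getD a 0 : ℤ)) (ρ' := fun a => ((rhoL d.ℓ d.n ρ).getD a 0 : ℤ))
    (fun μ hμ => (rho_spec d.prime.pos d.ℓ_le_n ρ hl hb μ hμ).2.2.2) I'.nrm hδ' (κ := c)
    fun j => hcv j ▸ hval j
  have hW : δ' * d.m + d.n ≤ wW d.n := by
    have a1 := I'.deg ⟨0, lp_npos d⟩
    rw [hδ'] at a1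
    have a2 : d.m ≤ d.n := by rw [d.hn]; exact Nat.le_mul_of_pos_left _ d.prime.pos
    have a3 := Nat.mul_le_mul a1 a2
    have a4 := (lp_le_wW (lp_npos d)).2.2
    omega
  obtain ⟨b1, b2⟩ := p1.bound I'.eff (fun a => Int.natCast_nonneg _)
    (fun a => by exact_mod_cast r2 a) hW
  obtain ⟨c'', hc'', hN⟩ := psiN_spec C.hφ.toFHom C.hf C.hc T C.hζ (by rw [hK]; exact hc) hb' p1.1
    b1 b2 (by rw [hK, hq]; exact p2) (H := o.hN nz Q d.ℓ f ζ (o.nextG nz Q d.ℓ f ζ w G ρ))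
    (c := c') (by rw [lp_hN C I' hδ']; exact p4)
  refine ⟨_, h', δ', I', hδ', ?_, r1, r2⟩
  rw [Ops.nextP, C.len, hN]
  exact p1.smul hc''

theorem lp_zero (C : lp_Ctx d o φ f Q N e ζ w nz) (T : Curve d L) :
    lp_Inv T φ 0 (o.init Q d.ℓ f ζ).1 (o.init Q d.ℓ f ζ).2.1 (o.init Q d.ℓ f ζ).2.2.1 := by
  have key : ∀ a, (o.init Q d.ℓ f ζ).2.1.getD a 0 = if a = 0 then d.n else 0 := by
    intro a
    have hp := d.prime.pos
    simp only [Ops.init, C.len, List.getD_eq_getElem?_getD, List.getElem?_map]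
    by_cases ha : a < d.ℓ
    · rw [List.getElem?_range ha]; rfl
    · rw [List.getElem?_eq_none (by simpa using ha), if_neg (by omega)]; rfl
  refine ⟨_, _, 1, lp_init C T, fun _ => natDegree_X, ?_, by simp [Ops.init], fun a => ?_⟩
  · have h1 : sem φ T.x T.y d.ℓ (o.init Q d.ℓ f ζ).2.2.1 = 1 := by
      rw [Ops.init, sem_single d.prime.pos, tp_single, C.hφ.one, C_1, map_one]
    have h2 : (fun a => ((o.init Q d.ℓ f ζ).2.1.getD a 0 : ℤ)) =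
        fun a => if a = 0 then (d.n : ℤ) else 0 := by
      funext a
      rw [key]
      split_ifs <;> rfl
    rw [h1, h2]
    exact T.psi_zero
  · rw [key]
    split_ifs
    · exact le_rfl
    · exact Nat.zero_le _

end

theorem lp_log_mono {α : Type} (o : Ops α) (nz : List α → Bool) (Q ℓ : ℕ) (f : List α) (ζ w : α)
    (s : List (List (List (List α))) × List ℕ × List (List α) × List (List α)) (t : ℕ) :
    ∀ a ∈ s.2.2.2, a ∈ ((o.step nz Q ℓ f ζ w)^[t] s).2.2.2 := by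
  induction t with
  | zero => exact fun a ha => ha
  | succ t ih =>
    intro a ha
    rw [Function.iterate_succ_apply']
    exact List.mem_append_left _ (ih a ha)

theorem logs_spec {𝕜 α : Type} [Field 𝕜] [IsAlgClosed 𝕜] (d : Dat 𝕜) {o : Ops α} {φ : α → 𝕜}
    {f : List α} {Q N e : ℕ} (hφ : KHom o φ Q) (hf : tp φ f = d.f) (hl : f.length = d.n + 1)
    (hc : ∀ k : ℕ, 0 < k → k ≤ wW d.n → (k : 𝕜) ≠ 0) (hs : ∀ c, d.s^[N] c = c ^ Q)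
    (h1 : d.ℓ ^ e ∣ d.n) (h2 : ¬d.ℓ ^ (e + 1) ∣ d.n) (hN : d.ℓ ^ e ∣ N) (hQ : d.ℓ ∣ Q - 1)
    {ζ w : α} (hζ : φ ζ = d.ζ) (hw0 : φ w ≠ 0) (hw1 : φ w ^ ((Q - 1) / d.ℓ) ≠ 1)
    {nz : List α → Bool} (hnz : ∀ a, nz a = false ↔ ∀ i, eval (d.r i) (tp φ a) = 0) :
    ∃ a ∈ o.logs nz Q d.ℓ f ζ w, ∃ i j, eval (d.r i) (tp φ a) = 0 ∧ eval (d.r j) (tp φ a) ≠ 0 := by
  have C : lp_Ctx d o φ f Q N e ζ w nz := ⟨hφ, hf, hl, hc, hs, hN, hQ, hζ, hw0, hw1, hnz⟩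
  by_contra hcon
  have hu : ∀ a ∈ o.logs nz Q d.ℓ f ζ w, lp_Uns d φ a := by
    intro a ha
    by_contra h'
    rw [lp_Uns, not_or, not_forall, not_forall] at h'
    obtain ⟨⟨j, hj⟩, i, hi⟩ := h'
    exact hcon ⟨a, ha, i, j, not_not.1 hi, hj⟩
  obtain ⟨L, _, _, ⟨T⟩⟩ := exists_curve d
  rw [Ops.logs, List.foldl_const, List.length_range, C.len] at hu
  have hv : e * (d.ℓ - 1) ≤ d.n :=
    le_trans (Nat.le_succ _) ((lp_bern d.prime.pos e).trans (Nat.le_of_dvd (lp_npos d) h1))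
  obtain ⟨S, hS⟩ : ∃ S, S = fun t => (o.step nz Q d.ℓ f ζ w)^[t] (o.init Q d.ℓ f ζ) := ⟨_, rfl⟩
  have hS1 : ∀ t, S (t + 1) = o.step nz Q d.ℓ f ζ w (S t) := fun t => by
    rw [hS]; exact Function.iterate_succ_apply' _ _ _
  have hS0 : S 0 = o.init Q d.ℓ f ζ := by rw [hS]; rfl
  have hρ : ∀ t, (S (t + 1)).2.1 = rhoL d.ℓ d.n (S t).2.1 := fun t => by
    rw [hS1, ← C.len]; rfl
  have hlog : ∀ t < d.n, ∀ a ∈ o.logA nz Q d.ℓ f ζ w (S t).1 (S t).2.1 (S t).2.2.1,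
      lp_Uns d φ a := by
    intro t ht a ha
    refine hu a ?_
    obtain ⟨u, hu'⟩ : ∃ u, d.n = u + (t + 1) := ⟨d.n - (t + 1), by omega⟩
    have e1 : (o.step nz Q d.ℓ f ζ w)^[d.n] (o.init Q d.ℓ f ζ) =
        (o.step nz Q d.ℓ f ζ w)^[u] (S (t + 1)) := by
      rw [hS, ← Function.iterate_add_apply, ← hu']
    rw [e1]
    refine lp_log_mono o nz Q d.ℓ f ζ w _ u a ?_
    rw [hS1]
    exact List.mem_append_right _ ha
  have hI : ∀ t ≤ e * (d.ℓ - 1), lp_Inv T φ t (S t).1 (S t).2.1 (S t).2.2.1 := by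
    intro t
    induction t with
    | zero => intro _; rw [hS0]; exact lp_zero C T
    | succ t ih =>
      intro ht
      have := lp_step C (ih (by omega)) ht (hlog t (by omega))
      rw [hρ, hS1]
      exact this
  have hμ : ∀ t, ∃ μ : ℤ, t ≤ e * (d.ℓ - 1) →
      d.ℓ * μ = ∑ a ∈ range d.ℓ, ((S t).2.1.getD a 0 : ℤ) := by
    intro t
    by_cases ht : t ≤ e * (d.ℓ - 1)
    · obtain ⟨D, h, δ, -, -, ⟨-, μ, hμ, -⟩, -⟩ := hI t ht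
      exact ⟨μ, fun _ => hμ⟩
    · exact ⟨0, fun h => absurd h ht⟩
  choose μ hμ using hμ
  refine int_lemma d.prime h1 h2 (fun t a => ((S t).2.1.getD a 0 : ℤ))
    (fun t a => ((dL d.ℓ d.n (S t).2.1).getD a 0 : ℤ)) μ (fun a ha => ?_) (fun t ht => ?_)
    ⟨μ _, (hμ _ le_rfl).symm⟩
  · simp only [hS0, Ops.init, C.len, List.getD_eq_getElem?_getD, List.getElem?_map,
      List.getElem?_range ha]
    split_ifs with h0 <;> simp [h0]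
  · obtain ⟨D, h, δ, -, -, -, a1, a2⟩ := hI t ht.le
    simp only [hρ]
    exact (rho_spec d.prime.pos d.ℓ_le_n _ a1 a2 (μ t) (hμ t ht.le)).2.2.2

end Vale.Agent.P319
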