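import Vale.Agent.P319.Field2
import Vale.Agent.P319.Loop

/-! The splitting routine finds a proper factor. -/

namespace Vale.Agent.P319

open Polynomial Finset

variable {p : ℕ} [Fact p.Prime]

theorem f3_aeval {𝕜 : Type} [Field 𝕜] [Algebra (ZMod p) 𝕜] (x : 𝕜) (l : List ℕ) :
    aeval x (tz p l) = eval x (tp (Nat.cast : ℕ → 𝕜) l) := by
  have h1 := tp_comp (φ := (Nat.cast : ℕ → ZMod p)) (algebraMap (ZMod p) 𝕜) l
  have h2 : (fun a : ℕ => algebraMap (ZMod p) 𝕜 (a : ZMod p)) = (Nat.cast : ℕ → 𝕜) := by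
    funext a
    exact map_natCast _ a
  rw [h2] at h1
  rw [h1, eval_map_algebraMap]

theorem f3_roots {𝕜 : Type} [Field 𝕜] [IsAlgClosed 𝕜] [Algebra (ZMod p) 𝕜] {q : (ZMod p)[X]}
    (hm : q.Monic) (h1 : q ∣ X ^ p - X) :
    ∃ r : Fin q.natDegree → 𝕜, Function.Injective r ∧ (∀ i, r i ^ p = r i) ∧
      q.map (algebraMap (ZMod p) 𝕜) = ∏ i, (X - C (r i)) := by
  classical
  have hsep : (X ^ p - X : (ZMod p)[X]).Separable := galois_poly_separable p p dvd_rfl
  have hs : (q.map (algebraMap (ZMod p) 𝕜)).Separable := (hsep.of_dvd h1).map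
  have hnd : (q.map (algebraMap (ZMod p) 𝕜)).roots.Nodup := nodup_roots hs
  have hcard : (q.map (algebraMap (ZMod p) 𝕜)).roots.card =
      (q.map (algebraMap (ZMod p) 𝕜)).natDegree := IsAlgClosed.card_roots_eq_natDegree
  have hS : (q.map (algebraMap (ZMod p) 𝕜)).roots.toFinset.card = q.natDegree := by
    rw [Multiset.toFinset_card_of_nodup hnd, hcard, natDegree_map]
  let e := Finset.equivFinOfCardEq hS
  refine ⟨fun i => (e.symm i : 𝕜), fun i j hij => e.symm.injective (Subtype.ext hij), ?_, ?_⟩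
  · intro i
    have h2 := (e.symm i).2
    rw [Multiset.mem_toFinset, mem_roots (hm.map _).ne_zero, IsRoot.def, eval_map_algebraMap] at h2
    have h3 := aeval_eq_zero_of_dvd_aeval_eq_zero h1 h2
    rw [map_sub, map_pow, aeval_X, sub_eq_zero] at h3
    exact h3
  · rw [Equiv.prod_comp e.symm (fun a => X - C (a : 𝕜)),
      Finset.prod_coe_sort _ (fun a : 𝕜 => X - C a), Finset.prod_eq_multiset_prod,
      Multiset.toFinset_val, hnd.dedup]
    exact (prod_multiset_X_sub_C_of_monic_of_roots_card_eq (hm.map _) hcard).symm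

omit [Fact p.Prime] in
theorem f3_fix {𝕜 : Type} [Field 𝕜] {x : 𝕜} (hx : x ^ p = x) (e : ℕ) : x ^ p ^ e = x := by
  induction e with
  | zero => simp
  | succ e ih => rw [pow_succ, pow_mul, ih, hx]

theorem f3_iter {𝕜 : Type} [Field 𝕜] [CharP 𝕜 p] [PerfectRing 𝕜 p] (e N : ℕ) (c : 𝕜) :
    (iterateFrobeniusEquiv 𝕜 p e)^[N] c = c ^ p ^ (e * N) := by
  induction N with
  | zero => simp
  | succ N ih =>
    rw [Function.iterate_succ_apply', ih, iterateFrobeniusEquiv_def, ← pow_mul, ← pow_add,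
      mul_add, mul_one]

theorem f3_gcd {𝕜 : Type} [Field 𝕜] [Algebra (ZMod p) 𝕜] {f c : List ℕ} {q : (ZMod p)[X]}
    (hf : Can p f q) {x y : 𝕜} (hx : aeval x q = 0) (hy : aeval y q = 0)
    (hx' : aeval x (tz p c) = 0) (hy' : aeval y (tz p c) ≠ 0) :
    1 < (pgcd p f c).length ∧ (pgcd p f c).length < f.length := by
  have hq : tz p f ≠ 0 := by rw [hf.1]; exact hf.2.1.ne_zero
  obtain ⟨u, hu, hd⟩ := pgcd_spec hq c
  rw [hf.1] at hd
  have hint : IsIntegral (ZMod p) x := ⟨q, hf.2.1, by rw [← aeval_def]; exact hx⟩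
  have h1 : minpoly (ZMod p) x ∣ u :=
    (hd _).2 ⟨minpoly.dvd _ _ hx, minpoly.dvd _ _ hx'⟩
  have h2 := natDegree_le_of_dvd h1 hu.2.1.ne_zero
  have h3 := minpoly.natDegree_pos hint
  have h4 := (hd u).1 dvd_rfl
  rw [hu.2.2, hf.2.2]
  refine ⟨by omega, ?_⟩
  by_contra h5
  have h6 : q = u := eq_of_monic_of_dvd_of_natDegree_le hu.2.1 hf.2.1 h4.1 (by omega)
  exact hy' (aeval_eq_zero_of_dvd_aeval_eq_zero h4.2 (h6 ▸ hy))

theorem f3_le_wW (n : ℕ) : n ≤ wW n := by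
  unfold wW
  rcases Nat.eq_zero_or_pos n with rfl | h
  · simp
  · have h1 : n ≤ n * n := Nat.le_mul_of_pos_left n h
    have h2 : n * n ≤ n * n * n := Nat.le_mul_of_pos_right _ h
    omega

theorem f3_wW_mono {n N : ℕ} (h : n ≤ N) : wW n ≤ wW N := by
  unfold wW
  gcongr

theorem splitG_spec {g h f : List ℕ} {gq hq q : (ZMod p)[X]} (hg : Can p g gq) (hh : Can p h hq)
    (hg' : Irreducible gq) (hh' : Irreducible hq) (hf : Can p f q) (h1 : q ∣ X ^ p - X)
    {ℓ s : ℕ} (hℓ : ℓ.Prime) (hs : 0 < s) (h2 : ℓ ^ s ∣ q.natDegree)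
    (h3 : ¬ℓ ^ (s + 1) ∣ q.natDegree) (hp : wW q.natDegree < p) (hD : gq.natDegree = ℓ * ℓ ^ s)
    (h4 : hq ∣ ∑ i ∈ range ℓ, X ^ i) :
    ∃ u, Can p (splitG p ℓ g h f) u ∧ u ∣ q ∧ 0 < u.natDegree ∧ u.natDegree < q.natDegree := by
  classical
  let 𝕜 := AlgebraicClosure (ZMod p)
  have hn : 0 < q.natDegree := by
    rcases Nat.eq_zero_or_pos q.natDegree with h0 | h0
    · exact absurd (h0 ▸ dvd_zero _) h3
    · exact h0
  have hℓn : ℓ ∣ q.natDegree := (dvd_pow_self ℓ hs.ne').trans h2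
  have hc : ∀ k : ℕ, 0 < k → k ≤ wW q.natDegree → (k : 𝕜) ≠ 0 := by
    intro k hk hk' h0
    rw [CharP.cast_eq_zero_iff 𝕜 p] at h0
    have := Nat.le_of_dvd hk h0
    omega
  have he0 : 0 < hq.natDegree := hh'.natDegree_pos
  have hD0 : 0 < gq.natDegree := hg'.natDegree_pos
  obtain ⟨α, hα⟩ := IsAlgClosed.exists_aeval_eq_zero 𝕜 gq (natDegree_pos_iff_degree_pos.1 hD0).ne'
  obtain ⟨ζ, hζ⟩ := IsAlgClosed.exists_aeval_eq_zero 𝕜 hq (natDegree_pos_iff_degree_pos.1 he0).ne'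
  have hsum : ∑ i ∈ range ℓ, ζ ^ i = 0 := by
    have := aeval_eq_zero_of_dvd_aeval_eq_zero h4 hζ
    simpa [map_sum] using this
  have hζ1 : ζ ^ ℓ = 1 := by
    have := mul_geom_sum ζ ℓ
    rw [hsum, mul_zero] at this
    exact (sub_eq_zero.1 this.symm)
  have hζ2 : ζ ≠ 1 := by
    intro h0
    rw [h0] at hsum
    simp only [one_pow, sum_const, card_range, nsmul_eq_mul, mul_one] at hsum
    exact hc ℓ hℓ.pos ((Nat.le_of_dvd hn hℓn).trans (f3_le_wW _)) hsum
  have hz : IsPrimitiveRoot ζ ℓ := by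
    have := Fact.mk hℓ
    have h5 : orderOf ζ = ℓ := orderOf_eq_prime hζ1 hζ2
    rw [← h5]
    exact IsPrimitiveRoot.orderOf ζ
  have he : hq.natDegree < ℓ := by
    obtain ⟨h5, h6⟩ := can_replicate (p := p) hℓ.pos
    have h7 := natDegree_le_of_dvd h4 h5.2.1.ne_zero
    have := hℓ.pos
    omega
  have hcop : Nat.Coprime gq.natDegree hq.natDegree := by
    rw [hD, ← pow_succ']
    exact Nat.Coprime.pow_left _ ((Nat.coprime_of_lt_prime he0.ne' he hℓ))
  have hK := khom_oK (𝕜 := 𝕜) (k := hq.natDegree * gq.natDegree) hg hh hα hζ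
    (Nat.mul_pos he0 hD0) ((pow_card_root hg' hα _).2 (dvd_mul_left _ _))
    ((pow_card_root hh' hζ _).2 (dvd_mul_right _ _))
  obtain ⟨r, hr, hrp, hrq⟩ := f3_roots (𝕜 := 𝕜) hf.2.1 h1
  have hft : tp (Nat.cast : ℕ → 𝕜) f = ∏ i, (X - C (r i)) := by rw [(hf.map (R := 𝕜)).1, hrq]
  have hroot : ∀ i, aeval (r i) q = 0 := by
    intro i
    rw [← eval_map_algebraMap, hrq, eval_prod]
    exact prod_eq_zero (mem_univ i) (by simp)
  let d : Dat 𝕜 :=
    { ℓ := ℓ
      m := q.natDegree / ℓ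
      n := q.natDegree
      prime := hℓ
      mpos := Nat.div_pos (Nat.le_of_dvd hn hℓn) hℓ.pos
      hn := (Nat.mul_div_cancel' hℓn).symm
      ζ := ζ
      prim := hz
      r := r
      inj := hr
      s := iterateFrobeniusEquiv 𝕜 p hq.natDegree
      sζ := by
        rw [iterateFrobeniusEquiv_def]
        exact (pow_card_root hh' hζ _).2 dvd_rfl
      sr := fun i => by
        rw [iterateFrobeniusEquiv_def]
        exact f3_fix (hrp i) _ }
  obtain ⟨hQ, hw0, hw1⟩ := nonres_spec hg hh hg' hh' hα hζ hℓ hs hD he hz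
  have hcls := cls_spec hg hh hg' hh' hα hζ hcop hn r hr hrp hft hf.2.2
  obtain ⟨a, ha, i, j, hi, hj⟩ := logs_spec d (f := f.map fun c => [[c]]) (N := gq.natDegree)
    (e := s) hK (by rw [tp_phiK, hft]; rfl) (by rw [List.length_map]; exact hf.2.2) hc
    (f3_iter _ _) h2 h3 (by rw [hD]; exact dvd_mul_left _ _) hQ (phiK_ζ α ζ) hw0 hw1
    (fun a => (hcls a).2)
  have hlen := f3_gcd (c := cls p (p ^ (hq.natDegree * gq.natDegree)) g h f a) hf (hroot i)
    (hroot j) (by rw [f3_aeval, (hcls a).1, if_pos hi])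
    (by rw [f3_aeval, (hcls a).1, if_neg hj]; exact one_ne_zero)
  have hgl : g.length - 1 = gq.natDegree := by rw [hg.2.2]; rfl
  have hhl : h.length - 1 = hq.natDegree := by rw [hh.2.2]; rfl
  unfold splitG splitK
  rw [hgl, hhl]
  obtain ⟨hm, hl1, hl2⟩ := pick_spec (f := f) ⟨_, List.mem_map_of_mem
    (f := fun a => pgcd p f (cls p (p ^ (hq.natDegree * gq.natDegree)) g h f a)) ha, hlen⟩
  obtain ⟨b, -, hb⟩ := List.mem_map.1 hm
  have hq0 : tz p f ≠ 0 := by rw [hf.1]; exact hf.2.1.ne_zero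
  obtain ⟨u, hu, hd⟩ := pgcd_spec hq0 (cls p (p ^ (hq.natDegree * gq.natDegree)) g h f b)
  rw [hb] at hu
  have h5 := hu.2.2
  have h6 := hf.2.2
  refine ⟨u, hu, ?_, by omega, by omega⟩
  rw [← hf.1]
  exact ((hd u).1 dvd_rfl).1

omit [Fact p.Prime] in
theorem f3_lpf {f : List ℕ} {n : ℕ} (hl : f.length = n + 1) (hn : 2 ≤ n) : lpf f = n.minFac := by
  have hpr : n.minFac.Prime := Nat.minFac_prime (by omega)
  have hle : n.minFac ≤ n := Nat.minFac_le (by omega)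
  have h1 : ((List.range f.length).find? fun d => decide (2 ≤ d ∧ (f.length - 1) % d = 0)) =
      some n.minFac := by
    rw [List.find?_range_eq_some, hl, Nat.add_sub_cancel]
    refine ⟨?_, ?_, ?_⟩
    · exact decide_eq_true ⟨hpr.two_le, Nat.mod_eq_zero_of_dvd n.minFac_dvd⟩
    · rw [List.mem_range]
      omega
    · intro j hj
      rw [Bool.not_eq_true', decide_eq_false_iff_not]
      rintro ⟨h2, h3⟩
      have := Nat.minFac_le_of_dvd h2 (Nat.dvd_of_mod_eq_zero h3)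
      omega
  unfold lpf
  rw [h1, Option.getD_some, hl]
  omega

theorem split_ok {N M : ℕ} {adv tab : List (List ℕ)} (ha : AdvOK p N adv) (ht : TabOK p N tab M)
    (hM : M ≤ N) : SplitOK p N adv tab M := by
  intro hp f q hf h1 h2 h3
  have hl := hf.2.2
  have hℓ : q.natDegree.minFac.Prime := Nat.minFac_prime (by omega)
  have hle : q.natDegree.minFac ≤ q.natDegree := Nat.minFac_le (by omega)
  have hdv : q.natDegree.minFac ∣ q.natDegree := q.natDegree.minFac_dvd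
  unfold split
  rw [f3_lpf hl h2, hl, Nat.add_sub_cancel]
  generalize q.natDegree.minFac = ℓ at hℓ hle hdv
  obtain ⟨hc, b, hb⟩ := cof_spec (Q := q.natDegree + 1) hℓ (by omega)
  rw [Nat.add_sub_cancel] at hb
  generalize Ops.cof ℓ (q.natDegree + 1) = m at hc hb
  have hm : 0 < m := Nat.pos_of_ne_zero fun h0 => hc (h0 ▸ dvd_zero _)
  have hb0 : 0 < b := by
    rcases Nat.eq_zero_or_pos b with rfl | h0
    · rw [pow_zero, one_mul] at hb
      exact absurd (hb ▸ hdv) hc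
    · exact h0
  have hdiv : q.natDegree / m = ℓ ^ b := by rw [hb, Nat.mul_div_cancel _ hm]
  have hpb : ℓ ^ b ≤ q.natDegree := by
    rw [← hdiv]
    exact Nat.div_le_self _ _
  rw [hdiv]
  have hpp : IsPrimePow (ℓ * ℓ ^ b) := by
    rw [← pow_succ']
    exact hℓ.isPrimePow.pow (Nat.succ_ne_zero b)
  obtain ⟨hi, hdeg⟩ := ha hp _ hpp (Nat.mul_le_mul (by omega) (by omega))
  obtain ⟨hq, hh, hh', h4⟩ := ht hp ℓ hℓ (by omega)
  have hlc : (tz p (adv.getD (ℓ * ℓ ^ b) [])).leadingCoeff⁻¹ ≠ 0 :=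
    inv_ne_zero (leadingCoeff_ne_zero.2 hi.ne_zero)
  refine splitG_spec (can_mon hi.ne_zero) hh ?_ hh' hf h1 hℓ hb0 ⟨m, hb⟩ ?_
    ((f3_wW_mono (h3.trans hM)).trans_lt hp) ?_ h4
  · exact (irreducible_isUnit_mul (isUnit_C.2 hlc.isUnit)).2 hi
  · intro h5
    rw [hb, pow_succ] at h5
    exact hc (Nat.dvd_of_mul_dvd_mul_left (pow_pos hℓ.pos b) h5)
  · rw [natDegree_C_mul hlc, hdeg]

end Vale.Agent.P319
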