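import Vale.Agent.P319.Basis

/-! Fractional ideals of a chart: approximation, reduced bases, norms. -/

namespace Vale.Agent.P319.Curve

open Polynomial Finset

variable {𝕜 L : Type} [Field 𝕜] [IsAlgClosed 𝕜] [Field L] [Algebra 𝕜 L] {d : Dat 𝕜}
  {T : Curve d L} {i : Fin d.n} {D D' : d.Pl → ℤ}

omit [IsAlgClosed 𝕜] in
theorem id1_sep (T : Curve d L) {P : d.Pl} (hP : P ≠ d.ram i) (E : d.Pl → ℤ) (S : Finset d.Pl)
    (hS : ∀ Q ∈ S, Q ≠ d.ram i ∧ Q ≠ P) :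
    ∃ t, t ≠ 0 ∧ T.Md i 0 t ∧ T.v P t = 0 ∧ ∀ Q ∈ S, E Q ≤ T.v Q t := by
  classical
  induction S using Finset.induction_on with
  | empty => exact ⟨1, one_ne_zero, fun Q _ => Or.inr (by rw [v_one]; rfl), v_one, by simp⟩
  | insert Q S _ ih =>
    obtain ⟨t, ht, h1, h2, h3⟩ := ih fun R hR => hS R (mem_insert_of_mem hR)
    obtain ⟨hQ, hQP⟩ := hS Q (mem_insert_self _ _)
    obtain ⟨s, hs, g1, g2, g3⟩ := T.exists_sep hP hQ hQP.symm
    have hsp : s ^ (E Q).toNat ≠ 0 := pow_ne_zero _ hs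
    have hv : ∀ R, T.v R (t * s ^ (E Q).toNat) = T.v R t + (E Q).toNat * T.v R s := fun R => by
      rw [T.v_mul R _ _ ht hsp, v_pow hs]
    have hn : ∀ R, R ≠ d.ram i → 0 ≤ T.v R t ∧ 0 ≤ T.v R s := fun R hR =>
      ⟨(ge_iff ht).1 (h1 R hR), (ge_iff hs).1 (g1 R hR)⟩
    refine ⟨t * s ^ (E Q).toNat, mul_ne_zero ht hsp, fun R hR => Or.inr ?_, ?_, fun R hR => ?_⟩
    · rw [hv]
      have := hn R hR
      exact add_nonneg this.1 (mul_nonneg (Int.natCast_nonneg _) this.2)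
    · rw [hv, h2, g2, mul_zero, add_zero]
    · rw [hv]
      rcases mem_insert.1 hR with rfl | hR'
      · have h4 := (hn R hQ).1
        have h5 := Int.self_le_toNat (E R)
        have h6 := mul_le_mul_of_nonneg_left g3 (Int.natCast_nonneg (E R).toNat)
        linarith
      · have h4 := mul_nonneg (Int.natCast_nonneg (E Q).toNat) (hn R (hS R hR).1).2
        have h5 := h3 R hR'
        linarith

omit [IsAlgClosed 𝕜] in
theorem id1_part_ram (D : d.Pl → ℤ) (j : Fin d.n) :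
    d.part D d.ℓ (d.ram j) = d.ℓ * D (d.ram j) := by
  simp [Dat.part, d.act_iter_ram]

omit [IsAlgClosed 𝕜] in
theorem id1_part_mono {D : d.Pl → ℤ} (h0 : ∀ P, 0 ≤ D P) {j k : ℕ} (h : j ≤ k) (P : d.Pl) :
    d.part D j P ≤ d.part D k P :=
  sum_le_sum_of_subset_of_nonneg (range_mono h) fun _ _ _ => h0 _

omit [IsAlgClosed 𝕜] in
theorem id1_le_part {D : d.Pl → ℤ} (h0 : ∀ P, 0 ≤ D P) (P : d.Pl) : D P ≤ d.part D d.ℓ P := by
  have h := id1_part_mono h0 (d.prime.one_le) P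
  simpa [Dat.part] using h

omit [IsAlgClosed 𝕜] in
theorem id1_fs_max (h : d.FS D) : d.FS fun P => max (D P) 0 := by
  refine Set.Finite.subset h fun P hP h' => hP ?_
  simp only [h', max_self]

theorem id1_norm (h0 : ∀ P, 0 ≤ D P) {u : L} (hu : u ≠ 0) (h1 : T.Md i D u) :
    ∃ q : 𝕜[X], q ≠ 0 ∧ T.pp u d.ℓ = aeval (T.ξ i) q ∧
      T.Md i (d.part D d.ℓ) (aeval (T.ξ i) q) := by
  have h2 : T.Md i (d.part D d.ℓ) (T.pp u d.ℓ) := fun P hP => Or.inr (by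
    rw [T.v_pp hu]
    exact sum_le_sum fun t _ => (ge_iff hu).1 (h1 _ (d.act_iter_ne hP t)))
  have h3 : T.Md i 0 (T.pp u d.ℓ) := fun P hP =>
    (h2 P hP).mono ((h0 P).trans (id1_le_part h0 P))
  obtain ⟨q, hq⟩ := T.poly_of_fixed_chart i (T.τ_pp u) h3
  refine ⟨q, fun h => T.pp_ne hu d.ℓ ?_, hq, hq ▸ h2⟩
  rw [hq, h, map_zero]

omit [IsAlgClosed 𝕜] in
theorem id1_rm_nonneg (P : d.Pl) : 0 ≤ d.Rm P := by
  rcases d.rm_cases P with ⟨j, rfl⟩ | h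
  · rw [d.rm_ram]; exact zero_le_one
  · exact h.ge

omit [IsAlgClosed 𝕜] in
theorem id1_eta {u : L} (hu : u ≠ 0) (h1 : T.Md i D u) (b : ℕ) :
    u * T.η i ^ b ≠ 0 ∧ T.Md i D (u * T.η i ^ b) ∧
      T.v (d.ram i) (u * T.η i ^ b) = T.v (d.ram i) u - b * ((d.n - 1 : ℕ) : ℤ) ∧
      T.v (d.ram i) (u * T.η i ^ b) ≡ T.v (d.ram i) u + b [ZMOD d.ℓ] := by
  have hη := pow_ne_zero b (T.η_ne i)
  have hv : T.v (d.ram i) (u * T.η i ^ b) = T.v (d.ram i) u - b * ((d.n - 1 : ℕ) : ℤ) := by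
    rw [T.v_mul _ _ _ hu hη, v_pow (T.η_ne i), T.v_η_self]
    ring
  refine ⟨mul_ne_zero hu hη, fun P hP => Or.inr ?_, hv, ?_⟩
  · rw [T.v_mul _ _ _ hu hη, v_pow (T.η_ne i), T.v_η hP]
    have h2 := (ge_iff hu).1 (h1 P hP)
    have h3 := mul_nonneg (Int.natCast_nonneg b) (id1_rm_nonneg P)
    linarith
  · have hn : 1 ≤ d.n := d.prime.one_le.trans d.ℓ_le_n
    have hn' : (d.n : ℤ) = d.ℓ * d.m := by exact_mod_cast d.hn
    rw [hv, Nat.cast_sub hn, hn']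
    refine (Int.modEq_iff_dvd.2 ⟨b * d.m, ?_⟩)
    push_cast
    ring

omit [IsAlgClosed 𝕜] in
theorem id1_res (a : ℤ) : ∃ b < d.ℓ, (b : ℤ) ≡ a [ZMOD d.ℓ] := by
  have hl : (0 : ℤ) < d.ℓ := by exact_mod_cast d.prime.pos
  have h1 := Int.emod_nonneg a hl.ne'
  have h2 := Int.emod_lt_of_pos a hl
  refine ⟨(a % d.ℓ).toNat, by omega, ?_⟩
  rw [Int.toNat_of_nonneg h1]
  exact Int.mod_modEq _ _

theorem att (T : Curve d L) (h : d.FS D) {P : d.Pl} (hP : P ≠ d.ram i) :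
    ∃ z, z ≠ 0 ∧ T.Md i D z ∧ T.v P z = D P := by
  classical
  obtain ⟨t, ht, hv⟩ := T.exists_unif P
  have hz : t ^ D P ≠ 0 := zpow_ne_zero _ ht
  have hz0 : T.v P (t ^ D P) = D P := by rw [v_zpow ht, hv, mul_one]
  have hf : d.FS (D - fun Q => T.v Q (t ^ D P)) := h.sub (T.fs_v hz)
  obtain ⟨s, hs, h1, h2, h3⟩ := id1_sep T hP (fun Q => D Q - T.v Q (t ^ D P))
    (hf.toFinset.filter fun Q => Q ≠ d.ram i ∧ Q ≠ P) fun Q hQ => (mem_filter.1 hQ).2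
  refine ⟨t ^ D P * s, mul_ne_zero hz hs, fun Q hQ => Or.inr ?_, ?_⟩
  · rw [T.v_mul _ _ _ hz hs]
    by_cases hQP : Q = P
    · rw [hQP, hz0, h2, add_zero]
    · by_cases hQf : D Q - T.v Q (t ^ D P) = 0
      · have h4 : (0 : ℤ) ≤ T.v Q s := (ge_iff hs).1 (h1 Q hQ)
        linarith
      · have h4 := h3 Q (mem_filter.2 ⟨hf.mem_toFinset.2 hQf, hQ, hQP⟩)
        linarith
  · rw [T.v_mul _ _ _ hz hs, hz0, h2, add_zero]

/-- A polynomial in the ideal that does not vanish at a given branch point. -/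
theorem exists_poly_md (T : Curve d L) (h : d.FS D) {j : Fin d.n} (hj : j ≠ i)
    (h0 : D (d.ram j) ≤ 0) : ∃ g : 𝕜[X], g.eval (d.rt i j) ≠ 0 ∧ T.Md i D (aeval (T.ξ i) g) := by
  have hji : d.ram j ≠ d.ram i := fun e => hj (d.ram_inj e)
  obtain ⟨z, hz, h1, h2⟩ := att T (id1_fs_max h) hji
  obtain ⟨q, hq, h3, h4⟩ := id1_norm (fun P => le_max_right _ _) hz h1
  refine ⟨q, fun he => ?_, fun P hP => (h4 P hP).mono
    ((le_max_left _ _).trans (id1_le_part (D := fun P => max (D P) 0)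
      (fun P => le_max_right _ _) P))⟩
  have h5 := (ge_iff (T.aeval_ξ_ne i hq).1).1 (T.ge_aeval_ram hj he)
  rw [← h3, T.v_pp hz, id1_part_ram, h2, max_eq_right h0, mul_zero] at h5
  have := d.prime.pos
  omega

theorem bdd_deg (T : Curve d L) (i : Fin d.n) (h : d.FS D) :
    ∃ B : ℤ, ∀ z, z ≠ 0 → T.Md i D z → T.v (d.ram i) z ≤ B := by
  have hP : (Sum.inr 0 : d.Pl) ≠ d.ram i := Sum.inr_ne_inl
  obtain ⟨w, hw, h1, -⟩ := att T (h.smul (-1)) hP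
  refine ⟨-T.v (d.ram i) w, fun z hz h2 => ?_⟩
  by_contra hlt
  refine mul_ne_zero hz hw (T.eq_zero_of_dle i (k := -1) (fun P hP => ?_) (by norm_num) ?_)
  · have h3 := (h2 P hP).mul (h1 P hP)
    simpa using h3
  · refine Or.inr ?_
    rw [T.v_mul _ _ _ hz hw]
    omega

theorem red_basis (T : Curve d L) (i : Fin d.n) (h : d.FS D) : ∃ e : ℕ → L,
    (∀ ρ < d.ℓ, e ρ ≠ 0 ∧ T.Md i D (e ρ) ∧ T.v (d.ram i) (e ρ) ≡ ρ [ZMOD d.ℓ] ∧
      ∀ z, z ≠ 0 → T.Md i D z → T.v (d.ram i) z ≡ ρ [ZMOD d.ℓ] →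
        T.v (d.ram i) z ≤ T.v (d.ram i) (e ρ)) ∧
    ∀ z, T.Md i D z → ∃ c : ℕ → 𝕜[X], z = ∑ ρ ∈ range d.ℓ, aeval (T.ξ i) (c ρ) * e ρ := by
  classical
  obtain ⟨B, hB⟩ := bdd_deg T i h
  have hP : (Sum.inr 0 : d.Pl) ≠ d.ram i := Sum.inr_ne_inl
  obtain ⟨u, hu, hu1, -⟩ := att T h hP
  have hex : ∀ ρ : ℕ, ∃ e : L, e ≠ 0 ∧ T.Md i D e ∧ T.v (d.ram i) e ≡ ρ [ZMOD d.ℓ] ∧
      ∀ z, z ≠ 0 → T.Md i D z → T.v (d.ram i) z ≡ ρ [ZMOD d.ℓ] →
        T.v (d.ram i) z ≤ T.v (d.ram i) e := by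
    intro ρ
    obtain ⟨b, -, hb⟩ := id1_res (d := d) (ρ - T.v (d.ram i) u)
    obtain ⟨g1, g2, -, g4⟩ := id1_eta hu hu1 b
    obtain ⟨k, ⟨e, he, h1, h2, rfl⟩, hk⟩ := Int.exists_greatest_of_bdd
      (P := fun k => ∃ z, z ≠ 0 ∧ T.Md i D z ∧ T.v (d.ram i) z ≡ ρ [ZMOD d.ℓ] ∧
        T.v (d.ram i) z = k)
      ⟨B, fun k ⟨z, hz, h1, _, hk⟩ => hk ▸ hB z hz h1⟩
      ⟨_, _, g1, g2, g4.trans (by simpa using hb.add_left (T.v (d.ram i) u)), rfl⟩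
    exact ⟨e, he, h1, h2, fun z hz h3 h4 => hk _ ⟨z, hz, h3, h4, rfl⟩⟩
  choose e he using hex
  refine ⟨e, fun ρ _ => he ρ, ?_⟩
  have key : ∀ (k : ℕ) (z : L), T.Md i D z → T.Ge (d.ram i) z (B + 1 - k) →
      ∃ c : ℕ → 𝕜[X], z = ∑ ρ ∈ range d.ℓ, aeval (T.ξ i) (c ρ) * e ρ := by
    intro k
    induction k with
    | zero =>
      intro z h1 h2
      refine ⟨0, ?_⟩
      by_cases hz : z = 0
      · simp [hz]
      · have h3 := (ge_iff hz).1 h2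
        have h4 := hB z hz h1
        omega
    | succ k ih =>
      intro z h1 h2
      by_cases h3 : T.Ge (d.ram i) z (B + 1 - k)
      · exact ih z h1 h3
      have hz : z ≠ 0 := fun hz => h3 (Or.inl hz)
      rw [ge_iff hz] at h2 h3
      obtain ⟨ρ, hρ, hm⟩ := id1_res (d := d) (T.v (d.ram i) z)
      obtain ⟨e1, e2, e3, e4⟩ := he ρ
      have hle := e4 z hz h1 hm.symm
      obtain ⟨a, ha⟩ := (Int.modEq_iff_dvd.1 (hm.symm.trans e3.symm))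
      have hl : (0 : ℤ) < d.ℓ := by exact_mod_cast d.prime.pos
      have ha0 : 0 ≤ a := by
        by_contra hneg
        have := mul_neg_of_pos_of_neg hl (not_le.1 hneg)
        omega
      obtain ⟨a, rfl⟩ := Int.eq_ofNat_of_zero_le ha0
      have hξ := pow_ne_zero a (T.ξ_ne i)
      have hb : T.v (d.ram i) z = T.v (d.ram i) (T.ξ i ^ a * e ρ) := by
        rw [T.v_mul _ _ _ hξ e1, v_pow (T.ξ_ne i), T.v_ξ_self]
        linarith
      obtain ⟨c, -, hc⟩ := exists_cancel hz (mul_ne_zero hξ e1) hb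
      have hmd : T.Md i D (z - c • (T.ξ i ^ a * e ρ)) := fun P hP => by
        refine (h1 P hP).sub (Ge.smul ?_ c)
        have h4 := (T.md_aeval i (X ^ a) P hP).mul (e2 P hP)
        simpa using h4
      obtain ⟨c', hc'⟩ := ih _ hmd (hc.mono (by push_cast at h2; omega))
      refine ⟨fun ρ' => c' ρ' + if ρ' = ρ then C c * X ^ a else 0, ?_⟩
      simp only [map_add, add_mul, sum_add_distrib]
      rw [← hc', sum_eq_single_of_mem ρ (mem_range.2 hρ)]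
      · simp [Algebra.smul_def, mul_assoc]
      · intro b _ hb'
        simp [hb']
  intro z h1
  by_cases hz : z = 0
  · exact key 0 z h1 (Or.inl hz)
  · refine key (B + 1 - T.v (d.ram i) z).toNat z h1 (Or.inr ?_)
    have := Int.self_le_toNat (B + 1 - T.v (d.ram i) z)
    linarith

theorem gen_of_spans (h : d.FS D) {u : L} (hu : u ≠ 0) (h1 : T.Md i D u) {N k : ℤ}
    (h2 : T.Dle i u N) {G : List L} (hG : T.Spans i G D k)
    (hk : N + ((d.ℓ - 1) * (d.n - 1) : ℕ) ≤ k) : T.Gen i G D := by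
  have hGm : ∀ g ∈ G, T.Md i D g := fun g hg => ((hG g).1 (Submodule.subset_span hg)).1
  refine ⟨hGm, fun P hP => ?_⟩
  by_contra hne
  have hge : ∀ g ∈ {g | g ∈ G}, T.Ge P g (D P + 1) := fun g hg => by
    by_cases h0 : g = 0
    · exact Or.inl h0
    · have h3 := (ge_iff h0).1 (hGm g hg P hP)
      have h4 : T.v P g ≠ D P := fun e => hne ⟨g, hg, h0, e⟩
      exact Or.inr (by omega)
  obtain ⟨e, he, hsp⟩ := red_basis T i h
  obtain ⟨z, hz, h3, h4⟩ := att T h hP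
  obtain ⟨c, hc⟩ := hsp z h3
  have h5 : T.Ge P z (D P + 1) := by
    rw [hc]
    refine ge_sum _ _ fun ρ hρ => ?_
    obtain ⟨e1, e2, -, e4⟩ := he ρ (mem_range.1 hρ)
    obtain ⟨b, hb, hm⟩ := id1_res (d := d) (ρ - T.v (d.ram i) u)
    obtain ⟨g1, g2, g3, g4⟩ := id1_eta hu h1 b
    have h6 := e4 _ g1 g2 (g4.trans (by simpa using hm.add_left (T.v (d.ram i) u)))
    have h7 := (ge_iff hu).1 h2
    have h8 : b * (d.n - 1) ≤ (d.ℓ - 1) * (d.n - 1) := Nat.mul_le_mul_right _ (by omega)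
    have h9 : (b : ℤ) * ((d.n - 1 : ℕ) : ℤ) ≤ (((d.ℓ - 1) * (d.n - 1) : ℕ) : ℤ) := by
      exact_mod_cast h8
    have h10 : e ρ ∈ Submodule.span 𝕜 {g | g ∈ G} := (hG _).2 ⟨e2, Or.inr (by linarith)⟩
    have h11 := (T.md_aeval i (c ρ) P hP).mul (ge_span hge h10)
    simpa using h11
  have h6 := (ge_iff hz).1 h5
  omega

theorem exists_nrm (T : Curve d L) (i : Fin d.n) (h : d.FS D) (h0 : ∀ P, 0 ≤ D P) :
    ∃ g, T.Nrm i D g := by
  obtain ⟨U, hU, h1, h2⟩ := T.exists_fixed_chart i (h.part d.ℓ) (fun P _ => d.part_act D P)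
    fun j _ => by rw [id1_part_ram]; exact dvd_mul_right _ _
  obtain ⟨g, hg⟩ := T.poly_of_fixed_chart i h1 fun P hP => Or.inr (by
    rw [h2 P hP]
    exact (h0 P).trans (id1_le_part h0 P))
  have hg0 : g ≠ 0 := fun e => hU (by rw [hg, e, map_zero])
  refine ⟨g * C g.leadingCoeff⁻¹, monic_mul_leadingCoeff_inv hg0, fun P hP => ?_⟩
  rw [map_mul, aeval_C, mul_comm, ← Algebra.smul_def, ← hg,
    v_smul (inv_ne_zero (leadingCoeff_ne_zero.2 hg0)) hU, h2 P hP]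

theorem Nrm.dvd_iff {g : 𝕜[X]} (h : T.Nrm i D g) (q : 𝕜[X]) :
    T.Md i (d.part D d.ℓ) (aeval (T.ξ i) q) ↔ g ∣ q := by
  have hg := (T.aeval_ξ_ne i h.1.ne_zero).1
  constructor
  · intro hq
    obtain ⟨r, hr⟩ := T.poly_of_fixed_chart i (z := aeval (T.ξ i) q / aeval (T.ξ i) g)
      (by rw [map_div₀, T.τ_aeval (T.τξ i), T.τ_aeval (T.τξ i)]) fun P hP => by
        have h1 := hq P hP
        rw [← div_mul_cancel₀ (aeval (T.ξ i) q) hg] at h1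
        have h2 := Ge.of_mul hg h1
        rw [h.2 P hP, sub_self] at h2
        exact h2
    refine ⟨r, ?_⟩
    by_contra hne
    refine (T.aeval_ξ_ne i (sub_ne_zero.2 hne)).1 ?_
    rw [map_sub, map_mul, ← hr, mul_div_cancel₀ _ hg, sub_self]
  · rintro ⟨r, rfl⟩ P hP
    have h1 := (ge_self (T := T) P (aeval (T.ξ i) g)).mul (T.md_aeval i r P hP)
    rw [h.2 P hP] at h1
    simpa using h1

theorem Nrm.deg_le {g : 𝕜[X]} (h : T.Nrm i D g) (h0 : ∀ P, 0 ≤ D P) {u : L} (hu : u ≠ 0)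
    (h1 : T.Md i D u) {N : ℕ} (h2 : T.Dle i u N) : g.natDegree ≤ N := by
  obtain ⟨q, hq, h3, h4⟩ := id1_norm h0 hu h1
  refine (natDegree_le_of_dvd ((h.dvd_iff q).1 h4) hq).trans ?_
  have h5 := (T.aeval_ξ_ne i hq).2
  rw [← h3, T.v_pp hu, id1_part_ram] at h5
  have h6 := (ge_iff hu).1 h2
  have hl : (0 : ℤ) < d.ℓ := by exact_mod_cast d.prime.pos
  have h7 : T.v (d.ram i) u = -(q.natDegree : ℤ) := mul_left_cancel₀ hl.ne' (by linarith)
  omega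

theorem Nrm.eval_ne {g : 𝕜[X]} (h : T.Nrm i D g) {j : Fin d.n} (hj : j ≠ i)
    (h0 : D (d.ram j) = 0) : g.eval (d.rt i j) ≠ 0 := by
  intro he
  have h1 := (ge_iff (T.aeval_ξ_ne i h.1.ne_zero).1).1 (T.ge_aeval_ram hj he)
  rw [h.2 _ fun e => hj (d.ram_inj e), id1_part_ram, h0, mul_zero] at h1
  have := d.prime.pos
  omega

theorem Nrm.md {g : 𝕜[X]} (h : T.Nrm i D g) (h0 : ∀ P, 0 ≤ D P) {j : ℕ} (hj : j ≤ d.ℓ) :
    T.Md i (d.part D j) (aeval (T.ξ i) g) := fun P hP => Or.inr (by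
  rw [h.2 P hP]
  exact id1_part_mono h0 hj P)

theorem nrm_inf (T : Curve d L) (i : Fin d.n) :
    T.Nrm i (d.Inf fun b => if b = 0 then 1 else 0) X := by
  refine ⟨monic_X, fun P hP => ?_⟩
  rw [aeval_X, T.v_ξ hP, d.part_inf, sum_ite_eq', if_pos (mem_range.2 d.prime.pos), one_mul]

end Vale.Agent.P319.Curve
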