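import Vale.Agent.P319.Ideal1

/-! Generators of ideals and the local-global principle with degree bounds. -/

namespace Vale.Agent.P319.Curve

open Polynomial Finset

variable {𝕜 L : Type} [Field 𝕜] [IsAlgClosed 𝕜] [Field L] [Algebra 𝕜 L] {d : Dat 𝕜}
  {T : Curve d L} {i : Fin d.n} {D D' : d.Pl → ℤ} {G G' : List L}

omit [IsAlgClosed 𝕜] in
theorem i2_inr_ne (i : Fin d.n) (a : ZMod d.ℓ) : (Sum.inr a : d.Pl) ≠ d.ram i :=
  Sum.inr_ne_inl

omit [IsAlgClosed 𝕜] in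
theorem i2_md_mul {a b : L} (ha : T.Md i 0 a) (hb : T.Md i 0 b) : T.Md i 0 (a * b) :=
  fun P hP => ((ha P hP).mul (hb P hP)).mono (add_zero (0 : ℤ)).ge

omit [IsAlgClosed 𝕜] in
theorem i2_md_add {a b : L} (ha : T.Md i 0 a) (hb : T.Md i 0 b) : T.Md i 0 (a + b) :=
  fun P hP => (ha P hP).add (hb P hP)

omit [IsAlgClosed 𝕜] in
theorem i2_md_zero : T.Md i D 0 := fun P _ => ge_zero P _

omit [IsAlgClosed 𝕜] in
theorem i2_md_one : T.Md i 0 1 := fun _ _ => Or.inr v_one.ge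

omit [IsAlgClosed 𝕜] in
theorem i2_md_sum {ι : Type} (s : Finset ι) (g : ι → L) (h : ∀ k ∈ s, T.Md i 0 (g k)) :
    T.Md i 0 (∑ k ∈ s, g k) := fun P hP => ge_sum s g fun k hk => h k hk P hP

omit [IsAlgClosed 𝕜] in
theorem i2_rm_nonneg (P : d.Pl) : 0 ≤ d.Rm P := by
  rcases d.rm_cases P with ⟨j, rfl⟩ | h
  · rw [d.rm_ram]
    exact zero_le_one
  · exact h.ge

omit [IsAlgClosed 𝕜] in
theorem i2_md_η (T : Curve d L) (i : Fin d.n) : T.Md i 0 (T.η i) := fun P hP =>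
  Or.inr ((i2_rm_nonneg P).trans (T.v_η hP).ge)

omit [IsAlgClosed 𝕜] in
theorem i2_md_pow {a : L} (ha : T.Md i 0 a) (e : ℕ) : T.Md i 0 (a ^ e) := fun P hP =>
  ((ha P hP).pow e).mono (mul_zero (e : ℤ)).ge

omit [IsAlgClosed 𝕜] in
theorem i2_md_τ {a : L} (ha : T.Md i 0 a) (t : ℕ) : T.Md i 0 ((T.τ ^ t) a) := fun P hP =>
  (T.ge_τ_pow P t a _).2 (ha _ (d.act_iter_ne hP t))

omit [IsAlgClosed 𝕜] in
theorem i2_md_pp {a : L} (ha : T.Md i 0 a) (j : ℕ) : T.Md i 0 (T.pp a j) := by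
  induction j with
  | zero =>
    rw [T.pp_zero]
    exact i2_md_one
  | succ j ih =>
    rw [T.pp_succ]
    exact i2_md_mul ih (i2_md_τ ha j)

omit [IsAlgClosed 𝕜] in
/-- The norm is a multiple. -/
theorem i2_pp_eq {a : L} (ha : T.Md i 0 a) : ∃ b, T.Md i 0 b ∧ T.pp a d.ℓ = b * a := by
  obtain ⟨j, hj⟩ := Nat.exists_eq_succ_of_ne_zero d.prime.ne_zero
  refine ⟨T.τ (T.pp a j), ?_, ?_⟩
  · have := i2_md_τ (i2_md_pp ha j) 1
    rwa [pow_one] at this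
  · rw [mul_comm, ← T.pp_succ']
    exact congrArg _ hj

theorem Gen.congr (h : T.Gen i G D) (h' : ∀ P, P ≠ d.ram i → D P = D' P) : T.Gen i G D' :=
  ⟨fun g hg P hP => h' P hP ▸ h.1 g hg P hP, fun P hP => h' P hP ▸ h.2 P hP⟩

theorem Gen.mul (h : T.Gen i G D) (h' : T.Gen i G' D') :
    T.Gen i (G.flatMap fun g => G'.map fun g' => g * g') (D + D') := by
  refine ⟨fun w hw P hP => ?_, fun P hP => ?_⟩
  · obtain ⟨g, hg, hw⟩ := List.mem_flatMap.1 hw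
    obtain ⟨g', hg', rfl⟩ := List.mem_map.1 hw
    exact (h.1 g hg P hP).mul (h'.1 g' hg' P hP)
  · obtain ⟨g, hg, h1, h2⟩ := h.2 P hP
    obtain ⟨g', hg', h1', h2'⟩ := h'.2 P hP
    refine ⟨g * g', List.mem_flatMap.2 ⟨g, hg, List.mem_map.2 ⟨g', hg', rfl⟩⟩,
      mul_ne_zero h1 h1', ?_⟩
    rw [T.v_mul P g g' h1 h1', h2, h2']
    rfl

theorem Gen.tau (h : T.Gen i G D) (t : ℕ) :
    T.Gen i (G.map (T.τ ^ t)) fun P => D (d.act^[t] P) := by
  refine ⟨fun w hw P hP => ?_, fun P hP => ?_⟩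
  · obtain ⟨g, hg, rfl⟩ := List.mem_map.1 hw
    exact (T.ge_τ_pow P t g _).2 (h.1 g hg _ (d.act_iter_ne hP t))
  · obtain ⟨g, hg, h1, h2⟩ := h.2 _ (d.act_iter_ne hP t)
    refine ⟨(T.τ ^ t) g, List.mem_map.2 ⟨g, hg, rfl⟩, (map_ne_zero (T.τ ^ t)).2 h1, ?_⟩
    rw [T.v_τ_pow, h2]

theorem gen_inf (T : Curve d L) (i : Fin d.n) {a : ℕ} (ha : a < d.ℓ) :
    T.Gen i [T.ξ i, T.η i - algebraMap 𝕜 L (d.ζ ^ a)] (d.Inf fun b => if b = a then 1 else 0) := by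
  have : NeZero d.ℓ := ⟨d.prime.ne_zero⟩
  refine ⟨fun w hw P hP => ?_, fun P hP => ?_⟩
  · have h1 : T.Ge P (T.η i - algebraMap 𝕜 L (d.ζ ^ a)) 0 := (i2_md_η T i P hP).sub (ge_const P _)
    rcases List.mem_pair.1 hw with rfl | rfl
    · refine Or.inr (le_trans ?_ (T.v_ξ hP).ge)
      rcases P with q | b
      · exact le_rfl
      · show (if b.val = a then 1 else 0 : ℤ) ≤ 1
        split_ifs <;> norm_num
    · rcases P with q | b
      · exact h1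
      · show T.Ge _ _ (if b.val = a then 1 else 0 : ℤ)
        split_ifs with hb
        · exact hb ▸ T.val_η_inf i b
        · exact h1
  · rcases P with q | b
    · exact ⟨T.ξ i, List.mem_pair.2 (Or.inl rfl), T.ξ_ne i, T.v_ξ hP⟩
    · by_cases hb : b.val = a
      · refine ⟨T.ξ i, List.mem_pair.2 (Or.inl rfl), T.ξ_ne i, (T.v_ξ hP).trans ?_⟩
        exact (if_pos hb).symm
      · have h1 := ((T.val_η_inf i b).sub (val_const _ (d.ζ ^ a))).v_eq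
          (sub_ne_zero.2 fun e => hb (d.prim.pow_inj b.val_lt ha e))
        exact ⟨_, List.mem_pair.2 (Or.inr rfl), h1.1, h1.2.trans (if_neg hb).symm⟩

theorem Gen.fixed (h : T.Gen i G D) (N : ℕ) (hN : ∀ g ∈ G, T.σ^[N] g = g) :
    ∀ P, P ≠ d.ram i → D (d.sact^[N] P) = D P := by
  intro P hP
  have hP' : d.sact^[N] P ≠ d.ram i := fun e =>
    hP (d.sact_inj.iterate N (e.trans (Function.iterate_fixed (d.sact_ram i) N).symm))
  have hv : ∀ g ∈ G, T.v (d.sact^[N] P) g = T.v P g := fun g hg => by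
    rw [← T.v_σ_iter, hN g hg]
  obtain ⟨g, hg, h1, h2⟩ := h.2 P hP
  obtain ⟨g', hg', h1', h2'⟩ := h.2 _ hP'
  have h3 := (ge_iff h1).1 (h.1 g hg _ hP')
  have h4 := (ge_iff h1').1 (h.1 g' hg' _ hP)
  have h5 := hv g hg
  have h6 := hv g' hg'
  omega

omit [IsAlgClosed 𝕜] in
/-- Separating one place from finitely many others. -/
theorem i2_sep (T : Curve d L) {P : d.Pl} (hP : P ≠ d.ram i) (S : Finset d.Pl)
    (hS : ∀ Q ∈ S, Q ≠ d.ram i) (hne : P ∉ S) :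
    ∃ s, s ≠ 0 ∧ T.Md i 0 s ∧ T.v P s = 0 ∧ ∀ Q ∈ S, T.Ge Q s 1 := by
  classical
  induction S using Finset.induction_on with
  | empty => exact ⟨1, one_ne_zero, i2_md_one, v_one, fun Q hQ => absurd hQ (notMem_empty Q)⟩
  | insert Q S hQ ih =>
    obtain ⟨s, h1, h2, h3, h4⟩ := ih (fun R hR => hS R (mem_insert_of_mem hR))
      fun hR => hne (mem_insert_of_mem hR)
    obtain ⟨t, k1, k2, k3, k4⟩ := T.exists_sep hP (hS Q (mem_insert_self Q S))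
      fun e => hne (e ▸ mem_insert_self _ S)
    refine ⟨s * t, mul_ne_zero h1 k1, i2_md_mul h2 k2, ?_, fun R hR => ?_⟩
    · rw [T.v_mul P s t h1 k1, h3, k3, add_zero]
    · rcases mem_insert.1 hR with rfl | hR'
      · exact ((h2 R (hS R hR)).mul (Or.inr k4)).mono (zero_add (1 : ℤ)).ge
      · exact ((h4 R hR').mul (k2 R (hS R hR))).mono (add_zero (1 : ℤ)).ge

omit [IsAlgClosed 𝕜] in
/-- An element of the ideal that is a unit at finitely many given places. -/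
theorem i2_unit (I : Set L) (h0 : ∀ t ∈ I, T.Md i 0 t) (h1 : ∀ a ∈ I, ∀ b ∈ I, a + b ∈ I)
    (h2 : ∀ t, T.Md i 0 t → ∀ a ∈ I, t * a ∈ I)
    (h3 : ∀ P, P ≠ d.ram i → ∃ t ∈ I, t ≠ 0 ∧ T.v P t = 0) (S : Finset d.Pl)
    (hS : ∀ Q ∈ S, Q ≠ d.ram i) : ∃ u ∈ I, u ≠ 0 ∧ ∀ Q ∈ S, T.v Q u = 0 := by
  classical
  induction S using Finset.induction_on with
  | empty =>
    obtain ⟨t, k1, k2, -⟩ := h3 _ (i2_inr_ne i 0)
    exact ⟨t, k1, k2, fun Q hQ => absurd hQ (notMem_empty Q)⟩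
  | insert P S hP ih =>
    have hS' : ∀ Q ∈ S, Q ≠ d.ram i := fun R hR => hS R (mem_insert_of_mem hR)
    have hPi := hS P (mem_insert_self P S)
    obtain ⟨u, u1, u2, u3⟩ := ih hS'
    by_cases hu : T.v P u = 0
    · exact ⟨u, u1, u2, fun Q hQ => (mem_insert.1 hQ).elim (fun e => e ▸ hu) (u3 Q)⟩
    obtain ⟨t, t1, t2, t3⟩ := h3 P hPi
    obtain ⟨s, s1, s2, s3, s4⟩ := i2_sep T hPi S hS' hP
    have e1 : T.v P (s * t) = 0 := by rw [T.v_mul P s t s1 t2, s3, t3, add_zero]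
    have e2 : T.Ge P u (T.v P (s * t) + 1) := by
      have : (0 : ℤ) ≤ T.v P u := (ge_iff u2).1 (h0 u u1 P hPi)
      exact Or.inr (by omega)
    have e3 := v_add_of_ge (mul_ne_zero s1 t2) e2
    refine ⟨s * t + u, h1 _ (h2 s s2 t t1) u u1, e3.1, fun Q hQ => ?_⟩
    rcases mem_insert.1 hQ with rfl | hQ'
    · exact e3.2.trans e1
    · have e4 : T.Ge Q (s * t) (T.v Q u + 1) :=
        ((s4 Q hQ').mul (h0 t t1 Q (hS' Q hQ'))).mono (by rw [u3 Q hQ']; exact le_rfl)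
      rw [add_comm, (v_add_of_ge u2 e4).2, u3 Q hQ']

/-- Every constant is a value of the chart coordinate. -/
theorem i2_place (T : Curve d L) (i : Fin d.n) (c : 𝕜) :
    ∃ P, P ≠ d.ram i ∧ T.Val P (T.ξ i) c := by
  by_cases hc : c = 0
  · subst hc
    exact ⟨.inr 0, i2_inr_ne i 0, val_zero_iff.2 (Or.inr (T.v_ξ (i2_inr_ne i 0)).ge)⟩
  · obtain ⟨q, hq⟩ := d.exists_place (d.r i + c⁻¹)
    refine ⟨.inl q, fun e => ?_, ?_⟩
    · have e1 : q.1.1 = d.r i := congrArg (fun z => z.1.1) (Sum.inl.inj e)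
      rw [hq, add_eq_left] at e1
      exact inv_ne_zero hc e1
    · have h1 := (T.val_x q).sub (val_const (.inl q) (d.r i))
      rw [hq, add_sub_cancel_left] at h1
      have h2 := h1.inv (inv_ne_zero hc)
      rwa [inv_inv] at h2

/-- An ideal of the chart ring without common zero contains one. -/
theorem one_mem (I : Set L) (h0 : ∀ t ∈ I, T.Md i 0 t) (h1 : ∀ a ∈ I, ∀ b ∈ I, a + b ∈ I)
    (h2 : ∀ t, T.Md i 0 t → ∀ a ∈ I, t * a ∈ I)
    (h3 : ∀ P, P ≠ d.ram i → ∃ t ∈ I, t ≠ 0 ∧ T.v P t = 0) : (1 : L) ∈ I := by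
  classical
  have hz : (0 : L) ∈ I := by
    obtain ⟨t, k1, -⟩ := h3 _ (i2_inr_ne i 0)
    have := h2 0 i2_md_zero t k1
    rwa [zero_mul] at this
  let J : Ideal 𝕜[X] :=
    { carrier := {q | aeval (T.ξ i) q ∈ I}
      add_mem' := fun {a b} ha hb => by
        show aeval (T.ξ i) (a + b) ∈ I
        rw [map_add]
        exact h1 _ ha _ hb
      zero_mem' := by
        show aeval (T.ξ i) (0 : 𝕜[X]) ∈ I
        rwa [map_zero]
      smul_mem' := fun c a ha => by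
        show aeval (T.ξ i) (c * a) ∈ I
        rw [map_mul]
        exact h2 _ (T.md_aeval i c) _ ha }
  have key : ∀ c : 𝕜, ∃ q ∈ J, q.eval c ≠ 0 := by
    intro c
    obtain ⟨P, hP, hc⟩ := i2_place T i c
    obtain ⟨u, u1, u2, u3⟩ := i2_unit I h0 h1 h2 h3 ((range d.ℓ).image fun t => d.act^[t] P)
      fun Q hQ => by
        obtain ⟨t, -, rfl⟩ := mem_image.1 hQ
        exact d.act_iter_ne hP t
    obtain ⟨q, hq⟩ := T.poly_of_fixed_chart i (T.τ_pp u) (i2_md_pp (h0 u u1) d.ℓ)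
    obtain ⟨b, b1, b2⟩ := i2_pp_eq (h0 u u1)
    refine ⟨q, ?_, (hc.aeval q).ne_zero (hq ▸ T.pp_ne u2 _) ?_⟩
    · show aeval (T.ξ i) q ∈ I
      rw [← hq, b2]
      exact h2 b b1 u u1
    · rw [← hq, T.v_pp u2]
      exact sum_eq_zero fun t ht => u3 _ (mem_image_of_mem _ ht)
  obtain ⟨g, hg⟩ := (IsPrincipalIdealRing.principal J).principal
  have hr : ∀ c : 𝕜, g.eval c ≠ 0 := fun c e => by
    obtain ⟨q, q1, q2⟩ := key c
    rw [hg] at q1
    obtain ⟨w, rfl⟩ := Ideal.mem_span_singleton.1 q1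
    exact q2 (by rw [eval_mul, e, zero_mul])
  have hu : IsUnit g := by
    rw [isUnit_iff_degree_eq_zero]
    by_contra hd
    obtain ⟨c, hc⟩ := IsAlgClosed.exists_root g hd
    exact hr c hc
  have h4 : (1 : 𝕜[X]) ∈ J := by
    rw [hg]
    exact Ideal.mem_span_singleton.2 hu.dvd
  have h5 : aeval (T.ξ i) (1 : 𝕜[X]) ∈ I := h4
  rwa [map_one] at h5

theorem Gen.exists_comb (h : T.Gen i G D) {z : L} (hz : T.Md i D z) :
    ∃ t : ℕ → L, (∀ k, T.Md i 0 (t k)) ∧ z = ∑ k ∈ range G.length, t k * G.getD k 0 := by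
  by_cases hz0 : z = 0
  · exact ⟨fun _ => 0, fun _ => i2_md_zero, by simp [hz0]⟩
  have := one_mem (T := T) (i := i) {s | T.Md i 0 s ∧ ∃ t : ℕ → L, (∀ k, T.Md i 0 (t k)) ∧
      s * z = ∑ k ∈ range G.length, t k * G.getD k 0} (fun t ht => ht.1) ?_ ?_ ?_
  · obtain ⟨-, t, h1, h2⟩ := this
    exact ⟨t, h1, by rw [← h2, one_mul]⟩
  · rintro a ⟨a1, t, t1, t2⟩ b ⟨b1, u, u1, u2⟩
    refine ⟨i2_md_add a1 b1, fun k => t k + u k, fun k => i2_md_add (t1 k) (u1 k), ?_⟩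
    rw [add_mul, t2, u2, ← sum_add_distrib]
    exact sum_congr rfl fun k _ => (add_mul _ _ _).symm
  · rintro s s1 a ⟨a1, t, t1, t2⟩
    refine ⟨i2_md_mul s1 a1, fun k => s * t k, fun k => i2_md_mul s1 (t1 k), ?_⟩
    rw [mul_assoc, t2, mul_sum]
    exact sum_congr rfl fun k _ => (mul_assoc _ _ _).symm
  · intro P hP
    obtain ⟨g, hg, g1, g2⟩ := h.2 P hP
    have hE : d.FS fun Q => max 0 (T.v Q g - T.v Q z) := by
      refine ((T.fs_v g1).sub (T.fs_v hz0)).subset fun Q hQ e => hQ ?_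
      have e' : T.v Q g - T.v Q z = 0 := e
      show max 0 (T.v Q g - T.v Q z) = 0
      rw [e', max_self]
    obtain ⟨s, s1, s2, s3⟩ := T.att (i := i) hE hP
    have hzP := (ge_iff hz0).1 (hz P hP)
    obtain ⟨k, hk, rfl⟩ := List.mem_iff_getElem.1 hg
    refine ⟨s, ⟨fun Q hQ => (s2 Q hQ).mono (le_max_left _ _),
      fun j => if j = k then s * z / G[k] else 0, fun j => ?_, ?_⟩, s1,
      s3.trans (max_eq_left (by omega))⟩
    · beta_reduce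
      split_ifs
      · intro Q hQ
        have e1 := (ge_iff s1).1 ((s2 Q hQ).mono (le_max_right _ _))
        refine Or.inr ?_
        rw [v_div (mul_ne_zero s1 hz0) g1, T.v_mul Q s z s1 hz0]
        show (0 : ℤ) ≤ _
        omega
      · exact i2_md_zero
    · beta_reduce
      rw [sum_eq_single k (fun j _ hj => by rw [if_neg hj, zero_mul])
        fun hk' => absurd (mem_range.2 hk) hk', if_pos rfl, List.getD_eq_getElem _ _ hk,
        div_mul_cancel₀ _ g1]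

omit [IsAlgClosed 𝕜] in
theorem i2_aeval_mem {A b : ℕ} (hb : b < d.ℓ) {g : L} (hg : g ∈ G) {r : 𝕜[X]}
    (hr : r.natDegree ≤ A) : aeval (T.ξ i) r * T.η i ^ b * g ∈ Submodule.span 𝕜
      {w | ∃ a ≤ A, ∃ b < d.ℓ, ∃ g ∈ G, w = T.ξ i ^ a * T.η i ^ b * g} := by
  rw [aeval_eq_sum_range, sum_mul, sum_mul]
  refine Submodule.sum_mem _ fun a ha => ?_
  rw [smul_mul_assoc, smul_mul_assoc]
  exact Submodule.smul_mem _ _ (Submodule.subset_span
    ⟨a, (Nat.lt_succ_iff.1 (mem_range.1 ha)).trans hr, b, hb, g, hg, rfl⟩)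

theorem Gen.span (h : T.Gen i G D) (h0 : ∀ P, 0 ≤ D P) {W : ℕ} (hW : d.n ≤ W)
    (hG : ∀ g ∈ G, T.Dle i g (2 * W : ℕ)) {z : L} (hz : T.Md i D z) (hd : T.Dle i z W) :
    z ∈ Submodule.span 𝕜 {w | ∃ a ≤ 5 * W, ∃ b < d.ℓ, ∃ g ∈ G,
      w = T.ξ i ^ a * T.η i ^ b * g} := by
  have hl := d.two_le
  have hG0 : ∀ g ∈ G, T.Md i 0 g := fun g hg P hP => (h.1 g hg P hP).mono (h0 P)
  obtain ⟨g0, g1, g2, -⟩ := h.2 _ (i2_inr_ne i 0)
  obtain ⟨H, hH⟩ := T.poly_of_fixed_chart i (T.τ_pp g0) (i2_md_pp (hG0 g0 g1) d.ℓ)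
  obtain ⟨g', g3, g4⟩ := i2_pp_eq (hG0 g0 g1)
  have hH0 : H ≠ 0 := fun e => T.pp_ne g2 d.ℓ (by rw [hH, e, map_zero])
  have hdeg : T.v (d.ram i) g0 = -(H.natDegree : ℤ) := by
    have e1 := (T.aeval_ξ_ne i hH0).2
    rw [← hH, T.v_pp g2, Dat.part] at e1
    simp only [d.act_iter_ram, sum_const, card_range, nsmul_eq_mul] at e1
    exact mul_left_cancel₀ (a := (d.ℓ : ℤ)) (by omega) (by rw [e1]; ring)
  have hdeg' : H.natDegree ≤ 2 * W := by
    have e1 := (ge_iff g2).1 (hG g0 g1)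
    omega
  obtain ⟨t, t1, t2⟩ := h.exists_comb hz
  choose c hc using fun k => T.exists_poly_chart i (t1 k)
  have hk : ∀ k ∈ range G.length, G.getD k 0 ∈ G := fun k hk => by
    rw [List.getD_eq_getElem _ _ (mem_range.1 hk)]
    exact List.getElem_mem _
  obtain ⟨A, hA⟩ : ∃ A, A = ∑ k ∈ range G.length, ∑ b ∈ range d.ℓ,
    aeval (T.ξ i) (c k b % H) * T.η i ^ b * G.getD k 0 := ⟨_, rfl⟩
  obtain ⟨B, hB⟩ : ∃ B, B = g' * ∑ k ∈ range G.length, ∑ b ∈ range d.ℓ,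
    aeval (T.ξ i) (c k b / H) * T.η i ^ b * G.getD k 0 := ⟨_, rfl⟩
  have hAB : B * g0 = z - A := by
    rw [eq_sub_iff_add_eq, t2, hA, hB, mul_right_comm, ← g4, hH, mul_sum, ← sum_add_distrib]
    refine sum_congr rfl fun k _ => ?_
    rw [hc k, mul_sum, ← sum_add_distrib, sum_mul]
    refine sum_congr rfl fun b _ => ?_
    have e1 := congrArg (aeval (T.ξ i)) (EuclideanDomain.div_add_mod (c k b) H)
    rw [map_add, map_mul] at e1
    rw [← e1]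
    ring
  have hA2 : A ∈ Submodule.span 𝕜
      {w | ∃ a ≤ 2 * W, ∃ b < d.ℓ, ∃ g ∈ G, w = T.ξ i ^ a * T.η i ^ b * g} := by
    rw [hA]
    refine Submodule.sum_mem _ fun k hk' => Submodule.sum_mem _ fun b hb =>
      i2_aeval_mem (mem_range.1 hb) (hk k hk') (le_trans ?_ hdeg')
    exact natDegree_le_natDegree (degree_mod_lt _ hH0).le
  have hA3 : T.Ge (d.ram i) A (-((d.ℓ * (4 * W) : ℕ) : ℤ)) := by
    refine ge_span ?_ hA2
    rintro _ ⟨a, ha, b, hb, g, hg, rfl⟩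
    have e1 : T.Ge (d.ram i) (T.ξ i) (-d.ℓ) := Or.inr (T.v_ξ_self i).ge
    have e2 : T.Ge (d.ram i) (T.η i) (-((d.n - 1 : ℕ) : ℤ)) := Or.inr (T.v_η_self i).ge
    refine (((e1.pow a).mul (e2.pow b)).mul (hG g hg)).mono ?_
    have e3 : a * d.ℓ + b * (d.n - 1) + 2 * W ≤ d.ℓ * (4 * W) := by
      have f1 : a * d.ℓ ≤ 2 * W * d.ℓ := Nat.mul_le_mul_right _ ha
      have f2 : b * (d.n - 1) ≤ d.ℓ * W := Nat.mul_le_mul hb.le (by omega)
      have f3 : 2 * W ≤ d.ℓ * W := Nat.mul_le_mul_right _ hl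
      nlinarith
    have e4 : ((a * d.ℓ + b * (d.n - 1) + 2 * W : ℕ) : ℤ) ≤ (d.ℓ * (4 * W) : ℕ) :=
      Int.ofNat_le.2 e3
    rw [Nat.cast_add, Nat.cast_add, Nat.cast_mul a, Nat.cast_mul b] at e4
    linarith
  have hz3 : T.Ge (d.ram i) z (-((d.ℓ * (4 * W) : ℕ) : ℤ)) := by
    refine Ge.mono hd (neg_le_neg (Int.ofNat_le.2 ?_))
    nlinarith
  have hB1 : T.Md i 0 B := by
    rw [hB]
    exact i2_md_mul g3 (i2_md_sum _ _ fun k hk' => i2_md_sum _ _ fun b _ =>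
      i2_md_mul (i2_md_mul (T.md_aeval i _) (i2_md_pow (i2_md_η T i) b)) (hG0 _ (hk k hk')))
  have hB2 : T.Dle i B (d.ℓ * (4 * W) : ℕ) :=
    (Ge.of_mul g2 (hAB ▸ hz3.sub hA3)).mono (by omega)
  have hB3 := (T.mem_span_chart i _ B).2 ⟨hB1, hB2⟩
  rw [← sub_add_cancel z A, ← hAB]
  refine Submodule.add_mem _ ?_ (Submodule.span_mono ?_ hA2)
  · refine Submodule.span_induction (p := fun B _ => B * g0 ∈ _) ?_ ?_ ?_ ?_ hB3
    · rintro _ ⟨a, b, hb, hab, rfl⟩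
      refine Submodule.subset_span ⟨a, ?_, b, hb, g0, g1, rfl⟩
      have : a ≤ 4 * W := Nat.le_of_mul_le_mul_left (le_trans (Nat.le_add_right _ _) hab) (by omega)
      omega
    · rw [zero_mul]
      exact Submodule.zero_mem _
    · intro a b _ _ ha hb
      rw [add_mul]
      exact Submodule.add_mem _ ha hb
    · intro a b _ hb
      rw [smul_mul_assoc]
      exact Submodule.smul_mem _ _ hb
  · rintro _ ⟨a, ha, b, hb, g, hg, rfl⟩
    exact ⟨a, by omega, b, hb, g, hg, rfl⟩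

end Vale.Agent.P319.Curve
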