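import Vale.Agent.P319.OpsSpec

/-! Correctness of the branch-free linear algebra. -/

namespace Vale.Agent.P319

open Polynomial Finset

variable {α R : Type} [Field R] {o : Ops α} {φ : α → R}

/-- The span of a list of rows. -/
abbrev lsSp (φ : α → R) (rows : List (List α)) : Submodule R (ℕ → R) :=
  Submodule.span R {w | w ∈ rows.map (vec φ)}

theorem ls_vec_nil : vec φ [] = 0 := by funext j; simp [vec]

theorem ls_mem_of_mem {rows : List (List α)} {l : List α} (hl : l ∈ rows) :
    vec φ l ∈ lsSp φ rows := Submodule.subset_span (List.mem_map_of_mem hl)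

theorem ls_getD_mem (rows : List (List α)) (i : ℕ) : vec φ (rows.getD i []) ∈ lsSp φ rows := by
  rcases lt_or_ge i rows.length with h | h
  · rw [List.getD_eq_getElem _ _ h]
    exact ls_mem_of_mem (List.getElem_mem h)
  · rw [List.getD_eq_default _ _ h, ls_vec_nil]
    exact zero_mem _

theorem ls_getD_len {d : ℕ} {rows : List (List α)} (h : ∀ w ∈ rows, w.length ≤ d) (i : ℕ) :
    (rows.getD i []).length ≤ d := by
  rcases lt_or_ge i rows.length with hi | hi
  · rw [List.getD_eq_getElem _ _ hi]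
    exact h _ (List.getElem_mem hi)
  · rw [List.getD_eq_default _ _ hi]
    exact Nat.zero_le d

theorem ls_le {rows : List (List α)} {N : Submodule R (ℕ → R)} (h : ∀ l ∈ rows, vec φ l ∈ N) :
    lsSp φ rows ≤ N := by
  refine Submodule.span_le.2 fun w hw => ?_
  obtain ⟨l, hl, rfl⟩ := List.mem_map.1 hw
  exact h l hl

theorem ls_le' {rows : List (List α)} {N : Submodule R (ℕ → R)}
    (h : ∀ i < rows.length, vec φ (rows.getD i []) ∈ N) : lsSp φ rows ≤ N :=
  ls_le fun l hl => by
    obtain ⟨i, hi, rfl⟩ := List.getElem_of_mem hl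
    have := h i hi
    rwa [List.getD_eq_getElem _ _ hi] at this

theorem ls_mem_iff (rows : List (List α)) (c : ℕ → R) : c ∈ lsSp φ rows ↔
    ∃ a : ℕ → R, c = ∑ i ∈ range rows.length, a i • vec φ (rows.getD i []) := by
  constructor
  · intro hc
    induction hc using Submodule.span_induction with
    | mem w hw =>
      obtain ⟨l, hl, rfl⟩ := List.mem_map.1 hw
      obtain ⟨i, hi, rfl⟩ := List.getElem_of_mem hl
      refine ⟨Pi.single i 1, ?_⟩
      rw [sum_eq_single i (fun j _ hj => by simp [hj]) fun h => absurd (mem_range.2 hi) h,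
        List.getD_eq_getElem _ _ hi, Pi.single_eq_same, one_smul]
    | zero => exact ⟨0, by simp⟩
    | add x y _ _ hx hy =>
      obtain ⟨a, rfl⟩ := hx
      obtain ⟨b, rfl⟩ := hy
      exact ⟨a + b, by simp only [Pi.add_apply, add_smul, sum_add_distrib]⟩
    | smul r x _ hx =>
      obtain ⟨a, rfl⟩ := hx
      exact ⟨r • a, by simp only [Pi.smul_apply, smul_eq_mul, mul_smul, smul_sum]⟩
  · rintro ⟨a, rfl⟩
    exact sum_mem fun i _ => Submodule.smul_mem _ _ (ls_getD_mem rows i)

theorem ls_append (A B : List (List α)) : lsSp φ (A ++ B) = lsSp φ A ⊔ lsSp φ B := by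
  refine le_antisymm (ls_le fun l hl => ?_) (sup_le (ls_le fun l hl => ?_) (ls_le fun l hl => ?_))
  · rcases List.mem_append.1 hl with h | h
    · exact Submodule.mem_sup_left (ls_mem_of_mem h)
    · exact Submodule.mem_sup_right (ls_mem_of_mem h)
  · exact ls_mem_of_mem (List.mem_append_left _ hl)
  · exact ls_mem_of_mem (List.mem_append_right _ hl)

theorem ls_apply_of_le {d : ℕ} {rows : List (List α)} (h : ∀ w ∈ rows, w.length ≤ d) {c : ℕ → R}
    (hc : c ∈ lsSp φ rows) {j : ℕ} (hj : d ≤ j) : c j = 0 := by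
  obtain ⟨a, rfl⟩ := (ls_mem_iff rows c).1 hc
  rw [Finset.sum_apply]
  exact sum_eq_zero fun i _ => by
    rw [Pi.smul_apply, vec_of_le _ ((ls_getD_len h i).trans hj), smul_zero]

theorem ls_len_lc2 (d : ℕ) (a : α) (u : List α) (b : α) (v : List α) :
    (o.lc2 d a u b v).length = d := by simp [Ops.lc2]

theorem ls_vec_lc2 (h : Hom o φ) {d : ℕ} (a b : α) {u v : List α} (hu : u.length ≤ d)
    (hv : v.length ≤ d) : vec φ (o.lc2 d a u b v) = φ a • vec φ u + φ b • vec φ v := by
  funext j
  rw [Ops.lc2, vec_map_range, Pi.add_apply, Pi.smul_apply, Pi.smul_apply]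
  split_ifs with hj
  · rw [h.add, h.mul, h.mul, h.vec_eq u, h.vec_eq v, smul_eq_mul, smul_eq_mul]
  · rw [vec_of_le u (by omega), vec_of_le v (by omega), smul_zero, smul_zero, add_zero]

theorem ls_ech_lt {D : ℕ} {w : ℕ → ℕ → R} (he : Ech D w) {i j : ℕ} (hi : i < D) (hj : j < i) :
    w i j = 0 := by
  rcases he i hi with h | h
  · rw [h]; rfl
  · exact h.2 j hj

theorem ls_coord {D : ℕ} {w : ℕ → ℕ → R} (he : Ech D w) (a : ℕ → R) (m : ℕ)
    (hm : ∀ j < m, j < D → a j • w j = 0) :
    (∑ k ∈ range D, a k • w k) m = if m < D then a m * w m m else 0 := by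
  have h0 : ∀ k ∈ range D, k ≠ m → (a k • w k) m = 0 := fun k hk hkm => by
    rcases lt_or_gt_of_ne hkm with h | h
    · rw [hm k h (mem_range.1 hk)]; rfl
    · rw [Pi.smul_apply, ls_ech_lt he (mem_range.1 hk) h, smul_zero]
  rw [Finset.sum_apply]
  split_ifs with h
  · exact sum_eq_single_of_mem m (mem_range.2 h) h0
  · exact sum_eq_zero fun k hk => h0 k hk fun e => h (e ▸ mem_range.1 hk)

theorem ls_van {D : ℕ} {w : ℕ → ℕ → R} (he : Ech D w) (a : ℕ → R) (m : ℕ)
    (hc : ∀ j < m, (∑ k ∈ range D, a k • w k) j = 0) : ∀ k < m, k < D → a k • w k = 0 := by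
  intro k
  induction k using Nat.strong_induction_on with
  | _ k ih =>
    intro hk hD
    have h1 := ls_coord he a k fun j hj => ih j hj (hj.trans hk)
    rw [hc k hk, if_pos hD] at h1
    rcases he k hD with h | h
    · rw [h, smul_zero]
    · rw [h.1, mul_one] at h1
      rw [← h1, zero_smul]

theorem ls_lead {rows : List (List α)} (he : Ech rows.length fun i => vec φ (rows.getD i []))
    {c : ℕ → R} (hc : c ∈ lsSp φ rows) {m : ℕ} (h1 : c m ≠ 0) (h2 : ∀ j < m, c j = 0) :
    m < rows.length ∧ vec φ (rows.getD m []) ≠ 0 := by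
  obtain ⟨a, rfl⟩ := (ls_mem_iff rows c).1 hc
  rw [ls_coord he a m (ls_van he a m h2)] at h1
  split_ifs at h1 with h
  · exact ⟨h, fun e => h1 (by rw [e, Pi.zero_apply, mul_zero])⟩
  · exact absurd rfl h1

/-- The state of the insertion loop. -/
def lsSt (o : Ops α) (d : ℕ) (B : List (List α)) (v : List α) (k : ℕ) : List (List α) × List α :=
  (List.range k).foldl (fun (s : List (List α) × List α) i =>
    (s.1 ++ [o.piv d (B.getD i []) s.2 i],
      o.lc2 d o.one s.2 (o.neg (s.2.getD i o.zero)) (o.piv d (B.getD i []) s.2 i))) ([], v)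

theorem ls_st_succ (d : ℕ) (B : List (List α)) (v : List α) (k : ℕ) :
    lsSt o d B v (k + 1) = ((lsSt o d B v k).1 ++ [o.piv d (B.getD k []) (lsSt o d B v k).2 k],
      o.lc2 d o.one (lsSt o d B v k).2 (o.neg ((lsSt o d B v k).2.getD k o.zero))
        (o.piv d (B.getD k []) (lsSt o d B v k).2 k)) := by
  rw [lsSt, List.range_succ, List.foldl_append]
  rfl

theorem ls_piv (h : FHom o φ) {d : ℕ} {row u : List α} (hr : row.length ≤ d) (hu : u.length ≤ d)
    (k : ℕ) : vec φ (o.piv d row u k) =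
      vec φ row + ((1 - vec φ row k) * (vec φ u k)⁻¹) • vec φ u := by
  rw [Ops.piv, ls_vec_lc2 h.toHom _ _ hr hu, h.one, one_smul, h.mul, h.toHom.sub, h.one, h.inv,
    ← h.toHom.vec_eq, ← h.toHom.vec_eq]

theorem ls_st (h : FHom o φ) {d : ℕ} {B : List (List α)} (hB : ∀ w ∈ B, w.length ≤ d)
    (he : Ech d fun i => vec φ (B.getD i [])) {v : List α} (hv : v.length ≤ d) (k : ℕ)
    (hk : k ≤ d) :
    (lsSt o d B v k).1.length = k ∧ (∀ w ∈ (lsSt o d B v k).1, w.length ≤ d) ∧
      (lsSt o d B v k).2.length ≤ d ∧ Ech k (fun i => vec φ ((lsSt o d B v k).1.getD i [])) ∧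
      (∀ j < k, vec φ (lsSt o d B v k).2 j = 0) ∧
      lsSp φ (lsSt o d B v k).1 ≤ lsSp φ (B ++ [v]) ∧
      vec φ (lsSt o d B v k).2 ∈ lsSp φ (B ++ [v]) ∧
      (∀ i < k, vec φ (B.getD i []) ∈ lsSp φ (lsSt o d B v k).1) ∧
      vec φ v - vec φ (lsSt o d B v k).2 ∈ lsSp φ (lsSt o d B v k).1 := by
  induction k with
  | zero =>
    refine ⟨rfl, by simp [lsSt], hv, fun i hi => absurd hi (Nat.not_lt_zero i),
      fun i hi => absurd hi (Nat.not_lt_zero i), ls_le (by simp [lsSt]),
      ls_mem_of_mem (by simp [lsSt]), fun i hi => absurd hi (Nat.not_lt_zero i), ?_⟩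
    have : (lsSt o d B v 0).2 = v := rfl
    rw [this, sub_self]
    exact zero_mem _
  | succ k ih =>
    obtain ⟨h1, h2, h3, h4, h5, h6, h7, h8, h9⟩ := ih (by omega)
    rw [ls_st_succ]
    generalize lsSt o d B v k = s at *
    have hp := ls_piv h (ls_getD_len hB k) h3 k
    have hl : (o.piv d (B.getD k []) s.2 k).length = d := ls_len_lc2 _ _ _ _ _
    generalize o.piv d (B.getD k []) s.2 k = P at *
    have hu : vec φ (o.lc2 d o.one s.2 (o.neg (s.2.getD k o.zero)) P) =
        vec φ s.2 - vec φ s.2 k • vec φ P := by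
      rw [ls_vec_lc2 h.toHom _ _ h3 hl.le, h.one, one_smul, h.neg, ← h.toHom.vec_eq, neg_smul,
        sub_eq_add_neg]
    have hPm : vec φ P ∈ lsSp φ (s.1 ++ [P]) := ls_mem_of_mem (by simp)
    have hmono : lsSp φ s.1 ≤ lsSp φ (s.1 ++ [P]) := by rw [ls_append]; exact le_sup_left
    have hBm : vec φ (B.getD k []) ∈ lsSp φ (B ++ [v]) := by
      rw [ls_append]; exact Submodule.mem_sup_left (ls_getD_mem B k)
    have hPN : vec φ P ∈ lsSp φ (B ++ [v]) := by
      rw [hp]; exact add_mem hBm (Submodule.smul_mem _ _ h7)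
    have key : ((vec φ P = 0 ∧ vec φ s.2 k = 0) ∨ (vec φ P k = 1 ∧ ∀ j < k, vec φ P j = 0)) ∧
        vec φ (B.getD k []) ∈ lsSp φ (s.1 ++ [P]) := by
      rcases he k (by omega) with e | e
      · have e' : vec φ (B.getD k []) = 0 := e
        rw [e', zero_add, Pi.zero_apply, sub_zero, one_mul] at hp
        refine ⟨?_, e' ▸ zero_mem _⟩
        by_cases h0 : vec φ s.2 k = 0
        · exact Or.inl ⟨by rw [hp, h0, inv_zero, zero_smul], h0⟩
        · refine Or.inr ⟨by rw [hp, Pi.smul_apply, smul_eq_mul, inv_mul_cancel₀ h0],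
            fun j hj => by rw [hp, Pi.smul_apply, h5 j hj, smul_zero]⟩
      · have e1 : vec φ (B.getD k []) k = 1 := e.1
        rw [e1, sub_self, zero_mul, zero_smul, add_zero] at hp
        exact ⟨Or.inr ⟨hp ▸ e1, hp ▸ e.2⟩, hp ▸ hPm⟩
    refine ⟨by simp [h1], fun w hw => ?_, (ls_len_lc2 _ _ _ _ _).le, fun i hi => ?_,
      fun j hj => ?_, ?_, ?_, fun i hi => ?_, ?_⟩
    · rcases List.mem_append.1 hw with e | e
      · exact h2 w e
      · rw [List.mem_singleton.1 e, hl]
    · rcases Nat.lt_succ_iff_lt_or_eq.1 hi with e | e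
      · have := h4 i e
        simp only [List.getD_append _ _ _ _ (h1 ▸ e : i < s.1.length)]
        exact this
      · subst e
        have e2 : (s.1 ++ [P]).getD i [] = P := by
          rw [List.getD_append_right _ _ _ _ h1.le, h1, Nat.sub_self]; rfl
        simp only [e2]
        exact key.1.imp_left And.left
    · simp only [hu, Pi.sub_apply, Pi.smul_apply, smul_eq_mul]
      rcases Nat.lt_succ_iff_lt_or_eq.1 hj with e | e
      · rcases key.1 with e2 | e2
        · rw [h5 j e, e2.2, zero_mul, sub_zero]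
        · rw [h5 j e, e2.2 j e, mul_zero, sub_zero]
      · subst e
        rcases key.1 with e2 | e2
        · rw [e2.2, zero_mul, sub_zero]
        · rw [e2.1, mul_one, sub_self]
    · rw [ls_append]
      exact sup_le h6 (ls_le fun l hl' => by rw [List.mem_singleton.1 hl']; exact hPN)
    · simp only [hu]
      exact sub_mem h7 (Submodule.smul_mem _ _ hPN)
    · rcases Nat.lt_succ_iff_lt_or_eq.1 hi with e | e
      · exact hmono (h8 i e)
      · exact e ▸ key.2
    · simp only [hu]
      rw [← sub_add]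
      exact add_mem (hmono h9) (Submodule.smul_mem _ _ hPm)

theorem ls_ins (h : FHom o φ) {d : ℕ} {B : List (List α)} (hd : B.length = d)
    (hB : ∀ w ∈ B, w.length ≤ d) (he : Ech d fun i => vec φ (B.getD i [])) {v : List α}
    (hv : v.length ≤ d) :
    (o.ins d B v).length = d ∧ (∀ w ∈ o.ins d B v, w.length ≤ d) ∧
      Ech d (fun i => vec φ ((o.ins d B v).getD i [])) ∧
      lsSp φ (o.ins d B v) = lsSp φ (B ++ [v]) := by
  obtain ⟨h1, h2, h3, h4, h5, h6, -, h8, h9⟩ := ls_st h hB he hv d le_rfl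
  refine ⟨h1, h2, h4, le_antisymm h6 ?_⟩
  have h0 : vec φ (lsSt o d B v d).2 = 0 := funext fun j => by
    rcases lt_or_ge j d with hj | hj
    · exact h5 j hj
    · exact vec_of_le _ (h3.trans hj)
  rw [h0, sub_zero] at h9
  rw [ls_append]
  exact sup_le (ls_le' fun i hi => h8 i (hd ▸ hi))
    (ls_le fun l hl => by rw [List.mem_singleton.1 hl]; exact h9)

theorem ls_fold (h : FHom o φ) {d : ℕ} (vs : List (List α)) (hv : ∀ v ∈ vs, v.length ≤ d)
    {B : List (List α)} (hd : B.length = d) (hB : ∀ w ∈ B, w.length ≤ d)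
    (he : Ech d fun i => vec φ (B.getD i [])) :
    (vs.foldl (o.ins d) B).length = d ∧ (∀ w ∈ vs.foldl (o.ins d) B, w.length ≤ d) ∧
      Ech d (fun i => vec φ ((vs.foldl (o.ins d) B).getD i [])) ∧
      lsSp φ (vs.foldl (o.ins d) B) = lsSp φ (B ++ vs) := by
  induction vs generalizing B with
  | nil => exact ⟨hd, hB, he, by simp⟩
  | cons v vs ih =>
    obtain ⟨h1, h2, h3, h4⟩ := ls_ins h hd hB he (hv v (by simp))
    obtain ⟨h5, h6, h7, h8⟩ := ih (fun w hw => hv w (by simp [hw])) h1 h2 h3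
    refine ⟨h5, h6, h7, ?_⟩
    rw [List.foldl_cons, h8, ls_append, h4, ← ls_append, List.append_assoc]
    rfl

theorem FHom.ech (h : FHom o φ) (d : ℕ) (vs : List (List α)) (hv : ∀ v ∈ vs, v.length ≤ d) :
    (o.ech d vs).length = d ∧ (∀ w ∈ o.ech d vs, w.length ≤ d) ∧
      Ech d (fun i => vec φ ((o.ech d vs).getD i [])) ∧
      Submodule.span R {w | w ∈ (o.ech d vs).map (vec φ)} =
        Submodule.span R {w | w ∈ vs.map (vec φ)} := by
  obtain ⟨h1, h2, h3, h4⟩ := ls_fold h vs hv (B := List.replicate d []) List.length_replicate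
    (fun w hw => by rw [List.eq_of_mem_replicate hw]; exact Nat.zero_le d)
    fun i hi => Or.inl (by
      beta_reduce
      rw [List.getD_eq_getElem _ _ (by simpa using hi), List.getElem_replicate, ls_vec_nil])
  refine ⟨h1, h2, h3, h4.trans ?_⟩
  rw [ls_append]
  refine sup_eq_right.2 (ls_le fun l hl => ?_)
  rw [List.eq_of_mem_replicate hl, ls_vec_nil]
  exact zero_mem _

theorem ls_vec_drop (l : List α) (d j : ℕ) : vec φ (l.drop d) j = vec φ l (d + j) := by
  simp [vec, List.getD_eq_getElem?_getD]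

theorem ls_drop_getD (E : List (List α)) (d i : ℕ) :
    ((E.drop d).map (List.drop d)).getD i [] = (E.getD (d + i) []).drop d := by
  simp only [List.getD_eq_getElem?_getD, List.getElem?_map, List.getElem?_drop]
  cases E[d + i]? <;> simp

theorem ls_drop_mem {d n : ℕ} {E : List (List α)} (hE : E.length = d + n)
    (he : Ech (d + n) fun i => vec φ (E.getD i [])) (c : ℕ → R) :
    c ∈ lsSp φ ((E.drop d).map (List.drop d)) ↔
      ∃ x ∈ lsSp φ E, (∀ j < d, x j = 0) ∧ ∀ j, x (d + j) = c j := by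
  have hl : ((E.drop d).map (List.drop d)).length = n := by simp [hE]
  rw [ls_mem_iff, hl]
  constructor
  · rintro ⟨a, rfl⟩
    refine ⟨∑ i ∈ range n, a i • vec φ (E.getD (d + i) []),
      sum_mem fun i _ => Submodule.smul_mem _ _ (ls_getD_mem E _), fun j hj => ?_, fun j => ?_⟩
    · rw [Finset.sum_apply]
      refine sum_eq_zero fun i hi => ?_
      have := ls_ech_lt he (i := d + i) (j := j) (by have := mem_range.1 hi; omega) (by omega)
      rw [Pi.smul_apply, this, smul_zero]
    · simp only [Finset.sum_apply, Pi.smul_apply, ls_drop_getD, ls_vec_drop]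
  · rintro ⟨x, hx, h1, h2⟩
    obtain ⟨a, rfl⟩ := (ls_mem_iff E x).1 hx
    rw [hE] at h1 h2
    refine ⟨fun i => a (d + i), funext fun j => ?_⟩
    rw [← h2, sum_range_add,
      sum_eq_zero fun k hk => ls_van he a d h1 k (mem_range.1 hk)
        (by have := mem_range.1 hk; omega), zero_add]
    simp only [Finset.sum_apply, Pi.smul_apply, ls_drop_getD, ls_vec_drop]

theorem ls_vec_append (l l' : List α) (j : ℕ) :
    vec φ (l ++ l') j = if j < l.length then vec φ l j else vec φ l' (j - l.length) := by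
  unfold vec
  rw [List.map_append]
  split_ifs with hj
  · exact List.getD_append _ _ _ _ (by simpa using hj)
  · rw [List.getD_append_right _ _ _ _ (by simpa using hj), List.length_map]

theorem ls_row (h : Hom o φ) {d n t : ℕ} (ht : t < n) {u : List α} (hu : u.length ≤ d) :
    vec φ (((List.range d).map fun j => u.getD j o.zero) ++ o.pmon n t) =
      vec φ u + Pi.single (d + t) 1 := by
  funext j
  rw [ls_vec_append, List.length_map, List.length_range, vec_map_range, Ops.pmon, vec_map_range,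
    Pi.add_apply]
  by_cases hj : j < d
  · rw [if_pos hj, if_pos hj, ← h.vec_eq, Pi.single_eq_of_ne (by omega), add_zero]
  · rw [if_neg hj, vec_of_le u (by omega), zero_add]
    by_cases e : j = d + t
    · subst e
      simp [ht, h.one]
    · rw [Pi.single_eq_of_ne e, if_neg (show ¬j - d = t by omega), h.zero, ite_self]

theorem ls_single (d n : ℕ) (b : ℕ → R) :
    (∀ j < d, (∑ t ∈ range n, b t • (Pi.single (d + t) 1 : ℕ → R)) j = 0) ∧
      ∀ j, (∑ t ∈ range n, b t • (Pi.single (d + t) 1 : ℕ → R)) (d + j) =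
        if j < n then b j else 0 := by
  constructor
  · intro j hj
    rw [Finset.sum_apply]
    exact sum_eq_zero fun t _ => by rw [Pi.smul_apply, Pi.single_eq_of_ne (by omega), smul_zero]
  · intro j
    simp [Finset.sum_apply, Pi.single_apply]

theorem FHom.kerMod (h : FHom o φ) (d : ℕ) (C G : List (List α)) (hC : ∀ v ∈ C, v.length ≤ d)
    (hG : ∀ v ∈ G, v.length ≤ d) :
    (o.kerMod d C G).length = C.length ∧ (∀ w ∈ o.kerMod d C G, w.length ≤ C.length) ∧
      Ech C.length (fun i => vec φ ((o.kerMod d C G).getD i [])) ∧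
      ∀ c : ℕ → R, c ∈ Submodule.span R {w | w ∈ (o.kerMod d C G).map (vec φ)} ↔
        (∀ t, C.length ≤ t → c t = 0) ∧ ∑ t ∈ range C.length, c t • vec φ (C.getD t []) ∈
          Submodule.span R {w | w ∈ G.map (vec φ)} := by
  set A : List (List α) := (List.range C.length).map fun t =>
    ((List.range d).map fun j => (C.getD t []).getD j o.zero) ++ o.pmon C.length t with hA
  have hAl : A.length = C.length := by simp [hA]
  have hAv : ∀ b : ℕ → R, ∑ t ∈ range A.length, b t • vec φ (A.getD t []) =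
      ∑ t ∈ range C.length, b t • vec φ (C.getD t []) +
        ∑ t ∈ range C.length, b t • (Pi.single (d + t) 1 : ℕ → R) := fun b => by
    rw [hAl, ← sum_add_distrib]
    refine sum_congr rfl fun t ht => ?_
    have ht' := mem_range.1 ht
    rw [List.getD_eq_getElem _ _ (hAl ▸ ht'), ← smul_add, ← ls_row h.toHom ht' (ls_getD_len hC t)]
    simp [hA]
  obtain ⟨h1, h2, h3, h4⟩ := h.ech (d + C.length) (A ++ G) fun v hv => by
    rcases List.mem_append.1 hv with e | e
    · obtain ⟨t, -, rfl⟩ := List.mem_map.1 e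
      simp [length_pmon]
    · exact (hG v e).trans (Nat.le_add_right _ _)
  have hk : o.kerMod d C G = ((o.ech (d + C.length) (A ++ G)).drop d).map (List.drop d) := rfl
  rw [hk]
  generalize o.ech (d + C.length) (A ++ G) = E at *
  refine ⟨by simp [h1], fun w hw => ?_, fun i hi => ?_, fun c => ?_⟩
  · obtain ⟨l, hl, rfl⟩ := List.mem_map.1 hw
    have := h2 l (List.mem_of_mem_drop hl)
    rw [List.length_drop]
    omega
  · simp only [ls_drop_getD]
    rcases h3 (d + i) (by omega) with e | e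
    · exact Or.inl (funext fun j => by rw [ls_vec_drop]; exact congrFun e _)
    · exact Or.inr ⟨by rw [ls_vec_drop]; exact e.1,
        fun j hj => by rw [ls_vec_drop]; exact e.2 _ (by omega)⟩
  · have h5 : lsSp φ E = lsSp φ A ⊔ lsSp φ G := h4.trans (ls_append A G)
    refine (ls_drop_mem h1 h3 c).trans ?_
    rw [h5]
    have hCs : ∀ b : ℕ → R, ∑ t ∈ range C.length, b t • vec φ (C.getD t []) ∈ lsSp φ C :=
      fun b => (ls_mem_iff C _).2 ⟨b, rfl⟩
    constructor
    · rintro ⟨x, hx, h6, h7⟩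
      obtain ⟨y, hy, g, hg, rfl⟩ := Submodule.mem_sup.1 hx
      obtain ⟨b, rfl⟩ := (ls_mem_iff A y).1 hy
      rw [hAv] at h6 h7
      have h8 : ∀ j, c j = if j < C.length then b j else 0 := fun j => by
        rw [← h7, Pi.add_apply, Pi.add_apply, (ls_single d _ b).2,
          ls_apply_of_le hC (hCs b) (Nat.le_add_right _ _),
          ls_apply_of_le hG hg (Nat.le_add_right _ _), zero_add, add_zero]
      refine ⟨fun t ht => by rw [h8, if_neg (by omega)], ?_⟩
      have h9 : ∑ t ∈ range C.length, c t • vec φ (C.getD t []) = -g := by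
        rw [sum_congr rfl fun t ht => by rw [h8, if_pos (mem_range.1 ht)]]
        funext j
        rw [Pi.neg_apply, eq_neg_iff_add_eq_zero]
        rcases lt_or_ge j d with hj | hj
        · rw [← h6 j hj, Pi.add_apply, Pi.add_apply, (ls_single d _ b).1 j hj, add_zero]
        · rw [ls_apply_of_le hC (hCs b) hj, ls_apply_of_le hG hg hj, add_zero]
      rw [h9]
      exact neg_mem hg
    · rintro ⟨h6, h7⟩
      refine ⟨_, ?_, (ls_single d C.length c).1, fun j => ?_⟩
      · rw [← add_sub_cancel_left (∑ t ∈ range C.length, c t • vec φ (C.getD t []))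
          (∑ t ∈ range C.length, c t • (Pi.single (d + t) 1 : ℕ → R)), ← hAv]
        exact sub_mem (Submodule.mem_sup_left ((ls_mem_iff A _).2 ⟨c, rfl⟩))
          (Submodule.mem_sup_right h7)
      · rw [(ls_single d C.length c).2]
        split_ifs with hj
        · rfl
        · exact (h6 j (by omega)).symm

/-- The state of the loop selecting the last nonzero row. -/
def lsLa (o : Ops α) (rows : List (List α)) (k : ℕ) : List α :=
  (List.range k).foldl (fun s i => o.lc2 rows.length ((rows.getD i []).getD i o.zero)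
    (rows.getD i []) (o.sub o.one ((rows.getD i []).getD i o.zero)) s) []

theorem ls_la (h : FHom o φ) (rows : List (List α)) (hl : ∀ w ∈ rows, w.length ≤ rows.length)
    (he : Ech rows.length fun i => vec φ (rows.getD i [])) (k : ℕ) (hk : k ≤ rows.length) :
    (lsLa o rows k).length ≤ rows.length ∧ vec φ (lsLa o rows k) ∈ lsSp φ rows ∧
      ∀ m < k, vec φ (rows.getD m []) ≠ 0 → ∃ i < k, m ≤ i ∧ vec φ (lsLa o rows k) i = 1 ∧
        ∀ j < i, vec φ (lsLa o rows k) j = 0 := by
  induction k with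
  | zero =>
    refine ⟨Nat.zero_le _, ?_, fun m hm => absurd hm (Nat.not_lt_zero m)⟩
    have : lsLa o rows 0 = [] := rfl
    rw [this, ls_vec_nil]
    exact zero_mem _
  | succ k ih =>
    obtain ⟨h1, h2, h3⟩ := ih (by omega)
    have e : lsLa o rows (k + 1) = o.lc2 rows.length ((rows.getD k []).getD k o.zero)
        (rows.getD k []) (o.sub o.one ((rows.getD k []).getD k o.zero)) (lsLa o rows k) := by
      rw [lsLa, List.range_succ, List.foldl_append]
      rfl
    have hv := ls_vec_lc2 h.toHom ((rows.getD k []).getD k o.zero)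
      (o.sub o.one ((rows.getD k []).getD k o.zero)) (ls_getD_len hl k) h1
    rw [← e, h.toHom.sub, h.one, ← h.toHom.vec_eq] at hv
    refine ⟨by rw [e, ls_len_lc2], ?_, fun m hm h0 => ?_⟩
    · rw [hv]
      exact add_mem (Submodule.smul_mem _ _ (ls_getD_mem rows k)) (Submodule.smul_mem _ _ h2)
    · rcases he k (by omega) with e1 | e1
      · have e2 : vec φ (rows.getD k []) = 0 := e1
        rw [e2, smul_zero, zero_add, Pi.zero_apply, sub_zero, one_smul] at hv
        have hmk : m ≠ k := fun e3 => h0 (e3 ▸ e2)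
        obtain ⟨i, hi, h4⟩ := h3 m (by omega) h0
        exact ⟨i, by omega, hv ▸ h4⟩
      · have e2 : vec φ (rows.getD k []) k = 1 := e1.1
        rw [e2, sub_self, zero_smul, add_zero, one_smul] at hv
        exact ⟨k, by omega, by omega, hv ▸ e1⟩

theorem FHom.last (h : FHom o φ) (rows : List (List α)) (hl : ∀ w ∈ rows, w.length ≤ rows.length)
    (he : Ech rows.length fun i => vec φ (rows.getD i [])) :
    vec φ (o.last rows) ∈ Submodule.span R {w | w ∈ rows.map (vec φ)} ∧
      ∀ c ∈ Submodule.span R {w | w ∈ rows.map (vec φ)}, c ≠ 0 →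
        ∃ i < rows.length, vec φ (o.last rows) i = 1 ∧ (∀ j < i, vec φ (o.last rows) j = 0) ∧
          ∃ j ≤ i, c j ≠ 0 := by
  classical
  obtain ⟨-, h2, h3⟩ := ls_la h rows hl he rows.length le_rfl
  refine ⟨h2, fun c hc h0 => ?_⟩
  have hex : ∃ m, c m ≠ 0 := Function.ne_iff.1 h0
  obtain ⟨h4, h5⟩ := ls_lead he hc (Nat.find_spec hex)
    fun j hj => not_not.1 (Nat.find_min hex hj)
  obtain ⟨i, hi, h6, h7, h8⟩ := h3 _ h4 h5
  exact ⟨i, hi, h7, h8, _, h6, Nat.find_spec hex⟩

theorem FHom.diag (h : FHom o φ) (rows : List (List α)) (hl : ∀ w ∈ rows, w.length ≤ rows.length)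
    (he : Ech rows.length fun i => vec φ (rows.getD i [])) (i : ℕ) (hi : i < rows.length) :
    (vec φ (o.diag rows) i = 1 ∧ ∃ c ∈ Submodule.span R {w | w ∈ rows.map (vec φ)},
        c i ≠ 0 ∧ ∀ j < i, c j = 0) ∨
      (vec φ (o.diag rows) i = 0 ∧ ¬∃ c ∈ Submodule.span R {w | w ∈ rows.map (vec φ)},
        c i ≠ 0 ∧ ∀ j < i, c j = 0) := by
  have _ := hl
  have e : vec φ (o.diag rows) i = vec φ (rows.getD i []) i := by
    rw [Ops.diag, vec_map_range, if_pos hi, ← h.toHom.vec_eq]
  rw [e]
  rcases he i hi with e1 | e1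
  · exact Or.inr ⟨congrFun e1 i, fun ⟨c, hc, h1, h2⟩ => (ls_lead he hc h1 h2).2 e1⟩
  · exact Or.inl ⟨e1.1, _, ls_getD_mem rows i, e1.1.trans_ne one_ne_zero, e1.2⟩

theorem length_diag (rows : List (List α)) : (o.diag rows).length = rows.length := by
  simp [Ops.diag]

end Vale.Agent.P319
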