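import Vale.Agent.P319.Out2
import Vale.Agent.P319.Field3

/-! The table and the complete factorization. -/

namespace Vale.Agent.P319

open Polynomial

variable {p : ℕ} [Fact p.Prime]

theorem o3_table {N : ℕ} {adv : List (List ℕ)} (ha : AdvOK p N adv) (k : ℕ) (hk : k ≤ N + 1) :
    ((List.range k).foldl (fun tab ℓ =>
      tab ++ [irrF p N adv tab (List.replicate (min ℓ N) 1)]) []).length = k ∧
    TabOK p N ((List.range k).foldl (fun tab ℓ =>
      tab ++ [irrF p N adv tab (List.replicate (min ℓ N) 1)]) []) (k - 1) := by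
  induction k with
  | zero => exact ⟨rfl, fun _ ℓ h1 h2 => absurd h1.pos (by omega)⟩
  | succ k ih =>
    obtain ⟨h1, h2⟩ := ih (by omega)
    rw [List.range_succ, List.foldl_append, List.foldl_cons, List.foldl_nil]
    generalize List.foldl _ [] (List.range k) = tab at h1 h2 ⊢
    refine ⟨by simp [h1], fun hp ℓ h3 h4 => ?_⟩
    rcases lt_or_ge ℓ k with h5 | h5
    · rw [List.getD_append _ _ _ _ (by omega)]
      exact h2 hp ℓ h3 (by omega)
    · have h6 : ℓ = k := by omega
      subst h6
      rw [List.getD_append_right _ _ _ _ (by omega), h1, Nat.sub_self, List.getD_cons_zero,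
        min_eq_left (by omega)]
      obtain ⟨h7, h8⟩ := can_replicate (p := p) h3.pos
      have h9 := h3.two_le
      exact irrF_spec (split_ok ha h2 (by omega)) h7 (by omega) h8.le

theorem table_ok {N : ℕ} {adv : List (List ℕ)} (ha : AdvOK p N adv) :
    TabOK p N (table p N adv) N := by
  exact (o3_table ha (N + 1) le_rfl).2

theorem o3_facs {N M : ℕ} {adv tab : List (List ℕ)} (h : SplitOK p N adv tab M) (l : List ℕ) :
    ∀ (s : List ℕ × List (List ℕ)) (v : (ZMod p)[X]), Can p s.1 v → v.natDegree ≤ M →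
      v.natDegree ≤ l.length → (∀ g ∈ s.2, (tz p g).Monic ∧ Irreducible (tz p g)) →
      ((l.foldl (fun (s : List ℕ × List (List ℕ)) _ =>
        if s.1.length ≤ 1 then s else (trim p ((oP p).pquo s.1 (irrF p N adv tab s.1)),
          irrF p N adv tab s.1 :: s.2)) s).2.map (tz p)).prod = v * (s.2.map (tz p)).prod ∧
      ∀ g ∈ (l.foldl (fun (s : List ℕ × List (List ℕ)) _ =>
        if s.1.length ≤ 1 then s else (trim p ((oP p).pquo s.1 (irrF p N adv tab s.1)),
          irrF p N adv tab s.1 :: s.2)) s).2, (tz p g).Monic ∧ Irreducible (tz p g) := by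
  induction l with
  | nil =>
    intro s v h1 _ h3 h4
    rw [h1.2.1.natDegree_eq_zero.1 (Nat.le_zero.1 h3), one_mul]
    exact ⟨rfl, h4⟩
  | cons a l ih =>
    intro s v h1 h2 h3 h4
    rw [List.foldl_cons]
    rw [List.length_cons] at h3
    have h5 := h1.2.2
    split_ifs with h6
    · exact ih s v h1 h2 (by omega) h4
    · obtain ⟨w, k1, k2, r, rfl⟩ := irrF_spec h h1 (by omega) h2
      have k3 : tz p ((oP p).pquo s.1 (irrF p N adv tab s.1)) = r := by
        rw [tz, o2_hom.pquo k1.isMon, show tp (Nat.cast : ℕ → ZMod p) s.1 = w * r from h1.1,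
          show tp (Nat.cast : ℕ → ZMod p) (irrF p N adv tab s.1) = w from k1.1,
          mul_divByMonic_cancel_left _ k1.2.1]
      have k4 : r.Monic := k1.2.1.of_mul_monic_left h1.2.1
      have k5 := can_trim (l := (oP p).pquo s.1 (irrF p N adv tab s.1)) (by rwa [k3])
      rw [k3] at k5
      have k6 := k2.natDegree_pos
      rw [k1.2.1.natDegree_mul k4] at h2 h3
      obtain ⟨k7, k8⟩ := ih (trim p ((oP p).pquo s.1 (irrF p N adv tab s.1)),
        irrF p N adv tab s.1 :: s.2) r k5 (by omega) (by omega) (by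
          intro g hg
          rcases List.mem_cons.1 hg with rfl | hg
          · rw [k1.1]
            exact ⟨k1.2.1, k2⟩
          · exact h4 g hg)
      refine ⟨?_, k8⟩
      rw [k7, List.map_cons, List.prod_cons, k1.1]
      ring

theorem factor_spec {a : List ℕ} (h0 : tz p a ≠ 0) {adv : List (List ℕ)}
    (ha : AdvOK p (tz p a).natDegree adv) :
    IsFactorization p (tz p a) ((factor p adv a).1 :: flat (factor p adv a).2) := by
  have h1 := can_mon h0
  have h2 : (tz p a).leadingCoeff ≠ 0 := leadingCoeff_ne_zero.2 h0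
  have h3 : (C (tz p a).leadingCoeff⁻¹ * tz p a).natDegree = (tz p a).natDegree :=
    natDegree_C_mul (inv_ne_zero h2)
  have h4 : toPoly p = tz p := funext toPoly_eq
  obtain ⟨h5, h6⟩ := o3_facs (split_ok ha (table_ok ha) le_rfl) (List.range (mon p a).length)
    (mon p a, []) _ h1 h3.le (by rw [List.length_range, h1.2.2]; omega) (by simp)
  refine ⟨_, _, rfl, ?_, ?_⟩
  · simp only [factor, facs, length_trim h0, Nat.add_sub_cancel, h4, h5, last_trim]
    rw [List.map_nil, List.prod_nil, mul_one, ← mul_assoc, ← C_mul, mul_inv_cancel₀ h2, C_1, one_mul]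
  · simp only [factor, facs, length_trim h0, Nat.add_sub_cancel, h4]
    exact h6

end Vale.Agent.P319
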