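import Vale.Agent.P319.PT5
import Vale.Agent.P319.Out3
import Vale.Agent.P319.AuxSpec

/-! The reduction. -/

namespace Vale.Agent.P319

open Polynomial

theorem reduction (c : ℕ) : ∃ (F : List ℕ → List ℕ)
    (M : Turing.TM2ComputableInPolyTime code code F), (∀ k, Finite (M.tm.Γ k)) ∧
    ∀ (p : ℕ) (a : List ℕ), p.Prime → toPoly p a ≠ 0 →
      AuxPrimes p (toPoly p a).natDegree ((((toPoly p a).natDegree + 1) * Nat.size p) ^ c) →
      IsFactorization p (toPoly p a) (F (p :: a)) := by
  obtain ⟨M, hM⟩ := exists_machine_prog c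
  refine ⟨prog c, M, hM, fun p a hp h0 h => ?_⟩
  haveI := Fact.mk hp
  rw [toPoly_eq] at h0 h ⊢
  have h1 := length_trim h0
  have h2 := factor_spec h0 (adv_ok h)
  simp only [prog, List.headD_cons, List.tail_cons, bnd, h1, Nat.add_sub_cancel]
  exact h2

end Vale.Agent.P319
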