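import Vale.Agent.Lib.PolyTime.More
import Vale.Agent.Lib.PolyTime.Machine

/-! Branch-free arithmetic over an abstract record of ring operations. -/

namespace Vale.Agent.P319

open Vale.Agent.Lib.PolyTime Polynomial

/-- A record of ring operations with a pseudo-inverse. -/
structure Ops (α : Type) where
  zero : α
  one : α
  add : α → α → α
  mul : α → α → α
  neg : α → α
  inv : α → α

/-- `φ` carries the operations to those of a commutative ring. -/
structure Hom {α R : Type} [CommRing R] (o : Ops α) (φ : α → R) : Prop where
  zero : φ o.zero = 0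
  one : φ o.one = 1
  add : ∀ a b, φ (o.add a b) = φ a + φ b
  mul : ∀ a b, φ (o.mul a b) = φ a * φ b
  neg : ∀ a, φ (o.neg a) = -φ a

/-- `φ` also carries the pseudo-inverse to the inverse of a field. -/
structure FHom {α R : Type} [Field R] (o : Ops α) (φ : α → R) : Prop extends Hom o φ where
  inv : ∀ a, φ (o.inv a) = (φ a)⁻¹

/-- Moreover all values lie in the subfield with `Q` elements. -/
structure KHom {α R : Type} [Field R] (o : Ops α) (φ : α → R) (Q : ℕ) : Prop
    extends FHom o φ where
  two : 2 ≤ Q
  frob : ∀ a b : R, (a + b) ^ Q = a ^ Q + b ^ Q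
  fix : ∀ a, φ a ^ Q = φ a

/-- The polynomial with a given list of coefficients. -/
noncomputable def tp {α R : Type} [CommRing R] (φ : α → R) (l : List α) : R[X] :=
  l.foldr (fun c q => C (φ c) + X * q) 0

/-- The vector with a given list of entries. -/
def vec {α R : Type} [CommRing R] (φ : α → R) (l : List α) : ℕ → R :=
  fun j => (l.map φ).getD j 0

/-- The list is nonempty and its last entry is one. -/
def IsMon {α R : Type} [CommRing R] (φ : α → R) (m : List α) : Prop :=
  m ≠ [] ∧ vec φ m (m.length - 1) = 1

/-- The element `∑ z_b(X) Y^b` of an algebra. -/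
noncomputable def sem {α R L : Type} [CommRing R] [CommRing L] [Algebra R L] (φ : α → R)
    (X Y : L) (ℓ : ℕ) (z : List (List α)) : L :=
  ∑ b ∈ Finset.range ℓ, aeval X (tp φ (z.getD b [])) * Y ^ b

/-- The monomials `X^a Y^b`, `b < ℓ`, are linearly independent. -/
def Indep (R : Type) {L : Type} [CommRing R] [CommRing L] [Algebra R L] (X Y : L) (ℓ : ℕ) :
    Prop :=
  ∀ q : ℕ → R[X], ∑ b ∈ Finset.range ℓ, aeval X (q b) * Y ^ b = 0 → ∀ b < ℓ, q b = 0

/-- Row echelon shape: row `i` vanishes or has its first nonzero entry `1` at place `i`. -/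
def Ech {R : Type} [CommRing R] (d : ℕ) (w : ℕ → ℕ → R) : Prop :=
  ∀ i < d, w i = 0 ∨ (w i i = 1 ∧ ∀ j < i, w i j = 0)

/-- The factor by which the root extraction twists its argument. -/
noncomputable def tw {R : Type} [Field R] (w : R) (k : ℕ) (c : R) : R :=
  w ^ sInf {t : ℕ | c * (w ^ k) ^ t = 1}

namespace Ops

variable {α : Type} (o : Ops α)

def sub (a b : α) : α := o.add a (o.neg b)
def sum (l : List α) : α := l.foldl o.add o.zero
def pow (a : α) (e : ℕ) : α :=
  e.bits.foldr (fun b s => if b = true then o.mul a (o.mul s s) else o.mul s s) o.one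
def nat (k : ℕ) : α :=
  k.bits.foldr (fun b s => if b = true then o.add o.one (o.add s s) else o.add s s) o.zero
def ind (a : α) : α := o.mul a (o.inv a)
def sel (e x y : α) : α := o.add (o.mul e x) (o.mul (o.sub o.one e) y)
def first (l : List α) : α := l.foldr (fun c s => o.sel (o.ind c) c s) o.zero

def padd (a b : List α) : List α :=
  (List.range (max a.length b.length)).map fun i => o.add (a.getD i o.zero) (b.getD i o.zero)
def psm (c : α) (a : List α) : List α := a.map (o.mul c)
def pneg (a : List α) : List α := a.map o.neg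
def psub (a b : List α) : List α := o.padd a (o.pneg b)
def pmul (a b : List α) : List α :=
  (List.range (a.length + b.length)).map fun k => o.sum ((List.range a.length).map fun i =>
    if i ≤ k then o.mul (a.getD i o.zero) (b.getD (k - i) o.zero) else o.zero)
def psum (l : List (List α)) : List α :=
  (List.range (lmax (l.map List.length))).map fun i => o.sum (l.map fun a => a.getD i o.zero)
/-- Quotient and remainder modulo a monic polynomial. -/
def pdm (a m : List α) : List α × List α :=
  a.foldr (fun c s => ((c :: s.2).getD (m.length - 1) o.zero :: s.1,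
    (List.range (m.length - 1)).map fun i => o.sub ((c :: s.2).getD i o.zero)
      (o.mul ((c :: s.2).getD (m.length - 1) o.zero) (m.getD i o.zero)))) ([], [])
def pquo (a m : List α) : List α := (o.pdm a m).1
def prem (a m : List α) : List α := (o.pdm a m).2
/-- The polynomial `a(X + c)`. -/
def pshift (c : α) (a : List α) : List α :=
  a.foldr (fun t s => (List.range a.length).map fun i =>
    o.add ((t :: s).getD i o.zero) (o.mul c (s.getD i o.zero))) []
/-- The first `d` coefficients in reverse order. -/
def prev (d : ℕ) (a : List α) : List α :=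
  (List.range d).map fun i => a.getD (d - 1 - i) o.zero
def pder (a : List α) : List α :=
  (List.range a.length).map fun i => o.mul (o.nat (i + 1)) (a.getD (i + 1) o.zero)
/-- The monomial `X^a` as a list of length `A`. -/
def pmon (A a : ℕ) : List α := (List.range A).map fun i => if i = a then o.one else o.zero

/-- Quotient by a monic polynomial, without pseudo-inverse. -/
def quot0 (m : List α) : Ops (List α) :=
  ⟨[], o.prem [o.one] m, fun a b => o.prem (o.padd a b) m, fun a b => o.prem (o.pmul a b) m,
    fun a => o.prem (o.pneg a) m, fun _ => []⟩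
/-- Quotient by a monic polynomial; the pseudo-inverse is the power `2 Q - 3`. -/
def quot (m : List α) (Q : ℕ) : Ops (List α) :=
  { o.quot0 m with inv := fun a => (o.quot0 m).pow a (2 * Q - 3) }

def lc2 (d : ℕ) (a : α) (u : List α) (b : α) (v : List α) : List α :=
  (List.range d).map fun j => o.add (o.mul a (u.getD j o.zero)) (o.mul b (v.getD j o.zero))
/-- One pivot step. -/
def piv (d : ℕ) (row v : List α) (i : ℕ) : List α :=
  o.lc2 d o.one row (o.mul (o.sub o.one (row.getD i o.zero)) (o.inv (v.getD i o.zero))) v
/-- Insert a vector into an echelon basis. -/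
def ins (d : ℕ) (B : List (List α)) (v : List α) : List (List α) :=
  ((List.range d).foldl (fun (s : List (List α) × List α) i =>
    (s.1 ++ [o.piv d (B.getD i []) s.2 i],
      o.lc2 d o.one s.2 (o.neg (s.2.getD i o.zero)) (o.piv d (B.getD i []) s.2 i))) ([], v)).1
def ech (d : ℕ) (vs : List (List α)) : List (List α) :=
  vs.foldl (o.ins d) (List.replicate d [])
/-- Echelon basis of the relations among `C` modulo the span of `G`. -/
def kerMod (d : ℕ) (C G : List (List α)) : List (List α) :=
  ((o.ech (d + C.length) (((List.range C.length).map fun t =>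
    ((List.range d).map fun j => (C.getD t []).getD j o.zero) ++ o.pmon C.length t) ++ G)).drop
      d).map (List.drop d)
def diag (rows : List (List α)) : List α :=
  (List.range rows.length).map fun i => (rows.getD i []).getD i o.zero
/-- The last nonzero row of an echelon basis. -/
def last (rows : List (List α)) : List α :=
  (List.range rows.length).foldl (fun s i => o.lc2 rows.length ((rows.getD i []).getD i o.zero)
    (rows.getD i []) (o.sub o.one ((rows.getD i []).getD i o.zero)) s) []

def tadd (ℓ : ℕ) (a b : List (List α)) : List (List α) :=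
  (List.range ℓ).map fun k => o.padd (a.getD k []) (b.getD k [])
def tsm (c : α) (a : List (List α)) : List (List α) := a.map (o.psm c)
def tmul (ℓ : ℕ) (F : List α) (a b : List (List α)) : List (List α) :=
  (List.range ℓ).map fun k => o.psum ((List.range ℓ).map fun i =>
    if i ≤ k then o.pmul (a.getD i []) (b.getD (k - i) [])
    else o.pmul F (o.pmul (a.getD i []) (b.getD (k + ℓ - i) [])))
def ttau (ℓ : ℕ) (c : α) (a : List (List α)) : List (List α) :=
  (List.range ℓ).map fun k => o.psm (o.pow c k) (a.getD k [])
def tsum (ℓ : ℕ) (l : List (List (List α))) : List (List α) :=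
  (List.range ℓ).map fun k => o.psum (l.map fun a => a.getD k [])
def tprod (ℓ : ℕ) (F : List α) (l : List (List (List α))) : List (List α) :=
  l.foldl (o.tmul ℓ F) [[o.one]]
/-- The power `z^k`, for `k ≤ B`. -/
def tpow (ℓ : ℕ) (F : List α) (B : ℕ) (z : List (List α)) (k : ℕ) : List (List α) :=
  o.tprod ℓ F (List.replicate (min k B) z)
def tmon (ℓ A : ℕ) (q : ℕ × ℕ) : List (List α) :=
  (List.range ℓ).map fun k => if k = q.2 then o.pmon A q.1 else []
def lin (ℓ : ℕ) (c : List α) (us : List (List (List α))) : List (List α) :=
  o.tsum ℓ ((List.range us.length).map fun t => o.tsm (c.getD t o.zero) (us.getD t []))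

/-- All coefficients of an item with `J` blocks. -/
def flat (ℓ J A : ℕ) (c : List (List (List α))) : List α :=
  (List.range J).flatMap fun j => (List.range ℓ).flatMap fun b => (List.range A).map fun a =>
    ((c.getD j []).getD b []).getD a o.zero
/-- Echelon basis of the coefficient vectors `λ` such that, in every block `j`, the combination
of the items `C` lies in the span of the `j`-th list of `G`. -/
def solve (ℓ : ℕ) (C G : List (List (List (List α)))) : List (List α) :=
  o.kerMod (G.length * ℓ * lmax ((C ++ G).flatten.flatten.map List.length))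
    (C.map (o.flat ℓ G.length (lmax ((C ++ G).flatten.flatten.map List.length))))
    ((List.range G.length).flatMap fun j => (G.getD j []).map fun g =>
      o.flat ℓ G.length (lmax ((C ++ G).flatten.flatten.map List.length))
        ((List.range G.length).map fun i => if i = j then g else []))

/-- The part of `Q - 1` prime to `ℓ`. -/
def cof (ℓ Q : ℕ) : ℕ := Q.bits.foldl (fun m _ => if m % ℓ = 0 then m / ℓ else m) (Q - 1)
/-- Multiply by a power of `w` to get an `ℓ`-th power. -/
def adj (ℓ Q : ℕ) (w a : α) : α :=
  (List.range ℓ).foldl (fun s _ =>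
    o.sel (o.ind (o.sub (o.pow s ((Q - 1) / ℓ)) o.one)) (o.mul s w) s) a
/-- One level of the root extraction. -/
def lev (ℓ : ℕ) (g a x : α) (u : ℕ) : α :=
  (List.range ℓ).foldl (fun s _ =>
    o.sel (o.ind (o.sub (o.pow s (ℓ * u)) (o.pow a u))) (o.mul s g) s) x
/-- An `ℓ`-th root of an `ℓ`-th power. -/
def root0 (ℓ Q : ℕ) (w a : α) : α :=
  (Q.bits.foldl (fun (s : α × ℕ) _ => if s.2 ≤ 1 then s else
      (o.lev ℓ (o.pow w ((Q - 1) / (ℓ * s.2))) a s.1 (s.2 / ℓ), s.2 / ℓ))
    (o.pow a ((1 + cof ℓ Q * (((List.range ℓ).find? fun t =>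
      decide ((1 + cof ℓ Q * t) % ℓ = 0)).getD 0)) / ℓ), (Q - 1) / (cof ℓ Q * ℓ))).1
def root (ℓ Q : ℕ) (w a : α) : α := o.root0 ℓ Q w (o.adj ℓ Q w a)

end Ops

/-- Arithmetic modulo `p`, without pseudo-inverse. -/
def oP0 (p : ℕ) : Ops ℕ :=
  ⟨0, 1 % max p 1, fun a b => (a + b) % max p 1, fun a b => (a * b) % max p 1,
    fun a => (p - a % max p 1) % max p 1, fun _ => 0⟩
/-- Arithmetic modulo a prime `p`. -/
def oP (p : ℕ) : Ops ℕ := { oP0 p with inv := fun a => (oP0 p).pow a (2 * p - 3) }

/-- The exponent pairs `(a, b)` with `b < ℓ` and `u a + v b ≤ W`, by decreasing weight. -/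
def mons (u v ℓ W : ℕ) : List (ℕ × ℕ) :=
  (List.range (W + 1)).reverse.flatMap fun w => (List.range ℓ).flatMap fun b =>
    ((List.range (W + 1)).filter fun a => decide (u * a + v * b = w)).map fun a => (a, b)

end Vale.Agent.P319
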