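import Vale.Agent.P319.Alg

/-! Correctness of the basic and polynomial operations. -/

namespace Vale.Agent.P319

open Polynomial Finset

section Ring

variable {α R : Type} [CommRing R] {o : Ops α} {φ : α → R}

theorem Hom.comp {S : Type} [CommRing S] (h : Hom o φ) (χ : R →+* S) :
    Hom o (fun a => χ (φ a)) := by
  exact ⟨by rw [h.zero, map_zero], by rw [h.one, map_one], fun a b => by rw [h.add, map_add],
    fun a b => by rw [h.mul, map_mul], fun a => by rw [h.neg, map_neg]⟩
theorem Hom.sub (h : Hom o φ) (a b : α) : φ (o.sub a b) = φ a - φ b := by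
  rw [Ops.sub, h.add, h.neg, sub_eq_add_neg]
theorem Hom.sum (h : Hom o φ) (l : List α) : φ (o.sum l) = (l.map φ).sum := by
  have key : ∀ s, φ (l.foldl o.add s) = φ s + (l.map φ).sum := by
    induction l with
    | nil => simp
    | cons a l ih => intro s; simp [ih, h.add, add_assoc]
  rw [Ops.sum, key, h.zero, zero_add]
theorem Hom.sum_range (h : Hom o φ) (k : ℕ) (g : ℕ → α) :
    φ (o.sum ((List.range k).map g)) = ∑ i ∈ range k, φ (g i) := by
  rw [h.sum, List.map_map]
  induction k with
  | zero => simp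
  | succ k ih => rw [List.range_succ, sum_range_succ, ← ih]; simp
theorem os_bits {M : ℕ → Prop} (z : M 0) (ev : ∀ n, n ≠ 0 → M n → M (2 * n))
    (od : ∀ n, M n → M (2 * n + 1)) (n : ℕ) : M n := by
  induction n using Nat.strong_induction_on with
  | _ n ih =>
    obtain ⟨k, rfl | rfl⟩ := Nat.even_or_odd' n
    · rcases eq_or_ne k 0 with rfl | hk
      · exact z
      · exact ev k hk (ih k (by omega))
    · exact od k (ih k (by omega))
theorem Hom.pow (h : Hom o φ) (a : α) (e : ℕ) : φ (o.pow a e) = φ a ^ e := by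
  induction e using os_bits with
  | z => simp [Ops.pow, h.one]
  | ev n hn ih =>
    rw [Ops.pow, Nat.bit0_bits n hn, List.foldr_cons, if_neg (by simp), h.mul]
    rw [Ops.pow] at ih
    rw [ih]
    ring
  | od n ih =>
    rw [Ops.pow, Nat.bit1_bits n, List.foldr_cons, if_pos rfl, h.mul, h.mul]
    rw [Ops.pow] at ih
    rw [ih]
    ring
theorem Hom.nat (h : Hom o φ) (k : ℕ) : φ (o.nat k) = k := by
  induction k using os_bits with
  | z => simp [Ops.nat, h.zero]
  | ev n hn ih =>
    rw [Ops.nat, Nat.bit0_bits n hn, List.foldr_cons, if_neg (by simp), h.add]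
    rw [Ops.nat] at ih
    rw [ih]
    push_cast
    ring
  | od n ih =>
    rw [Ops.nat, Nat.bit1_bits n, List.foldr_cons, if_pos rfl, h.add, h.add, h.one]
    rw [Ops.nat] at ih
    rw [ih]
    push_cast
    ring
theorem Hom.sel (h : Hom o φ) (e x y : α) : φ (o.sel e x y) = φ e * φ x + (1 - φ e) * φ y := by
  rw [Ops.sel, h.add, h.mul, h.mul, h.sub, h.one]

@[simp] theorem tp_nil : tp φ [] = 0 := rfl
theorem tp_cons (c : α) (l : List α) : tp φ (c :: l) = C (φ c) + X * tp φ l := rfl
@[simp] theorem tp_single (c : α) : tp φ [c] = C (φ c) := by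
  simp [tp_cons]
theorem coeff_tp (l : List α) (j : ℕ) : (tp φ l).coeff j = vec φ l j := by
  induction l generalizing j with
  | nil => simp [vec]
  | cons c l ih =>
    rw [tp_cons]
    rcases j with _ | j
    · simp [vec]
    · rw [coeff_add, coeff_X_mul, ih, coeff_C_succ, zero_add]
      simp [vec]
theorem Hom.vec_eq (h : Hom o φ) (l : List α) (j : ℕ) : vec φ l j = φ (l.getD j o.zero) := by
  rw [vec, ← h.zero, List.getD_map]
theorem vec_of_le (l : List α) {j : ℕ} (hj : l.length ≤ j) : vec φ l j = 0 := by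
  exact List.getD_eq_default _ _ (by simpa using hj)
theorem vec_map_range (k : ℕ) (g : ℕ → α) (j : ℕ) :
    vec φ ((List.range k).map g) j = if j < k then φ (g j) else 0 := by
  split_ifs with hj
  · simp [vec, hj]
  · exact vec_of_le _ (by simpa using hj)
theorem degree_tp_lt (l : List α) : (tp φ l).degree < l.length := by
  exact (degree_lt_iff_coeff_zero _ _).2 fun j hj => by rw [coeff_tp, vec_of_le l hj]
theorem natDegree_tp_le (l : List α) : (tp φ l).natDegree ≤ l.length - 1 := by
  exact natDegree_le_iff_coeff_eq_zero.2 fun j hj => by rw [coeff_tp, vec_of_le l (by omega)]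
theorem tp_comp {S : Type} [CommRing S] (χ : R →+* S) (l : List α) :
    tp (fun a => χ (φ a)) l = (tp φ l).map χ := by
  induction l with
  | nil => simp
  | cons c l ih => simp [tp_cons, ih]
theorem tp_map {β : Type} (g : β → α) (l : List β) : tp φ (l.map g) = tp (fun b => φ (g b)) l := by
  induction l with
  | nil => simp
  | cons c l ih => simp [tp_cons, ih]
theorem tp_map_single (x : R) (l : List α) :
    tp (fun a => eval x (tp φ a)) (l.map fun c => [c]) = tp φ l := by
  rw [tp_map]
  simp
theorem IsMon.monic [Nontrivial R] {m : List α} (hm : IsMon φ m) :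
    (tp φ m).Monic ∧ (tp φ m).natDegree = m.length - 1 := by
  have h1 : (tp φ m).coeff (m.length - 1) = 1 := by rw [coeff_tp, hm.2]
  exact ⟨monic_of_natDegree_le_of_coeff_eq_one _ (natDegree_tp_le m) h1,
    natDegree_eq_of_le_of_coeff_ne_zero (natDegree_tp_le m) (by rw [h1]; exact one_ne_zero)⟩
theorem isMon_of_monic {m : List α} (h1 : (tp φ m).Monic)
    (h2 : m.length = (tp φ m).natDegree + 1) : IsMon φ m := by
  refine ⟨fun h => by simp [h] at h2, ?_⟩
  rw [← coeff_tp, h2, Nat.add_sub_cancel]
  exact h1.coeff_natDegree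

theorem Hom.padd (h : Hom o φ) (a b : List α) : tp φ (o.padd a b) = tp φ a + tp φ b := by
  ext j
  rw [coeff_add, coeff_tp, coeff_tp, coeff_tp, Ops.padd, vec_map_range]
  split_ifs with hj
  · rw [h.add, h.vec_eq, h.vec_eq]
  · rw [vec_of_le a (by omega), vec_of_le b (by omega), add_zero]
theorem Hom.psm (h : Hom o φ) (c : α) (a : List α) : tp φ (o.psm c a) = C (φ c) * tp φ a := by
  induction a with
  | nil => simp [Ops.psm]
  | cons x a ih =>
    rw [Ops.psm] at ih ⊢
    rw [List.map_cons, tp_cons, tp_cons, ih, h.mul, C_mul]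
    ring
theorem Hom.pneg (h : Hom o φ) (a : List α) : tp φ (o.pneg a) = -tp φ a := by
  induction a with
  | nil => simp [Ops.pneg]
  | cons x a ih =>
    rw [Ops.pneg] at ih ⊢
    rw [List.map_cons, tp_cons, tp_cons, ih, h.neg, C_neg]
    ring
theorem Hom.psub (h : Hom o φ) (a b : List α) : tp φ (o.psub a b) = tp φ a - tp φ b := by
  rw [Ops.psub, h.padd, h.pneg, sub_eq_add_neg]
theorem Hom.pmul (h : Hom o φ) (a b : List α) : tp φ (o.pmul a b) = tp φ a * tp φ b := by
  ext k
  rw [coeff_mul, coeff_tp, Ops.pmul, vec_map_range,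
    Finset.Nat.sum_antidiagonal_eq_sum_range_succ fun i j => (tp φ a).coeff i * (tp φ b).coeff j]
  simp only [coeff_tp]
  split_ifs with hk
  · rw [h.sum_range]
    have e : ∀ i, φ (if i ≤ k then o.mul (a.getD i o.zero) (b.getD (k - i) o.zero) else o.zero)
        = if i ≤ k then vec φ a i * vec φ b (k - i) else 0 := fun i => by
      split_ifs
      · rw [h.mul, h.vec_eq, h.vec_eq]
      · exact h.zero
    simp only [e]
    rw [← sum_filter]
    refine sum_subset (fun i hi => ?_) fun i hi hi' => ?_
    · simp only [mem_filter, mem_range] at hi ⊢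
      omega
    · simp only [mem_filter, mem_range] at hi hi'
      rw [vec_of_le a (by omega), zero_mul]
  · refine (sum_eq_zero fun i hi => ?_).symm
    rcases le_or_gt a.length i with h1 | h1
    · rw [vec_of_le a h1, zero_mul]
    · rw [vec_of_le b (by omega), mul_zero]
theorem Hom.psum (h : Hom o φ) (l : List (List α)) : tp φ (o.psum l) = (l.map (tp φ)).sum := by
  ext j
  have key : ∀ l : List (List α), ((l.map (tp φ)).sum).coeff j = (l.map fun a => vec φ a j).sum := by
    intro l
    induction l with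
    | nil => simp
    | cons a l ih => simp [ih, coeff_tp]
  rw [coeff_tp, Ops.psum, vec_map_range, key]
  split_ifs with hj
  · rw [h.sum, List.map_map]
    simp only [h.vec_eq, Function.comp_def]
  · refine (List.sum_eq_zero fun y hy => ?_).symm
    obtain ⟨a, ha, rfl⟩ := List.mem_map.1 hy
    exact vec_of_le a ((Lib.PolyTime.le_lmax (List.mem_map_of_mem ha)).trans (not_lt.1 hj))
theorem length_prem_le (a m : List α) : (o.prem a m).length ≤ m.length - 1 := by
  cases a with
  | nil => simp [Ops.prem, Ops.pdm]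
  | cons c a => simp [Ops.prem, Ops.pdm]
theorem os_pquo_cons (c : α) (a m : List α) :
    o.pquo (c :: a) m = (c :: o.prem a m).getD (m.length - 1) o.zero :: o.pquo a m := rfl
theorem os_prem_cons (c : α) (a m : List α) :
    o.prem (c :: a) m = (List.range (m.length - 1)).map fun i =>
      o.sub ((c :: o.prem a m).getD i o.zero)
        (o.mul ((c :: o.prem a m).getD (m.length - 1) o.zero) (m.getD i o.zero)) := rfl
theorem length_pquo (a m : List α) : (o.pquo a m).length = a.length := by
  induction a with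
  | nil => rfl
  | cons c a ih => rw [os_pquo_cons, List.length_cons, ih, List.length_cons]
theorem Hom.pdm (h : Hom o φ) {m : List α} (hm : IsMon φ m) (a : List α) :
    tp φ a = tp φ m * tp φ (o.pquo a m) + tp φ (o.prem a m) := by
  induction a with
  | nil => simp [Ops.pquo, Ops.prem, Ops.pdm]
  | cons c a ih =>
    have hl := length_prem_le (o := o) a m
    have hm0 : 0 < m.length := List.length_pos_iff.2 hm.1
    have key : tp φ (c :: o.prem a m) = C (vec φ (c :: o.prem a m) (m.length - 1)) * tp φ m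
        + tp φ (o.prem (c :: a) m) := by
      ext j
      rw [os_prem_cons, coeff_add, coeff_C_mul, coeff_tp, coeff_tp, coeff_tp, vec_map_range]
      split_ifs with hj
      · rw [h.sub, h.mul, ← h.vec_eq, ← h.vec_eq, ← h.vec_eq]
        ring
      · rcases (not_lt.1 hj).eq_or_lt with rfl | h1
        · rw [hm.2, mul_one, add_zero]
        · rw [vec_of_le m (by omega), vec_of_le _ (by rw [List.length_cons]; omega)]
          simp
    rw [os_pquo_cons, tp_cons, tp_cons, ← h.vec_eq, ih]
    rw [tp_cons] at key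
    linear_combination key
theorem os_unique [Nontrivial R] (h : Hom o φ) {m : List α} (hm : IsMon φ m) (a : List α) :
    tp φ a /ₘ tp φ m = tp φ (o.pquo a m) ∧ tp φ a %ₘ tp φ m = tp φ (o.prem a m) := by
  refine div_modByMonic_unique _ _ hm.monic.1 ⟨by rw [h.pdm hm a, add_comm], ?_⟩
  rw [degree_eq_natDegree hm.monic.1.ne_zero, hm.monic.2]
  exact (degree_tp_lt _).trans_le (by exact_mod_cast length_prem_le a m)
theorem Hom.prem [Nontrivial R] (h : Hom o φ) {m : List α} (hm : IsMon φ m) (a : List α) :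
    tp φ (o.prem a m) = tp φ a %ₘ tp φ m := by
  exact (os_unique h hm a).2.symm
theorem Hom.pquo [Nontrivial R] (h : Hom o φ) {m : List α} (hm : IsMon φ m) (a : List α) :
    tp φ (o.pquo a m) = tp φ a /ₘ tp φ m := by
  exact (os_unique h hm a).1.symm
theorem length_pshift (c : α) (a : List α) : (o.pshift c a).length = a.length := by
  cases a with
  | nil => rfl
  | cons t a => simp [Ops.pshift]
theorem os_pshift (h : Hom o φ) (c : α) (N : ℕ) (l : List α) (hl : l.length ≤ N) :
    tp φ (l.foldr (fun t s => (List.range N).map fun i =>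
      o.add ((t :: s).getD i o.zero) (o.mul c (s.getD i o.zero))) []) = (tp φ l).comp (X + C (φ c))
    ∧ ∀ j, l.length ≤ j → ((tp φ l).comp (X + C (φ c))).coeff j = 0 := by
  induction l with
  | nil => simp
  | cons t l ih =>
    rw [List.length_cons] at hl
    obtain ⟨h1, h2⟩ := ih (by omega)
    have e : (tp φ (t :: l)).comp (X + C (φ c)) = (C (φ t) + X * (tp φ l).comp (X + C (φ c)))
        + C (φ c) * (tp φ l).comp (X + C (φ c)) := by
      rw [tp_cons, add_comp, mul_comp, C_comp, X_comp]
      ring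
    have h3 : ∀ j, (t :: l).length ≤ j → ((tp φ (t :: l)).comp (X + C (φ c))).coeff j = 0 := by
      intro j hj
      rw [List.length_cons] at hj
      obtain ⟨j, rfl⟩ : ∃ i, j = i + 1 := ⟨j - 1, by omega⟩
      rw [e, coeff_add, coeff_add, coeff_X_mul, coeff_C_mul, coeff_C_succ, h2 j (by omega),
        h2 (j + 1) (by omega)]
      simp
    refine ⟨?_, h3⟩
    ext j
    rw [List.foldr_cons, coeff_tp, vec_map_range]
    split_ifs with hj
    · rw [e, ← h1, ← tp_cons, coeff_add, coeff_C_mul, coeff_tp, coeff_tp, h.add, h.mul,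
        h.vec_eq, h.vec_eq]
    · exact (h3 j (by rw [List.length_cons]; omega)).symm
theorem Hom.pshift (h : Hom o φ) (c : α) (a : List α) :
    tp φ (o.pshift c a) = (tp φ a).comp (X + C (φ c)) := by
  exact (os_pshift h c a.length a le_rfl).1
theorem length_prev (k : ℕ) (a : List α) : (o.prev k a).length = k := by
  simp [Ops.prev]
theorem Hom.prev (h : Hom o φ) (k : ℕ) (a : List α) (j : ℕ) :
    (tp φ (o.prev k a)).coeff j = if j < k then vec φ a (k - 1 - j) else 0 := by
  rw [coeff_tp, Ops.prev, vec_map_range, h.vec_eq]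
theorem Hom.prev_eq (h : Hom o φ) (k : ℕ) (a : List α) :
    tp φ (o.prev k a) = ∑ t ∈ range k, C (vec φ a t) * X ^ (k - 1 - t) := by
  ext j
  rw [h.prev, finsetSum_coeff]
  simp only [coeff_C_mul, coeff_X_pow, mul_ite, mul_one, mul_zero]
  split_ifs with hj
  · rw [sum_eq_single (k - 1 - j), if_pos (by omega)]
    · intro t ht ht'
      rw [mem_range] at ht
      exact if_neg (by omega)
    · intro ht
      exact absurd (mem_range.2 (by omega)) ht
  · refine (sum_eq_zero fun t ht => ?_).symm
    rw [mem_range] at ht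
    exact if_neg (by omega)
theorem Hom.pder (h : Hom o φ) (a : List α) : tp φ (o.pder a) = derivative (tp φ a) := by
  ext j
  rw [coeff_derivative, coeff_tp, coeff_tp, Ops.pder, vec_map_range]
  split_ifs with hj
  · rw [h.mul, h.nat, ← h.vec_eq, mul_comm]
    push_cast
    rfl
  · rw [vec_of_le a (by omega), zero_mul]
theorem Hom.pmon (h : Hom o φ) {A a : ℕ} (ha : a < A) : tp φ (o.pmon A a) = X ^ a := by
  ext j
  rw [coeff_tp, Ops.pmon, vec_map_range, coeff_X_pow]
  split_ifs with h1 h2 h3
  · exact h.one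
  · exact h.zero
  · omega
  · rfl
theorem length_pmon (A a : ℕ) : (o.pmon A a).length = A := by
  simp [Ops.pmon]
theorem Hom.peval (h : Hom o φ) (a : List α) (c : α) : φ (o.peval a c) = eval (φ c) (tp φ a) := by
  induction a with
  | nil => simp [Ops.peval, h.zero]
  | cons t a ih =>
    rw [Ops.peval] at ih ⊢
    rw [List.foldr_cons, h.add, h.mul, ih, tp_cons]
    simp

theorem os_quot {S : Type} [CommRing S] (h : Hom o φ) {m : List α} (hm : IsMon φ m)
    (χ : R[X] →+* S) (hχ : χ (tp φ m) = 0) : Hom (o.quot0 m) (fun a => χ (tp φ a)) := by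
  have key : ∀ a, χ (tp φ (o.prem a m)) = χ (tp φ a) := fun a => by
    rw [h.pdm hm a, map_add, map_mul, hχ, zero_mul, zero_add]
  refine ⟨map_zero χ, (key _).trans ?_, fun a b => (key _).trans ?_, fun a b => (key _).trans ?_,
    fun a => (key _).trans ?_⟩
  · rw [tp_single, h.one, C_1, map_one]
  · rw [h.padd, map_add]
  · rw [h.pmul, map_mul]
  · rw [h.pneg, map_neg]
theorem Hom.quot0 (h : Hom o φ) {m : List α} (hm : IsMon φ m) {x : R}
    (hx : eval x (tp φ m) = 0) : Hom (o.quot0 m) (fun a => eval x (tp φ a)) := by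
  exact os_quot h hm (evalRingHom x) hx
theorem Hom.quot (h : Hom o φ) {m : List α} (hm : IsMon φ m) {x : R}
    (hx : eval x (tp φ m) = 0) (Q : ℕ) : Hom (o.quot m Q) (fun a => eval x (tp φ a)) := by
  have h0 := h.quot0 hm hx
  exact ⟨h0.zero, h0.one, h0.add, h0.mul, h0.neg⟩
theorem Hom.quot0_mk (h : Hom o φ) {m : List α} (hm : IsMon φ m) :
    Hom (o.quot0 m) (fun a => AdjoinRoot.mk (tp φ m) (tp φ a)) := by
  exact os_quot h hm (AdjoinRoot.mk (tp φ m)) AdjoinRoot.mk_self
theorem length_quot0_pow (m a : List α) (e : ℕ) : ((o.quot0 m).pow a e).length ≤ m.length - 1 := by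
  rw [Ops.pow]
  cases e.bits with
  | nil => exact length_prem_le _ _
  | cons b l =>
    rw [List.foldr_cons]
    split_ifs
    · exact length_prem_le _ _
    · exact length_prem_le _ _
theorem length_quot0_sum (m : List α) (l : List (List α)) :
    ((o.quot0 m).sum l).length ≤ m.length - 1 := by
  rw [Ops.sum]
  induction l using List.reverseRecOn with
  | nil => exact Nat.zero_le _
  | append_singleton l a _ =>
    rw [List.foldl_append]
    exact length_prem_le _ _

theorem hom_oP (p : ℕ) [CharP R p] (hp : 0 < p) : Hom (oP p) (Nat.cast : ℕ → R) := by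
  have e : max p 1 = p := max_eq_left hp
  have hm : ∀ a : ℕ, ((a % max p 1 : ℕ) : R) = a := fun a => by
    rw [e, ← CharP.cast_eq_mod]
  refine ⟨Nat.cast_zero, (hm 1).trans Nat.cast_one, fun a b => (hm _).trans (Nat.cast_add a b),
    fun a b => (hm _).trans (Nat.cast_mul a b), fun a => (hm _).trans ?_⟩
  rw [Nat.cast_sub (by rw [e]; exact (Nat.mod_lt a hp).le), hm, CharP.cast_eq_zero, zero_sub]

end Ring

section Field

variable {α R : Type} [Field R] {o : Ops α} {φ : α → R}

open Classical in
theorem FHom.ind (h : FHom o φ) (a : α) : φ (o.ind a) = if φ a = 0 then 0 else 1 := by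
  rw [Ops.ind, h.mul, h.inv]
  split_ifs with h0
  · rw [h0, zero_mul]
  · exact mul_inv_cancel₀ h0
open Classical in
theorem FHom.sel_ind (h : FHom o φ) (a x y : α) :
    φ (o.sel (o.ind a) x y) = if φ a = 0 then φ y else φ x := by
  rw [h.toHom.sel, h.ind]
  split_ifs <;> simp
theorem FHom.first (h : FHom o φ) (l : List α) (t : ℕ) (h1 : vec φ l t ≠ 0)
    (h2 : ∀ j < t, vec φ l j = 0) : φ (o.first l) = vec φ l t := by
  induction l generalizing t with
  | nil => simp [vec] at h1
  | cons c l ih =>
    rw [Ops.first, List.foldr_cons, h.sel_ind]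
    rcases t with _ | t
    · exact if_neg h1
    · have h0 : φ c = 0 := h2 0 (Nat.succ_pos t)
      rw [if_pos h0]
      exact ih t h1 fun j hj => h2 (j + 1) (Nat.succ_lt_succ hj)
theorem FHom.first_ne (h : FHom o φ) (l : List α) (h1 : ∃ a ∈ l, φ a ≠ 0) :
    ∃ a ∈ l, φ a ≠ 0 ∧ φ (o.first l) = φ a := by
  induction l with
  | nil => simp at h1
  | cons c l ih =>
    rw [Ops.first, List.foldr_cons, h.sel_ind]
    by_cases h0 : φ c = 0
    · obtain ⟨a, ha, ha'⟩ := h1
      obtain ⟨b, hb, hb1, hb2⟩ := ih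
        ⟨a, (List.mem_cons.1 ha).resolve_left fun e => ha' (e ▸ h0), ha'⟩
      exact ⟨b, List.mem_cons_of_mem _ hb, hb1, (if_pos h0).trans hb2⟩
    · exact ⟨c, List.mem_cons_self, h0, if_neg h0⟩
theorem os_inv {Q : ℕ} (hQ : 2 ≤ Q) {y : R} (hy : y ^ Q = y) : y ^ (2 * Q - 3) = y⁻¹ := by
  rcases eq_or_ne y 0 with rfl | h0
  · rw [zero_pow (by omega), inv_zero]
  · obtain ⟨k, rfl⟩ := Nat.exists_eq_add_of_le' hQ
    have h1 : y ^ (k + 1) = 1 := mul_right_cancel₀ h0 (by rw [← pow_succ, one_mul]; exact hy)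
    refine eq_inv_of_mul_eq_one_left ?_
    rw [← pow_succ, show 2 * (k + 2) - 3 + 1 = (k + 1) * 2 by omega, pow_mul, h1, one_pow]
theorem KHom.quot {Q : ℕ} (h : KHom o φ Q) {m : List α} (hm : IsMon φ m) {x : R}
    (hx : eval x (tp φ m) = 0) (hQ : x ^ Q = x) :
    KHom (o.quot m Q) (fun a => eval x (tp φ a)) Q := by
  have hfix : ∀ a, eval x (tp φ a) ^ Q = eval x (tp φ a) := by
    intro a
    induction a with
    | nil => simpa using (by have := h.two; omega : Q ≠ 0)
    | cons c a ih =>
      simp only [tp_cons, eval_add, eval_mul, eval_C, eval_X]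
      rw [h.frob, mul_pow, h.fix, hQ, ih]
  exact ⟨⟨h.toHom.quot hm hx Q, fun a =>
    ((h.toHom.quot0 hm hx).pow a _).trans (os_inv h.two (hfix a))⟩, h.two, h.frob, hfix⟩
theorem fhom_oP (p : ℕ) [Fact p.Prime] [CharP R p] : FHom (oP p) (Nat.cast : ℕ → R) := by
  have hp : p.Prime := Fact.out
  have h := hom_oP (R := R) p hp.pos
  have h0 : Hom (oP0 p) (Nat.cast : ℕ → R) := ⟨h.zero, h.one, h.add, h.mul, h.neg⟩
  exact ⟨h, fun a => (h0.pow a _).trans (os_inv hp.two_le (map_natCast (frobenius R p) a))⟩
theorem khom_oP (p : ℕ) [Fact p.Prime] [CharP R p] {k : ℕ} (hk : 0 < k) :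
    KHom (oP p) (Nat.cast : ℕ → R) (p ^ k) := by
  have hp : p.Prime := Fact.out
  exact ⟨fhom_oP p, hp.two_le.trans (Nat.le_self_pow hk.ne' p),
    fun a b => add_pow_char_pow a b p k, fun a => map_natCast (iterateFrobenius R p k) a⟩

end Field

end Vale.Agent.P319
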