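import Vale.Agent.P319.LinSpec

/-! Correctness of the arithmetic on the curve and of the block solver. -/

namespace Vale.Agent.P319

open Polynomial Finset

section Ring

variable {α R L : Type} [CommRing R] [CommRing L] [Algebra R L] {o : Ops α} {φ : α → R}
  {X Y : L} {ℓ : ℕ}

theorem ts_getD_range {β : Type} (k : ℕ) (g : ℕ → β) (d : β) {j : ℕ} (hj : j < k) :
    ((List.range k).map g).getD j d = g j := by
  simp [List.getD_eq_getElem?_getD, hj]
theorem ts_sum_range {M : Type} [AddCommMonoid M] (g : ℕ → M) (n : ℕ) :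
    ((List.range n).map g).sum = ∑ i ∈ range n, g i := by
  induction n with
  | zero => simp
  | succ n ih => simp [List.range_succ, Finset.sum_range_succ, ih]
theorem ts_getD_mem {β : Type} (l : List β) (j : ℕ) (d : β) : l.getD j d ∈ l ∨ l.getD j d = d := by
  by_cases hj : j < l.length
  · left; rw [List.getD_eq_getElem _ _ hj]; exact List.getElem_mem hj
  · right; exact List.getD_eq_default _ _ (not_lt.1 hj)
theorem ts_sem_range (g : ℕ → List α) :
    sem φ X Y ℓ ((List.range ℓ).map g) = ∑ b ∈ range ℓ, aeval X (tp φ (g b)) * Y ^ b :=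
  Finset.sum_congr rfl fun b hb => by rw [ts_getD_range _ _ _ (mem_range.1 hb)]
theorem ts_rot {M : Type} [AddCommMonoid M] (G : ℕ → M) {i n : ℕ} (hi : i ≤ n) :
    ∑ k ∈ range n, (if i ≤ k then G (k - i) else G (k + n - i)) = ∑ j ∈ range n, G j := by
  obtain ⟨m, rfl⟩ := Nat.exists_eq_add_of_le hi
  have e : ∑ j ∈ range (i + m), G j = ∑ k ∈ range i, G (m + k) + ∑ k ∈ range m, G k := by
    rw [add_comm i m, Finset.sum_range_add, add_comm]
  rw [e, Finset.sum_range_add]
  congr 1
  · refine Finset.sum_congr rfl fun k hk => ?_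
    rw [if_neg (not_le.2 (mem_range.1 hk))]
    congr 1; omega
  · refine Finset.sum_congr rfl fun k _ => ?_
    rw [if_pos (Nat.le_add_right _ _), Nat.add_sub_cancel_left]
theorem ts_tsm_getD (c : α) (a : List (List α)) (b : ℕ) :
    (o.tsm c a).getD b [] = o.psm c (a.getD b []) :=
  List.getD_map a [] (o.psm c)
theorem ts_tp_sum (q : List α) {A : ℕ} (hq : q.length ≤ A) :
    tp φ q = ∑ a ∈ range A, C (vec φ q a) * Polynomial.X ^ a := by
  ext j
  rw [coeff_tp, finsetSum_coeff]
  simp only [coeff_C_mul_X_pow, Finset.sum_ite_eq, mem_range]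
  split_ifs with hj
  · rfl
  · exact vec_of_le _ (hq.trans (not_lt.1 hj))

@[simp] theorem sem_nil : sem φ X Y ℓ [] = 0 := by
  simp [sem]
theorem sem_single (hℓ : 0 < ℓ) (q : List α) : sem φ X Y ℓ [q] = aeval X (tp φ q) := by
  unfold sem
  rw [Finset.sum_eq_single 0]
  · simp
  · intro b _ hb
    obtain ⟨b, rfl⟩ := Nat.exists_eq_succ_of_ne_zero hb
    simp
  · intro h; exact absurd (mem_range.2 hℓ) h
theorem sem_pair (hℓ : 1 < ℓ) (q q' : List α) :
    sem φ X Y ℓ [q, q'] = aeval X (tp φ q) + aeval X (tp φ q') * Y := by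
  obtain ⟨m, rfl⟩ : ∃ m, ℓ = m + 2 := ⟨ℓ - 2, by omega⟩
  unfold sem
  rw [Finset.sum_range_succ', Finset.sum_range_succ']
  simp [add_comm]
theorem Hom.tadd (h : Hom o φ) (a b : List (List α)) :
    sem φ X Y ℓ (o.tadd ℓ a b) = sem φ X Y ℓ a + sem φ X Y ℓ b := by
  unfold Ops.tadd
  rw [ts_sem_range]
  unfold sem
  rw [← Finset.sum_add_distrib]
  refine Finset.sum_congr rfl fun k _ => ?_
  rw [h.padd, map_add, add_mul]
theorem Hom.tsm (h : Hom o φ) (c : α) (a : List (List α)) :
    sem φ X Y ℓ (o.tsm c a) = φ c • sem φ X Y ℓ a := by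
  unfold sem
  rw [Finset.smul_sum]
  refine Finset.sum_congr rfl fun k _ => ?_
  rw [ts_tsm_getD, h.psm, map_mul, aeval_C, Algebra.smul_def, mul_assoc]
theorem Hom.tmul (h : Hom o φ) {F : List α} (hY : Y ^ ℓ = aeval X (tp φ F))
    (a b : List (List α)) : sem φ X Y ℓ (o.tmul ℓ F a b) = sem φ X Y ℓ a * sem φ X Y ℓ b := by
  unfold Ops.tmul
  rw [ts_sem_range]
  have e1 : ∀ k ∈ range ℓ, aeval X (tp φ (o.psum ((List.range ℓ).map fun i =>
      if i ≤ k then o.pmul (a.getD i []) (b.getD (k - i) [])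
      else o.pmul F (o.pmul (a.getD i []) (b.getD (k + ℓ - i) []))))) * Y ^ k =
      ∑ i ∈ range ℓ, aeval X (tp φ (a.getD i [])) * Y ^ i *
        (if i ≤ k then aeval X (tp φ (b.getD (k - i) [])) * Y ^ (k - i)
          else aeval X (tp φ (b.getD (k + ℓ - i) [])) * Y ^ (k + ℓ - i)) := by
    intro k _
    rw [h.psum, List.map_map, ts_sum_range, map_sum, Finset.sum_mul]
    refine Finset.sum_congr rfl fun i hi => ?_
    have hi' := mem_range.1 hi
    simp only [Function.comp]
    split_ifs with hik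
    · have : Y ^ k = Y ^ i * Y ^ (k - i) := by rw [← pow_add]; congr 1; omega
      rw [h.pmul, map_mul, this]; ring
    · have : Y ^ ℓ * Y ^ k = Y ^ i * Y ^ (k + ℓ - i) := by
        rw [← pow_add, ← pow_add]; congr 1; omega
      rw [h.pmul, h.pmul, map_mul, map_mul, ← hY]
      linear_combination (aeval X (tp φ (a.getD i [])) *
        aeval X (tp φ (b.getD (k + ℓ - i) []))) * this
  rw [Finset.sum_congr rfl e1, Finset.sum_comm]
  unfold sem
  rw [Finset.sum_mul]
  refine Finset.sum_congr rfl fun i hi => ?_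
  rw [← Finset.mul_sum,
    ts_rot (fun j => aeval X (tp φ (b.getD j [])) * Y ^ j) (mem_range.1 hi).le]
theorem Hom.ttau (h : Hom o φ) (τ : L →ₐ[R] L) (c : α) (hX : τ X = X) (hY : τ Y = φ c • Y)
    (a : List (List α)) : sem φ X Y ℓ (o.ttau ℓ c a) = τ (sem φ X Y ℓ a) := by
  unfold Ops.ttau
  rw [ts_sem_range]
  unfold sem
  rw [map_sum]
  refine Finset.sum_congr rfl fun k _ => ?_
  rw [h.psm, h.pow, map_mul, map_mul, map_pow τ, hY, ← aeval_algHom_apply, hX, aeval_C,
    Algebra.smul_def, map_pow, mul_pow]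
  ring
theorem Hom.tsum (h : Hom o φ) (l : List (List (List α))) :
    sem φ X Y ℓ (o.tsum ℓ l) = (l.map (sem φ X Y ℓ)).sum := by
  unfold Ops.tsum
  rw [ts_sem_range]
  simp only [h.psum, List.map_map]
  induction l with
  | nil => simp
  | cons a l ih =>
    simp only [List.map_cons, List.sum_cons, Function.comp, map_add, add_mul,
      Finset.sum_add_distrib] at ih ⊢
    rw [ih]; rfl
theorem Hom.tprod (h : Hom o φ) (hℓ : 0 < ℓ) {F : List α} (hY : Y ^ ℓ = aeval X (tp φ F))
    (l : List (List (List α))) : sem φ X Y ℓ (o.tprod ℓ F l) = (l.map (sem φ X Y ℓ)).prod := by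
  have : ∀ s, sem φ X Y ℓ (l.foldl (o.tmul ℓ F) s)
      = sem φ X Y ℓ s * (l.map (sem φ X Y ℓ)).prod := by
    induction l with
    | nil => simp
    | cons a l ih => intro s; rw [List.foldl_cons, ih, h.tmul hY, List.map_cons, List.prod_cons,
        mul_assoc]
  unfold Ops.tprod
  rw [this, sem_single hℓ, tp_single, h.one]
  simp
theorem Hom.tpow (h : Hom o φ) (hℓ : 0 < ℓ) {F : List α} (hY : Y ^ ℓ = aeval X (tp φ F))
    {B k : ℕ} (hk : k ≤ B) (z : List (List α)) :
    sem φ X Y ℓ (o.tpow ℓ F B z k) = sem φ X Y ℓ z ^ k := by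
  unfold Ops.tpow
  rw [h.tprod hℓ hY, min_eq_left hk, List.map_replicate, List.prod_replicate]
theorem Hom.tmon (h : Hom o φ) {A : ℕ} {q : ℕ × ℕ} (h1 : q.1 < A) (h2 : q.2 < ℓ) :
    sem φ X Y ℓ (o.tmon ℓ A q) = X ^ q.1 * Y ^ q.2 := by
  unfold Ops.tmon
  rw [ts_sem_range, Finset.sum_eq_single q.2]
  · rw [if_pos rfl, h.pmon h1, map_pow, aeval_X]
  · intro b _ hb
    rw [if_neg hb]; simp
  · intro h; exact absurd (mem_range.2 h2) h
theorem Hom.lin (h : Hom o φ) (c : List α) (us : List (List (List α))) :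
    sem φ X Y ℓ (o.lin ℓ c us) =
      ∑ t ∈ range us.length, vec φ c t • sem φ X Y ℓ (us.getD t []) := by
  unfold Ops.lin
  rw [h.tsum, List.map_map, ts_sum_range]
  refine Finset.sum_congr rfl fun t _ => ?_
  simp only [Function.comp]
  rw [h.tsm, h.vec_eq]
theorem length_lin_le {A : ℕ} (c : List α) (us : List (List (List α)))
    (hu : ∀ u ∈ us, ∀ q ∈ u, q.length ≤ A) : ∀ q ∈ o.lin ℓ c us, q.length ≤ A := by
  intro q hq
  unfold Ops.lin Ops.tsum at hq
  obtain ⟨k, -, rfl⟩ := List.mem_map.1 hq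
  unfold Ops.psum
  rw [List.length_map, List.length_range, Vale.Agent.Lib.PolyTime.lmax_le]
  intro x hx
  simp only [List.map_map, List.mem_map, Function.comp] at hx
  obtain ⟨t, -, rfl⟩ := hx
  rw [ts_tsm_getD]
  unfold Ops.psm
  rw [List.length_map]
  rcases ts_getD_mem (us.getD t []) k [] with h1 | h1
  · rcases ts_getD_mem us t [] with h2 | h2
    · exact hu _ h2 _ h1
    · rw [h2]; simp
  · rw [h1]; simp
theorem length_tmon_le (A : ℕ) (q : ℕ × ℕ) : ∀ u ∈ o.tmon ℓ A q, u.length ≤ A := by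
  intro u hu
  unfold Ops.tmon at hu
  obtain ⟨k, -, rfl⟩ := List.mem_map.1 hu
  split_ifs
  · exact (length_pmon _ _).le
  · simp
theorem Indep.comp0 (hI : Indep R X Y ℓ) (hℓ : 0 < ℓ) {z : List (List α)} {q : R[X]}
    (hz : sem φ X Y ℓ z = aeval X q) : tp φ (z.getD 0 []) = q := by
  have := hI (fun b => tp φ (z.getD b []) - if b = 0 then q else 0) (by
    simp only [map_sub, sub_mul, Finset.sum_sub_distrib]
    rw [sub_eq_zero]
    refine hz.trans ?_
    rw [Finset.sum_eq_single 0]
    · simp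
    · intro b _ hb; simp [hb]
    · intro h; exact absurd (mem_range.2 hℓ) h) 0 hℓ
  simpa [sub_eq_zero] using this
theorem indep_one : Indep R (Polynomial.X : R[X]) 1 1 := by
  intro q hq b hb
  obtain rfl : b = 0 := by omega
  simpa using hq
theorem sem_one (q : List α) : sem φ (Polynomial.X : R[X]) 1 1 [q] = tp φ q := by
  rw [sem_single Nat.one_pos, aeval_X_left_apply]
theorem sem_fixed (σ : L → L) (s : R → R) (h0 : σ 0 = 0) (h1 : σ 1 = 1)
    (ha : ∀ a b, σ (a + b) = σ a + σ b) (hm : ∀ a b, σ (a * b) = σ a * σ b)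
    (hc : ∀ c, σ (algebraMap R L c) = algebraMap R L (s c)) (hs : ∀ a, s (φ a) = φ a)
    (hX : σ X = X) (hY : σ Y = Y) (z : List (List α)) : σ (sem φ X Y ℓ z) = sem φ X Y ℓ z := by
  let σ' : L →+* L := ⟨⟨⟨σ, h1⟩, hm⟩, h0, ha⟩
  have e : ∀ x, σ x = σ' x := fun _ => rfl
  have hp : ∀ l : List α, σ' (aeval X (tp φ l)) = aeval X (tp φ l) := by
    intro l
    induction l with
    | nil => simp
    | cons c l ih =>
      rw [tp_cons, map_add, map_mul, aeval_C, aeval_X, map_add, map_mul, ih, ← e, ← e, hc, hs, hX]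
  unfold sem
  rw [e, map_sum]
  refine Finset.sum_congr rfl fun k _ => ?_
  rw [map_mul, map_pow, hp, ← e, hY]
theorem sem_map_single (x : R) (z : List (List α)) :
    sem (fun a => eval x (tp φ a)) X Y ℓ (z.map fun q => q.map fun c => [c]) = sem φ X Y ℓ z := by
  unfold sem
  refine Finset.sum_congr rfl fun k _ => ?_
  have : (z.map fun q => q.map fun c => [c]).getD k [] = (z.getD k []).map fun c => [c] :=
    List.getD_map z [] (fun q => q.map fun c => [c])
  rw [this, tp_map_single]
/-- Independence of the monomials along a list without repetition. -/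
theorem Indep.list (hI : Indep R X Y ℓ) (l : List (ℕ × ℕ)) (h1 : l.Nodup) (h2 : ∀ q ∈ l, q.2 < ℓ)
    (c : ℕ → R) (hc : ∑ t ∈ range l.length,
      c t • (X ^ (l.getD t (0, 0)).1 * Y ^ (l.getD t (0, 0)).2) = 0) :
    ∀ t < l.length, c t = 0 := by
  intro t0 ht0
  have hm : ∀ t < l.length, l.getD t (0, 0) ∈ l := fun t ht => by
    rw [List.getD_eq_getElem _ _ ht]; exact List.getElem_mem ht
  have := hI (fun b => ∑ t ∈ range l.length, if (l.getD t (0, 0)).2 = b then
      C (c t) * Polynomial.X ^ (l.getD t (0, 0)).1 else 0) (by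
    rw [← hc]
    simp only [map_sum, Finset.sum_mul]
    rw [Finset.sum_comm]
    refine Finset.sum_congr rfl fun t ht => ?_
    rw [Finset.sum_eq_single (l.getD t (0, 0)).2]
    · rw [if_pos rfl, map_mul, aeval_C, map_pow, aeval_X, Algebra.smul_def, mul_assoc]
    · intro b _ hb; rw [if_neg hb.symm]; simp
    · intro h; exact absurd (mem_range.2 (h2 _ (hm t (mem_range.1 ht)))) h)
    (l.getD t0 (0, 0)).2 (h2 _ (hm t0 ht0))
  have h3 := congrArg (fun p => p.coeff (l.getD t0 (0, 0)).1) this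
  simp only [finsetSum_coeff, coeff_zero] at h3
  rw [Finset.sum_eq_single t0] at h3
  · rw [if_pos rfl, coeff_C_mul_X_pow, if_pos rfl] at h3
    exact h3
  · intro t ht hne
    split_ifs with h4
    · rw [coeff_C_mul_X_pow, if_neg]
      intro h5
      have h6 : l.getD t (0, 0) = l.getD t0 (0, 0) := Prod.ext h5.symm h4
      rw [List.getD_eq_getElem _ _ (mem_range.1 ht), List.getD_eq_getElem _ _ ht0] at h6
      exact hne ((List.Nodup.getElem_inj_iff h1).1 h6)
    · simp
  · intro h; exact absurd (mem_range.2 ht0) h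
/-- An element of the span of a subfamily of a list has coefficients supported there. -/
theorem exists_coef {ι : Type} (l : List ι) (i0 : ι) (u : ι → L) (p : ι → Prop) (z : L)
    (hz : z ∈ Submodule.span R {w | ∃ q ∈ l, p q ∧ w = u q}) :
    ∃ c : ℕ → R, (∀ t, c t ≠ 0 → t < l.length ∧ p (l.getD t i0)) ∧
      z = ∑ t ∈ range l.length, c t • u (l.getD t i0) := by
  induction hz using Submodule.span_induction with
  | mem w hw =>
    obtain ⟨q, hq, hp, rfl⟩ := hw
    obtain ⟨t, ht, rfl⟩ := List.getElem_of_mem hq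
    refine ⟨fun s => if s = t then 1 else 0, fun s hs => ?_, ?_⟩
    · obtain rfl : s = t := by by_contra hne; exact hs (if_neg hne)
      rw [List.getD_eq_getElem _ _ ht]; exact ⟨ht, hp⟩
    · rw [Finset.sum_eq_single t]
      · simp only [if_true, one_smul, List.getD_eq_getElem _ _ ht]
      · intro b _ hb; simp only [if_neg hb, zero_smul]
      · intro h; exact absurd (mem_range.2 ht) h
  | zero => exact ⟨fun _ => 0, fun _ h => absurd rfl h, by simp⟩
  | add x y _ _ hx hy =>
    obtain ⟨c, hc, rfl⟩ := hx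
    obtain ⟨c', hc', rfl⟩ := hy
    refine ⟨fun t => c t + c' t, fun t ht => ?_, ?_⟩
    · by_cases h : c t = 0
      · exact hc' t fun h' => ht (by simp only [h, h', add_zero])
      · exact hc t h
    · simp only [add_smul, Finset.sum_add_distrib]
  | smul a x _ hx =>
    obtain ⟨c, hc, rfl⟩ := hx
    refine ⟨fun t => a * c t, fun t ht => hc t fun h => ht (by simp only [h, mul_zero]), ?_⟩
    simp only [Finset.smul_sum, mul_smul]

end Ring

theorem mem_mons {u : ℕ} (hu : 0 < u) (v ℓ W : ℕ) (q : ℕ × ℕ) :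
    q ∈ mons u v ℓ W ↔ q.2 < ℓ ∧ u * q.1 + v * q.2 ≤ W := by
  obtain ⟨a, b⟩ := q
  simp only [mons, List.mem_flatMap, List.mem_reverse, List.mem_range, List.mem_map,
    List.mem_filter, decide_eq_true_eq, Prod.mk.injEq]
  constructor
  · rintro ⟨w, hw, b', hb', a', ⟨-, h⟩, rfl, rfl⟩
    exact ⟨hb', by omega⟩
  · rintro ⟨h1, h2⟩
    have : a ≤ u * a := Nat.le_mul_of_pos_left a hu
    exact ⟨u * a + v * b, by omega, b, h1, a, ⟨by omega, rfl⟩, rfl, rfl⟩
theorem nodup_mons (u v ℓ W : ℕ) : (mons u v ℓ W).Nodup := by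
  unfold mons
  refine List.nodup_flatMap.2 ⟨fun w _ => List.nodup_flatMap.2 ⟨fun b _ => ?_, ?_⟩, ?_⟩
  · exact (List.nodup_range.filter _).map fun a a' h => (Prod.ext_iff.1 h).1
  · refine List.nodup_range.pairwise_of_forall_ne fun b _ b' _ hne => ?_
    intro q h1 h2
    simp only [List.mem_map] at h1 h2
    obtain ⟨a, -, rfl⟩ := h1
    obtain ⟨a', -, h⟩ := h2
    exact hne (Prod.ext_iff.1 h).2.symm
  · refine (List.nodup_reverse.2 List.nodup_range).pairwise_of_forall_ne fun w _ w' _ hne => ?_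
    intro q h1 h2
    simp only [List.mem_flatMap, List.mem_map, List.mem_filter, decide_eq_true_eq] at h1 h2
    obtain ⟨b, -, a, ⟨-, h⟩, rfl⟩ := h1
    obtain ⟨b', -, a', ⟨-, h'⟩, h3⟩ := h2
    obtain ⟨rfl, rfl⟩ := Prod.ext_iff.1 h3
    exact hne (h.symm.trans h')
theorem sorted_mons (u v ℓ W : ℕ) :
    (mons u v ℓ W).Pairwise fun q q' => u * q'.1 + v * q'.2 ≤ u * q.1 + v * q.2 := by
  unfold mons
  have key : ∀ w q, q ∈ ((List.range ℓ).flatMap fun b =>
      ((List.range (W + 1)).filter fun a => decide (u * a + v * b = w)).map fun a => (a, b)) →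
      u * q.1 + v * q.2 = w := by
    intro w q hq
    simp only [List.mem_flatMap, List.mem_map, List.mem_filter, decide_eq_true_eq] at hq
    obtain ⟨b, -, a, ⟨-, h⟩, rfl⟩ := hq
    exact h
  refine List.pairwise_flatMap.2 ⟨fun w _ => ?_, ?_⟩
  · refine List.pairwise_of_forall_mem_list fun q hq q' hq' => ?_
    rw [key w q hq, key w q' hq']
  · rw [List.pairwise_reverse]
    refine List.pairwise_lt_range.imp fun {w w'} hw q hq q' hq' => ?_
    rw [key _ q hq, key _ q' hq']
    exact hw.le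

theorem ts_flat_len {β : Type} (f : ℕ → List β) (m J : ℕ) (hf : ∀ j, (f j).length = m) :
    ((List.range J).flatMap f).length = J * m := by
  induction J with
  | zero => simp
  | succ J ih => rw [List.range_succ, List.flatMap_append, List.length_append, ih]; simp [hf]; ring
theorem ts_flat_getD {β : Type} (f : ℕ → List β) (m J : ℕ) (hf : ∀ j, (f j).length = m) (d : β)
    {j r : ℕ} (hj : j < J) (hr : r < m) :
    ((List.range J).flatMap f).getD (j * m + r) d = (f j).getD r d := by
  induction J with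
  | zero => omega
  | succ J ih =>
    rw [List.range_succ, List.flatMap_append]
    rcases Nat.lt_succ_iff_lt_or_eq.1 hj with h | rfl
    · rw [List.getD_append, ih h]
      rw [ts_flat_len f m J hf]
      have : (j + 1) * m ≤ J * m := Nat.mul_le_mul_right m h
      rw [add_mul] at this
      omega
    · rw [List.getD_append_right _ _ _ _ (by rw [ts_flat_len f m j hf]; omega),
        ts_flat_len f m j hf]
      simp

section Solve

variable {α R L : Type} [CommRing R] [CommRing L] [Algebra R L] {o : Ops α} {φ : α → R}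
  {X Y : L} {ℓ : ℕ}

theorem ts_length_flat (J A : ℕ) (c : List (List (List α))) :
    (o.flat ℓ J A c).length = J * ℓ * A := by
  unfold Ops.flat
  rw [ts_flat_len _ (ℓ * A) J fun j => ts_flat_len _ A ℓ fun b => by simp, mul_assoc]
theorem ts_vec_flat (h : Hom o φ) {J A : ℕ} (c : List (List (List α))) {j b a : ℕ} (hj : j < J)
    (hb : b < ℓ) (ha : a < A) :
    vec φ (o.flat ℓ J A c) (j * (ℓ * A) + (b * A + a)) = vec φ ((c.getD j []).getD b []) a := by
  have h1 : b * A + a < ℓ * A := by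
    have : (b + 1) * A ≤ ℓ * A := Nat.mul_le_mul_right A hb
    rw [add_mul] at this
    omega
  rw [h.vec_eq, h.vec_eq]
  unfold Ops.flat
  rw [ts_flat_getD _ (ℓ * A) J (fun j => ts_flat_len _ A ℓ fun b => by simp) _ hj h1,
    ts_flat_getD _ A ℓ (fun b => by simp) _ hb ha, ts_getD_range _ _ _ ha]

/-- The element read off from block `j` of a coefficient vector. -/
noncomputable def tsPhi (R : Type) {L : Type} [CommRing R] [CommRing L] [Algebra R L] (X Y : L)
    (ℓ A j : ℕ) : (ℕ → R) →ₗ[R] L :=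
  ∑ b ∈ range ℓ, ∑ a ∈ range A,
    (LinearMap.proj (j * (ℓ * A) + (b * A + a)) : (ℕ → R) →ₗ[R] R).smulRight (X ^ a * Y ^ b)

theorem ts_phi_apply (A j : ℕ) (w : ℕ → R) : tsPhi R X Y ℓ A j w = ∑ b ∈ range ℓ,
    aeval X (∑ a ∈ range A, C (w (j * (ℓ * A) + (b * A + a))) * Polynomial.X ^ a) * Y ^ b := by
  unfold tsPhi
  rw [LinearMap.sum_apply]
  refine Finset.sum_congr rfl fun b _ => ?_
  rw [LinearMap.sum_apply, map_sum, Finset.sum_mul]
  refine Finset.sum_congr rfl fun a _ => ?_
  rw [LinearMap.smulRight_apply, LinearMap.proj_apply, map_mul, aeval_C, map_pow, aeval_X,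
    Algebra.smul_def, mul_assoc]
theorem ts_phi_flat (h : Hom o φ) {J A : ℕ} (c : List (List (List α))) {j : ℕ} (hj : j < J)
    (hc : ∀ b, ((c.getD j []).getD b []).length ≤ A) :
    tsPhi R X Y ℓ A j (vec φ (o.flat ℓ J A c)) = sem φ X Y ℓ (c.getD j []) := by
  rw [ts_phi_apply]
  refine Finset.sum_congr rfl fun b hb => ?_
  rw [ts_tp_sum _ (hc b)]
  congr 2
  exact Finset.sum_congr rfl fun a ha => by
    rw [ts_vec_flat h c hj (mem_range.1 hb) (mem_range.1 ha)]
theorem ts_phi_inj (hI : Indep R X Y ℓ) {J A : ℕ} (w : ℕ → R) (h1 : ∀ n, J * ℓ * A ≤ n → w n = 0)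
    (h2 : ∀ j < J, tsPhi R X Y ℓ A j w = 0) : w = 0 := by
  funext n
  by_cases hn : J * ℓ * A ≤ n
  · exact h1 n hn
  have hn' : n < J * (ℓ * A) := by rw [← mul_assoc]; exact not_le.1 hn
  have hp : 0 < ℓ * A := Nat.pos_of_ne_zero fun h => by rw [h] at hn'; omega
  have hA : 0 < A := Nat.pos_of_ne_zero fun h => by rw [h] at hp; omega
  have hj : n / (ℓ * A) < J := (Nat.div_lt_iff_lt_mul hp).2 hn'
  have hb : n % (ℓ * A) / A < ℓ := (Nat.div_lt_iff_lt_mul hA).2 (Nat.mod_lt _ hp)
  have ha : n % (ℓ * A) % A < A := Nat.mod_lt _ hA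
  have h3 := h2 _ hj
  rw [ts_phi_apply] at h3
  have h4 := congrArg (fun p => p.coeff (n % (ℓ * A) % A)) (hI _ h3 _ hb)
  simp only [finsetSum_coeff, coeff_C_mul_X_pow, Finset.sum_ite_eq, mem_range, if_pos ha,
    coeff_zero] at h4
  rwa [Nat.div_add_mod', Nat.div_add_mod'] at h4
theorem ts_core (h : Hom o φ) (hI : Indep R X Y ℓ) {A : ℕ} (G : List (List (List (List α))))
    (hG : ∀ j, ∀ g ∈ G.getD j [], ∀ b, (g.getD b []).length ≤ A) (v : ℕ → R)
    (hv : ∀ n, G.length * ℓ * A ≤ n → v n = 0) :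
    v ∈ Submodule.span R {w | w ∈ ((List.range G.length).flatMap fun j => (G.getD j []).map
        fun g => o.flat ℓ G.length A ((List.range G.length).map fun i =>
          if i = j then g else [])).map (vec φ)} ↔
      ∀ j < G.length, tsPhi R X Y ℓ A j v ∈
        Submodule.span R {g | g ∈ (G.getD j []).map (sem φ X Y ℓ)} := by
  have hb : ∀ j, ∀ g ∈ G.getD j [], ∀ i < G.length, tsPhi R X Y ℓ A i (vec φ (o.flat ℓ G.length A
      ((List.range G.length).map fun i => if i = j then g else []))) =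
        if i = j then sem φ X Y ℓ g else 0 := by
    intro j g hg i hi
    rw [ts_phi_flat h _ hi, ts_getD_range _ _ _ hi]
    · split_ifs
      · rfl
      · exact sem_nil
    · intro b
      rw [ts_getD_range _ _ _ hi]
      split_ifs
      · exact hG j g hg b
      · simp
  constructor
  · intro hm i hi
    refine (Submodule.span_le (p := (Submodule.span R
      {g | g ∈ (G.getD i []).map (sem φ X Y ℓ)}).comap (tsPhi R X Y ℓ A i))).2 ?_ hm
    intro w hw
    simp only [Set.mem_ofPred_eq, List.mem_map, List.mem_flatMap] at hw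
    obtain ⟨_, ⟨j, -, g, hg, rfl⟩, rfl⟩ := hw
    rw [SetLike.mem_coe, Submodule.mem_comap, hb j g hg i hi]
    split_ifs with hij
    · subst hij
      exact Submodule.subset_span (List.mem_map.2 ⟨g, hg, rfl⟩)
    · exact Submodule.zero_mem _
  · intro hm
    set S := Submodule.span R {w | w ∈ ((List.range G.length).flatMap fun j => (G.getD j []).map
        fun g => o.flat ℓ G.length A ((List.range G.length).map fun i =>
          if i = j then g else [])).map (vec φ)} with hS
    have key : ∀ j < G.length, ∀ z ∈ Submodule.span R {g | g ∈ (G.getD j []).map (sem φ X Y ℓ)},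
        ∃ u ∈ S, (∀ n, G.length * ℓ * A ≤ n → u n = 0) ∧
          ∀ i < G.length, tsPhi R X Y ℓ A i u = if i = j then z else 0 := by
      intro j hj z hz
      induction hz using Submodule.span_induction with
      | mem z hz =>
        obtain ⟨g, hg, rfl⟩ := List.mem_map.1 hz
        refine ⟨_, Submodule.subset_span (List.mem_map.2 ⟨_, List.mem_flatMap.2
          ⟨j, List.mem_range.2 hj, List.mem_map.2 ⟨g, hg, rfl⟩⟩, rfl⟩), fun n hn => ?_, hb j g hg⟩
        exact vec_of_le _ (by rw [ts_length_flat]; exact hn)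
      | zero => exact ⟨0, S.zero_mem, fun _ _ => rfl, fun i _ => by simp⟩
      | add x y _ _ hx hy =>
        obtain ⟨u, hu, h1, h2⟩ := hx
        obtain ⟨u', hu', h1', h2'⟩ := hy
        refine ⟨u + u', S.add_mem hu hu', fun n hn => by simp [h1 n hn, h1' n hn], fun i hi => ?_⟩
        rw [map_add, h2 i hi, h2' i hi]
        split_ifs <;> simp
      | smul a x _ hx =>
        obtain ⟨u, hu, h1, h2⟩ := hx
        refine ⟨a • u, S.smul_mem a hu, fun n hn => by simp [h1 n hn], fun i hi => ?_⟩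
        rw [map_smul, h2 i hi]
        split_ifs <;> simp
    have key2 : ∀ j, ∃ u ∈ S, (∀ n, G.length * ℓ * A ≤ n → u n = 0) ∧ (j < G.length →
        ∀ i < G.length, tsPhi R X Y ℓ A i u = if i = j then tsPhi R X Y ℓ A j v else 0) := by
      intro j
      by_cases hj : j < G.length
      · obtain ⟨u, hu, h1, h2⟩ := key j hj _ (hm j hj)
        exact ⟨u, hu, h1, fun _ => h2⟩
      · exact ⟨0, S.zero_mem, fun _ _ => rfl, fun h' => absurd h' hj⟩
    choose u hu h1 h2 using key2
    have e : v - ∑ j ∈ range G.length, u j = 0 := by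
      refine ts_phi_inj hI (J := G.length) (A := A) _ (fun n hn => ?_) fun i hi => ?_
      · rw [Pi.sub_apply, hv n hn, Finset.sum_apply, Finset.sum_eq_zero fun j _ => h1 j n hn,
          sub_zero]
      · rw [map_sub, map_sum, Finset.sum_congr rfl fun j hj => h2 j (mem_range.1 hj) i hi,
          Finset.sum_ite_eq, if_pos (mem_range.2 hi), sub_self]
    rw [sub_eq_zero.1 e]
    exact S.sum_mem fun j _ => hu j

end Solve

theorem FHom.solve {α R L : Type} [Field R] [CommRing L] [Algebra R L] {o : Ops α} {φ : α → R}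
    {X Y : L} {ℓ : ℕ} (h : FHom o φ) (hI : Indep R X Y ℓ) (C G : List (List (List (List α)))) :
    (o.solve ℓ C G).length = C.length ∧ (∀ w ∈ o.solve ℓ C G, w.length ≤ C.length) ∧
      Ech C.length (fun i => vec φ ((o.solve ℓ C G).getD i [])) ∧
      ∀ c : ℕ → R, c ∈ Submodule.span R {w | w ∈ (o.solve ℓ C G).map (vec φ)} ↔
        (∀ t, C.length ≤ t → c t = 0) ∧ ∀ j < G.length,
          ∑ t ∈ range C.length, c t • sem φ X Y ℓ ((C.getD t []).getD j []) ∈
            Submodule.span R {g | g ∈ (G.getD j []).map (sem φ X Y ℓ)} := by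
  set A := Vale.Agent.Lib.PolyTime.lmax ((C ++ G).flatten.flatten.map List.length) with hA
  have hbd : ∀ c ∈ C ++ G, ∀ z ∈ c, ∀ b, (z.getD b []).length ≤ A := by
    intro c hc z hz b
    rcases ts_getD_mem z b [] with h1 | h1
    · exact Vale.Agent.Lib.PolyTime.le_lmax (List.mem_map.2 ⟨_, List.mem_flatten.2
        ⟨z, List.mem_flatten.2 ⟨c, hc, hz⟩, h1⟩, rfl⟩)
    · rw [h1]; simp
  have hG : ∀ j, ∀ g ∈ G.getD j [], ∀ b, (g.getD b []).length ≤ A := by
    intro j g hg b
    rcases ts_getD_mem G j [] with h1 | h1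
    · exact hbd _ (List.mem_append_right _ h1) g hg b
    · rw [h1] at hg; simp at hg
  have hC : ∀ t j b, (((C.getD t []).getD j []).getD b []).length ≤ A := by
    intro t j b
    rcases ts_getD_mem (C.getD t []) j [] with h1 | h1
    · rcases ts_getD_mem C t [] with h2 | h2
      · exact hbd _ (List.mem_append_left _ h2) _ h1 b
      · rw [h2]; simp
    · rw [h1]; simp
  have hk := h.kerMod (G.length * ℓ * A) (C.map (o.flat ℓ G.length A))
    ((List.range G.length).flatMap fun j => (G.getD j []).map fun g =>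
      o.flat ℓ G.length A ((List.range G.length).map fun i => if i = j then g else []))
    (fun v hv => by
      obtain ⟨c, -, rfl⟩ := List.mem_map.1 hv
      exact (ts_length_flat _ _ _).le)
    (fun v hv => by
      simp only [List.mem_flatMap, List.mem_map] at hv
      obtain ⟨j, -, g, -, rfl⟩ := hv
      exact (ts_length_flat _ _ _).le)
  rw [List.length_map] at hk
  refine ⟨hk.1, hk.2.1, hk.2.2.1, fun c => (hk.2.2.2 c).trans (and_congr_right fun _ => ?_)⟩
  have e : ∀ t ∈ range C.length, c t • vec φ ((C.map (o.flat ℓ G.length A)).getD t [])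
      = c t • vec φ (o.flat ℓ G.length A (C.getD t [])) := by
    intro t ht
    have ht' := mem_range.1 ht
    rw [List.getD_eq_getElem _ _ ht', List.getD_eq_getElem _ _ (by simpa using ht'),
      List.getElem_map]
  rw [Finset.sum_congr rfl e, ts_core h.toHom hI G hG]
  · refine forall₂_congr fun j hj => ?_
    rw [map_sum, Finset.sum_congr rfl fun t _ => by
      rw [map_smul, ts_phi_flat h.toHom _ hj (hC t j)]]
  · intro n hn
    rw [Finset.sum_apply]
    refine Finset.sum_eq_zero fun t _ => ?_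
    rw [Pi.smul_apply, vec_of_le _ (by rw [ts_length_flat]; exact hn), smul_zero]

end Vale.Agent.P319
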