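import Vale.Agent.P319.Alg2
import Vale.Agent.P319.TSpec

/-! Normal forms, greatest common divisors, minimal polynomials. -/

namespace Vale.Agent.P319

open Polynomial

theorem o1_append {α R : Type} [CommRing R] (φ : α → R) (l : List α) (c : α) :
    tp φ (l ++ [c]) = tp φ l + C (φ c) * X ^ l.length := by
  induction l with
  | nil => simp [tp]
  | cons a l ih =>
    rw [List.cons_append, tp_cons, tp_cons, ih, List.length_cons]
    ring

theorem o1_snoc (p : ℕ) (l : List ℕ) (c : ℕ) : trim p (l ++ [c]) =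
    if c % p = 0 then trim p l else (l.map fun c => c % p) ++ [c % p] := by
  simp only [trim, List.map_append, List.map_cons, List.map_nil, List.reverse_append,
    List.reverse_cons, List.reverse_nil, List.nil_append, List.cons_append, List.dropWhile_cons,
    decide_eq_true_eq]
  split_ifs <;> simp

theorem o1_length_le (p : ℕ) (l : List ℕ) : (trim p l).length ≤ l.length := by
  rw [trim, List.length_reverse]
  exact (List.dropWhile_sublist _).length_le.trans (by simp)

variable {p : ℕ} [Fact p.Prime]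

theorem o1_cases (l : List ℕ) : (trim p l = [] ∧ tz p l = 0) ∨ ∃ (l' : List ℕ) (c : ℕ),
    trim p l = l' ++ [c] ∧ (c : ZMod p) ≠ 0 ∧ tz p l = tz p (l' ++ [c]) := by
  induction l using List.reverseRecOn with
  | nil => exact Or.inl ⟨rfl, rfl⟩
  | append_singleton l c ih =>
    rw [o1_snoc]
    by_cases h : c % p = 0
    · have h1 : (c : ZMod p) = 0 := (ZMod.natCast_eq_zero_iff c p).2 (Nat.dvd_of_mod_eq_zero h)
      have h2 : tz p (l ++ [c]) = tz p l := by
        rw [tz, o1_append, h1, C_0, zero_mul, add_zero]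
      rwa [if_pos h, h2]
    · refine Or.inr ⟨_, _, if_neg h, ?_, ?_⟩
      · rw [ZMod.natCast_mod]
        exact fun h1 => h (Nat.mod_eq_zero_of_dvd ((ZMod.natCast_eq_zero_iff c p).1 h1))
      · simp only [tz, o1_append, tp_map, ZMod.natCast_mod, List.length_map]

theorem o1_lead (l : List ℕ) {c : ℕ} (hc : (c : ZMod p) ≠ 0) :
    (tz p (l ++ [c])).natDegree = l.length ∧ (tz p (l ++ [c])).leadingCoeff = c := by
  have h : (tz p l).degree < (C (c : ZMod p) * X ^ l.length).degree := by
    rw [degree_C_mul_X_pow _ hc]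
    exact degree_tp_lt l
  rw [tz, o1_append, natDegree_add_eq_right_of_degree_lt h, leadingCoeff_add_of_degree_lt h,
    natDegree_C_mul_X_pow _ _ hc, leadingCoeff_C_mul_X_pow]
  exact ⟨rfl, rfl⟩

omit [Fact p.Prime] in
theorem toPoly_eq (l : List ℕ) : toPoly p l = tz p l := by
  rw [tz, ts_tp_sum l le_rfl, toPoly]
  refine Finset.sum_congr rfl fun i hi => ?_
  simp [vec, List.getElem?_eq_getElem (Finset.mem_range.1 hi)]
theorem tz_trim (l : List ℕ) : tz p (trim p l) = tz p l := by
  rcases o1_cases (p := p) l with ⟨h1, h2⟩ | ⟨l', c, h1, -, h2⟩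
  · rw [h1, h2]
    rfl
  · rw [h1, h2]
theorem trim_eq_nil (l : List ℕ) : trim p l = [] ↔ tz p l = 0 := by
  rcases o1_cases (p := p) l with ⟨h1, h2⟩ | ⟨l', c, h1, h3, h2⟩
  · exact iff_of_true h1 h2
  · refine iff_of_false (by simp [h1]) fun h => h3 ?_
    rw [← (o1_lead l' h3).2, ← h2, h, leadingCoeff_zero]
theorem length_trim {l : List ℕ} (h : tz p l ≠ 0) :
    (trim p l).length = (tz p l).natDegree + 1 := by
  rcases o1_cases (p := p) l with ⟨-, h2⟩ | ⟨l', c, h1, h3, h2⟩
  · exact absurd h2 h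
  · rw [h1, h2, (o1_lead l' h3).1, List.length_append, List.length_singleton]
theorem last_trim (l : List ℕ) : (((trim p l).getLastD 0 : ℕ) : ZMod p) = (tz p l).leadingCoeff := by
  rcases o1_cases (p := p) l with ⟨h1, h2⟩ | ⟨l', c, h1, h3, h2⟩
  · simp [h1, h2]
  · rw [h1, h2, (o1_lead l' h3).2]
    simp
theorem can_trim {l : List ℕ} (h : (tz p l).Monic) : Can p (trim p l) (tz p l) :=
  ⟨tz_trim l, h, length_trim h.ne_zero⟩
theorem can_mon {l : List ℕ} (h : tz p l ≠ 0) :
    Can p (mon p l) (C (tz p l).leadingCoeff⁻¹ * tz p l) := by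
  have h1 := leadingCoeff_ne_zero.2 h
  refine ⟨?_, monic_C_mul_of_mul_leadingCoeff_eq_one (inv_mul_cancel₀ h1), ?_⟩
  · rw [tz, mon, (fhom_oP p).toHom.psm, (fhom_oP p).inv, last_trim]
    exact congrArg _ (tz_trim l)
  · rw [mon, Ops.psm, List.length_map, length_trim h, natDegree_C_mul (inv_ne_zero h1)]
theorem can_mon_of_length {l : List ℕ} (h : mon p l ≠ []) : ∃ q, Can p (mon p l) q :=
  ⟨_, can_mon fun h1 => h (by rw [mon, (trim_eq_nil l).2 h1]; rfl)⟩
theorem Can.isMon {l : List ℕ} {q : (ZMod p)[X]} (h : Can p l q) :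
    IsMon (Nat.cast : ℕ → ZMod p) l := by
  obtain ⟨rfl, h2, h3⟩ := h
  exact isMon_of_monic h2 h3
theorem Can.map {R : Type} [Field R] [Algebra (ZMod p) R] {l : List ℕ} {q : (ZMod p)[X]}
    (h : Can p l q) : tp (Nat.cast : ℕ → R) l = q.map (algebraMap (ZMod p) R) ∧
      IsMon (Nat.cast : ℕ → R) l := by
  obtain ⟨rfl, h2, h3⟩ := h
  have h1 : tp (Nat.cast : ℕ → R) l = (tz p l).map (algebraMap (ZMod p) R) := by
    rw [← tp_comp]
    simp only [map_natCast]
  exact ⟨h1, isMon_of_monic (h1 ▸ h2.map _) (by rw [h1, natDegree_map, h3])⟩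
theorem can_replicate {k : ℕ} (hk : 0 < k) :
    Can p (List.replicate k 1) (∑ i ∈ Finset.range k, X ^ i) ∧
      (∑ i ∈ Finset.range k, X ^ i : (ZMod p)[X]).natDegree = k - 1 := by
  have h1 : ∀ k, tz p (List.replicate k 1) = ∑ i ∈ Finset.range k, X ^ i := by
    intro k
    induction k with
    | zero => rfl
    | succ k ih =>
      rw [List.replicate_succ', tz, o1_append, Finset.sum_range_succ, ← ih]
      simp
  obtain ⟨k, rfl⟩ := Nat.exists_eq_succ_of_ne_zero hk.ne'
  have h2 := o1_lead (p := p) (List.replicate k 1) (c := 1) (by simp)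
  rw [← List.replicate_succ', h1, List.length_replicate, Nat.cast_one] at h2
  exact ⟨⟨h1 _, h2.2, by rw [h2.1, List.length_replicate]⟩, h2.1⟩

theorem o1_dvd_mon {f : (ZMod p)[X]} (h : f ≠ 0) (q : (ZMod p)[X]) :
    q ∣ C f.leadingCoeff⁻¹ * f ↔ q ∣ f :=
  (isUnit_C.2 (inv_ne_zero (leadingCoeff_ne_zero.2 h)).isUnit).dvd_mul_left

theorem o1_loop {a : List ℕ} (ha : tz p a ≠ 0) (b : List ℕ) (k : ℕ) (s : List ℕ × List ℕ)
    (hs : s = (List.range k).foldl (fun (s : List ℕ × List ℕ) _ => if s.2 = [] then s else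
      (s.2, trim p ((oP p).prem s.1 (mon p s.2)))) (trim p a, trim p b)) :
    tz p s.1 ≠ 0 ∧ (s.2 ≠ [] → tz p s.2 ≠ 0) ∧ s.2.length ≤ b.length - k ∧
      ∀ q, q ∣ tz p s.1 ∧ q ∣ tz p s.2 ↔ q ∣ tz p a ∧ q ∣ tz p b := by
  have h0 : ∀ l, trim p l ≠ [] → tz p (trim p l) ≠ 0 := fun l h h1 =>
    h ((trim_eq_nil l).2 ((tz_trim l).symm.trans h1))
  induction k generalizing s with
  | zero =>
    subst hs
    exact ⟨(tz_trim a).trans_ne ha, h0 b, o1_length_le p b, fun q => by
      simp only [List.range_zero, List.foldl_nil, tz_trim]⟩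
  | succ k ih =>
    rw [List.range_succ, List.foldl_append, List.foldl_cons, List.foldl_nil] at hs
    obtain ⟨h1, h2, h3, h4⟩ := ih _ rfl
    generalize List.foldl _ (trim p a, trim p b) (List.range k) = t at hs h1 h2 h3 h4
    by_cases ht : t.2 = []
    · rw [if_pos ht] at hs
      subst hs
      exact ⟨h1, h2, by simp [ht], h4⟩
    · rw [if_neg ht] at hs
      subst hs
      have h5 := can_mon (h2 ht)
      refine ⟨h2 ht, h0 _, ?_, fun q => ?_⟩
      · have a1 := o1_length_le p ((oP p).prem t.1 (mon p t.2))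
        have a2 := length_prem_le (o := oP p) t.1 (mon p t.2)
        have a3 : (mon p t.2).length ≤ t.2.length := by
          rw [mon, Ops.psm, List.length_map]
          exact o1_length_le p _
        simp only
        omega
      · have a1 := (fhom_oP (R := ZMod p) p).toHom.pdm h5.isMon t.1
        rw [← h4, tz_trim]
        refine and_comm.trans (and_congr_left fun a2 => ?_)
        rw [tz, tz, a1]
        refine (dvd_add_right (Dvd.dvd.mul_right ?_ _)).symm
        exact ((o1_dvd_mon (h2 ht) q).2 a2).trans (dvd_of_eq h5.1.symm)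

theorem pgcd_spec {a : List ℕ} (ha : tz p a ≠ 0) (b : List ℕ) :
    ∃ g, Can p (pgcd p a b) g ∧ ∀ q, q ∣ g ↔ q ∣ tz p a ∧ q ∣ tz p b := by
  obtain ⟨h1, -, h3, h4⟩ := o1_loop ha b (b.length + 1) _ rfl
  refine ⟨_, can_mon h1, fun q => ?_⟩
  rw [o1_dvd_mon h1, ← h4, List.length_eq_zero_iff.1 (Nat.le_zero.1 (h3.trans (by omega)))]
  exact (and_iff_left (dvd_zero q)).symm
omit [Fact p.Prime] in
theorem pick_spec {f : List ℕ} {l : List (List ℕ)}
    (h : ∃ g ∈ l, 1 < g.length ∧ g.length < f.length) :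
    pick f l ∈ l ∧ 1 < (pick f l).length ∧ (pick f l).length < f.length := by
  unfold pick
  cases h1 : l.find? fun g => decide (1 < g.length ∧ g.length < f.length) with
  | none =>
    obtain ⟨g, hg, h2⟩ := h
    exact absurd (decide_eq_true h2) (List.find?_eq_none.1 h1 g hg)
  | some g =>
    have h2 := List.find?_some h1
    exact ⟨List.mem_of_find?_eq_some h1, of_decide_eq_true h2⟩

theorem o1_sol {u : List ℕ} {q : (ZMod p)[X]} (hu : Can p u q) (a : List ℕ) (c : ℕ → ZMod p) :
    ∑ t ∈ Finset.range u.length, c t • tz p (((oP p).quot0 u).pow a (u.length - 1 - t)) = 0 ↔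
      aeval (AdjoinRoot.mk q (tz p a))
        (∑ t ∈ Finset.range u.length, C (c t) * X ^ (u.length - 1 - t)) = 0 := by
  have h1 := ((fhom_oP (R := ZMod p) p).toHom.quot0_mk hu.isMon).pow a
  obtain ⟨rfl, h2, h3⟩ := hu
  have h4 : aeval (AdjoinRoot.mk (tz p u) (tz p a))
      (∑ t ∈ Finset.range u.length, C (c t) * X ^ (u.length - 1 - t)) = AdjoinRoot.mk (tz p u)
      (∑ t ∈ Finset.range u.length, c t • tz p (((oP p).quot0 u).pow a (u.length - 1 - t))) := by
    rw [map_sum, map_sum]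
    refine Finset.sum_congr rfl fun t _ => ?_
    rw [smul_eq_C_mul, map_mul, map_mul, h1, aeval_C, map_pow, aeval_X]
    rfl
  rw [h4, AdjoinRoot.mk_eq_zero]
  refine ⟨fun h => h ▸ dvd_zero _, fun h => eq_zero_of_dvd_of_degree_lt h ?_⟩
  rw [degree_eq_natDegree h2.ne_zero]
  refine (degree_sum_le _ _).trans_lt ((Finset.sup_lt_iff (WithBot.bot_lt_coe _)).2 fun t _ =>
    (degree_smul_le _ _).trans_lt ((degree_tp_lt _).trans_le ?_))
  have := length_quot0_pow (o := oP p) u a (u.length - 1 - t)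
  exact Nat.cast_le.2 (by omega)

theorem minP_spec {u : List ℕ} {q : (ZMod p)[X]} (hu : Can p u q) (h1 : 1 ≤ q.natDegree)
    (a : List ℕ) : ∃ g, Can p (minP p u a) g ∧ 1 ≤ g.natDegree ∧ g.natDegree ≤ q.natDegree ∧
      ∀ t, g ∣ t ↔ q ∣ t.comp (tz p a) := by
  have hF := fhom_oP (R := ZMod p) p
  have hn := hu.2.2
  obtain ⟨s1, s2, s3, s4⟩ := hF.solve indep_one ((List.range u.length).map fun t =>
    [[((oP p).quot0 u).pow a (u.length - 1 - t)]]) [[]]
  unfold minP
  generalize (oP p).solve 1 _ [[]] = rows at s1 s2 s3 s4 ⊢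
  simp only [List.length_map, List.length_range] at s1 s2 s3 s4
  have s5 : ∀ c : ℕ → ZMod p, c ∈ Submodule.span (ZMod p)
      {w | w ∈ rows.map (vec (Nat.cast : ℕ → ZMod p))} ↔ (∀ t, u.length ≤ t → c t = 0) ∧
        aeval (AdjoinRoot.mk q (tz p a))
          (∑ t ∈ Finset.range u.length, C (c t) * X ^ (u.length - 1 - t)) = 0 := by
    intro c
    rw [s4, ← o1_sol hu]
    refine and_congr_right fun _ => ?_
    simp only [List.length_singleton, Nat.lt_one_iff, forall_eq, List.getD_cons_zero, List.map_nil,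
      List.not_mem_nil, Set.ofPred_false, Submodule.span_empty, Submodule.mem_bot]
    rw [Finset.sum_congr rfl fun t ht => by
      rw [ts_getD_range _ _ _ (Finset.mem_range.1 ht), List.getD_cons_zero, sem_one]]
  obtain ⟨l1, l2⟩ := hF.last rows (s1 ▸ s2) (s1 ▸ s3)
  have hfin := (AdjoinRoot.powerBasis' hu.2.1).finite
  have hnt : Nontrivial (AdjoinRoot q) :=
    AdjoinRoot.nontrivial q (natDegree_pos_iff_degree_pos.1 h1).ne'
  set x := AdjoinRoot.mk q (tz p a) with hx
  have hint : IsIntegral (ZMod p) x := IsIntegral.of_finite _ x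
  have hdeg : (minpoly (ZMod p) x).natDegree ≤ q.natDegree :=
    (minpoly.natDegree_le x).trans_eq (AdjoinRoot.powerBasis' hu.2.1).finrank
  obtain ⟨i, hi, e1, e2, j, hj, e3⟩ := l2 (fun t => if t < u.length then
      (minpoly (ZMod p) x).coeff (u.length - 1 - t) else 0)
    ((s5 _).2 ⟨fun t ht => if_neg (by omega), by
      rw [Finset.sum_congr rfl fun t ht => by rw [if_pos (Finset.mem_range.1 ht)],
        Finset.sum_range_reflect (fun t => C ((minpoly (ZMod p) x).coeff t) * X ^ t),
        ← as_sum_range_C_mul_X_pow' _ (by omega)]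
      exact minpoly.aeval _ x⟩)
    (fun h => by
      have := congrFun h (u.length - 1 - (minpoly (ZMod p) x).natDegree)
      rw [if_pos (by omega), Nat.sub_sub_self (by omega), (minpoly.monic hint).coeff_natDegree]
        at this
      exact one_ne_zero this)
  rw [s1] at hi
  rw [if_pos (by omega)] at e3
  have e4 := le_natDegree_of_ne_zero e3
  have e5 : (tz p ((oP p).prev u.length ((oP p).last rows))).natDegree ≤ u.length - 1 - i := by
    refine natDegree_le_iff_coeff_eq_zero.2 fun m hm => ?_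
    rw [hF.toHom.prev]
    split_ifs
    · exact e2 _ (by omega)
    · rfl
  have e6 : (tz p ((oP p).prev u.length ((oP p).last rows))).Monic :=
    monic_of_natDegree_le_of_coeff_eq_one _ e5 (by
      rw [hF.toHom.prev, if_pos (by omega), Nat.sub_sub_self (by omega), e1])
  have e7 : tz p ((oP p).prev u.length ((oP p).last rows)) = minpoly (ZMod p) x :=
    eq_of_monic_of_dvd_of_natDegree_le (minpoly.monic hint) e6
      (minpoly.dvd _ x (by rw [tz, hF.toHom.prev_eq]; exact ((s5 _).1 l1).2)) (by omega)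
  have e8 := can_mon e6.ne_zero
  rw [e6.leadingCoeff, inv_one, C_1, one_mul, e7] at e8
  refine ⟨_, e8, minpoly.natDegree_pos hint, hdeg, fun t => ?_⟩
  rw [minpoly.dvd_iff, ← AdjoinRoot.mk_eq_zero, ← AdjoinRoot.aeval_eq, aeval_comp,
    AdjoinRoot.aeval_eq]

end Vale.Agent.P319
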