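import Vale.Agent.P319.Out1

/-! Roots, equal degree and distinct degree factorization. -/

namespace Vale.Agent.P319

open Polynomial

variable {p : ℕ} [Fact p.Prime] {N M : ℕ} {adv tab : List (List ℕ)} {u : List ℕ}
  {q : (ZMod p)[X]}

theorem o2_hom : Hom (oP p) (Nat.cast : ℕ → ZMod p) := (fhom_oP p).toHom

theorem o2_loop {E : ℕ} {st : List ℕ → List ℕ} {I : (ZMod p)[X] → Prop}
    (h : ∀ s v, Can p s v → I v → E ≤ v.natDegree →
      ∃ w, Can p (st s) w ∧ I w ∧ w.natDegree < v.natDegree) (l : List ℕ) :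
    ∀ s v, Can p s v → I v →
      ∃ w, Can p (l.foldl (fun s _ => if s.length ≤ E then s else st s) s) w ∧ I w ∧
        (w.natDegree + 1 ≤ E ∨ w.natDegree + l.length ≤ v.natDegree) := by
  induction l with
  | nil => exact fun s v h1 h2 => ⟨v, h1, h2, Or.inr le_rfl⟩
  | cons a l ih =>
    intro s v h1 h2
    rw [List.foldl_cons, List.length_cons]
    have h3 := h1.2.2
    split_ifs with h4
    · have key : ∀ l : List ℕ, l.foldl (fun s _ => if s.length ≤ E then s else st s) s = s := by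
        intro l
        induction l with
        | nil => rfl
        | cons a l ih => rw [List.foldl_cons, if_pos h4, ih]
      rw [key]
      exact ⟨v, h1, h2, Or.inl (by omega)⟩
    · obtain ⟨w, h5, h6, h7⟩ := h s v h1 h2 (by omega)
      obtain ⟨w', h8, h9, h10⟩ := ih _ w h5 h6
      exact ⟨w', h8, h9, by omega⟩

theorem o2_peval_lt (u : List ℕ) (c : ℕ) : (oP p).peval u c < p := by
  have hp : 0 < p := (Fact.out : p.Prime).pos
  cases u with
  | nil => exact hp
  | cons a u =>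
    have h : max p 1 = p := max_eq_left hp
    have h1 := Nat.mod_lt (a + (oP p).mul c ((oP p).peval u c)) (h.symm ▸ hp : 0 < max p 1)
    exact h1.trans_le h.le

theorem rootF_spec (h : SplitOK p N adv tab M) (hu : Can p u q) (h1 : q ∣ X ^ p - X)
    (h2 : 1 ≤ q.natDegree) (h3 : q.natDegree ≤ M) :
    q.eval ((rootF p N adv tab u : ℕ) : ZMod p) = 0 := by
  have hp : p.Prime := Fact.out
  have hq := hu.2.1.ne_zero
  rw [rootF]
  split_ifs with h4
  · rw [min_eq_left h4]
    obtain ⟨c, hc⟩ := ((GaloisField.splits_zmod_X_pow_sub_X p).of_dvd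
      (FiniteField.X_pow_card_sub_X_ne_zero _ hp.one_lt) h1).exists_eval_eq_zero
      (natDegree_pos_iff_degree_pos.1 h2).ne'
    have key : ∀ c : ℕ, (((oP p).peval u c : ℕ) : ZMod p) = q.eval (c : ZMod p) := by
      intro c
      rw [o2_hom.peval, ← hu.1]
    cases hf : (List.range p).find? fun c => decide ((oP p).peval u c = 0) with
    | none =>
      rw [List.find?_eq_none] at hf
      refine absurd ?_ (hf c.val (List.mem_range.2 (ZMod.val_lt c)))
      have h5 := key c.val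
      rw [ZMod.natCast_zmod_val, hc, ZMod.natCast_eq_zero_iff] at h5
      simpa using Nat.eq_zero_of_dvd_of_lt h5 (o2_peval_lt u _)
    | some c' =>
      have h5 := List.find?_some hf
      rw [decide_eq_true_eq] at h5
      rw [Option.getD_some, ← key, h5, Nat.cast_zero]
  · obtain ⟨w, h5, ⟨h6, h7⟩, h8⟩ := o2_loop (E := 2) (st := split p adv tab)
      (I := fun v => v ∣ q ∧ 1 ≤ v.natDegree) (fun s v k1 k2 k3 => by
        obtain ⟨w, k4, k5, k6, k7⟩ := h (not_le.1 h4) s v k1 (k2.1.trans h1) k3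
          ((natDegree_le_of_dvd k2.1 hq).trans h3)
        exact ⟨w, k4, ⟨k5.trans k2.1, k6⟩, k7⟩) (List.range u.length) u q hu ⟨dvd_rfl, h2⟩
    rw [List.length_range, hu.2.2] at h8
    generalize List.foldl _ u (List.range u.length) = s at h5 ⊢
    have h9 : ((s.headD 0 : ℕ) : ZMod p) = w.coeff 0 := by
      rw [← h5.1, coeff_tp]
      cases s <;> simp [vec]
    rw [o2_hom.neg, h9]
    refine eval_eq_zero_of_dvd_of_eval_eq_zero h6 ?_
    conv_lhs => rw [h5.2.1.eq_X_add_C (by omega)]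
    simp

theorem o2_quot (hu : Can p u q) : Hom ((oP p).quot0 u) (fun a => AdjoinRoot.mk q (tz p a)) := by
  have h := o2_hom.quot0_mk hu.isMon
  rwa [show tp (Nat.cast : ℕ → ZMod p) u = q from hu.1] at h

theorem o2_irr {t : (ZMod p)[X]} (ht : Irreducible t) (k : ℕ) :
    t ∣ X ^ p ^ k - X ↔ t.natDegree ∣ k := by
  rw [ht.natDegree_dvd_iff_dvd_X_pow_card_pow_sub_X, Nat.card_zmod]

theorem o2_dvd_of_irr {q f : (ZMod p)[X]} (h1 : Squarefree q)
    (h : ∀ t, Irreducible t → t ∣ q → t ∣ f) : q ∣ f := by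
  induction q using UniqueFactorizationMonoid.induction_on_prime with
  | h₁ => exact absurd h1 not_squarefree_zero
  | h₂ x hx => exact hx.dvd
  | h₃ a t _ ht ih =>
    exact (IsRelPrime.of_squarefree_mul h1).mul_dvd (h t ht.irreducible (dvd_mul_right _ _))
      (ih h1.of_mul_right fun s hs h2 => h s hs (h2.mul_left _))

/-- The formal trace. -/
noncomputable def o2_tr (p d : ℕ) (a : (ZMod p)[X]) : (ZMod p)[X] :=
  ∑ i ∈ Finset.range d, a ^ p ^ i

theorem o2_tr_add (d : ℕ) (a b : (ZMod p)[X]) : o2_tr p d (a + b) = o2_tr p d a + o2_tr p d b := by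
  simp only [o2_tr, add_pow_char_pow, Finset.sum_add_distrib]

theorem o2_tr_C_mul (d : ℕ) (c : ZMod p) (a : (ZMod p)[X]) :
    o2_tr p d (C c * a) = C c * o2_tr p d a := by
  simp only [o2_tr, mul_pow, ← C_pow, ZMod.pow_card_pow, Finset.mul_sum]

theorem o2_tr_congr (d : ℕ) {r a b : (ZMod p)[X]} (h : r ∣ a - b) :
    r ∣ o2_tr p d a - o2_tr p d b := by
  rw [o2_tr, o2_tr, ← Finset.sum_sub_distrib]
  exact Finset.dvd_sum fun i _ => h.trans (sub_dvd_pow_sub_pow _ _ _)

theorem o2_tr_pow (d : ℕ) (a : (ZMod p)[X]) :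
    o2_tr p d a ^ p - o2_tr p d a = a ^ p ^ d - a := by
  rw [o2_tr, sum_pow_char, ← Finset.sum_sub_distrib]
  simp only [← pow_mul, ← pow_succ]
  rw [Finset.sum_range_sub fun i => a ^ p ^ i, pow_zero, pow_one]

theorem o2_frob (d : ℕ) (a : (ZMod p)[X]) : X ^ p ^ d - X ∣ a ^ p ^ d - a := by
  have h1 : a ^ p ^ d = a.comp (X ^ p ^ d) := by
    induction d with
    | zero => simp
    | succ d ih =>
      rw [pow_succ, pow_mul, ih, ← ZMod.expand_card, expand_eq_comp_X_pow, comp_assoc]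
      simp [← pow_mul, mul_comm]
  have h2 := sub_dvd_eval_sub (X ^ p ^ d : (ZMod p)[X]) X (a.map C)
  rwa [eval_map, eval_map, eval₂_C_X, ← comp, ← h1] at h2

theorem o2_tr_ne {t : (ZMod p)[X]} (ht : Irreducible t) : ∃ a, ¬ t ∣ o2_tr p t.natDegree a := by
  have := Fact.mk ht
  have : Module.Finite (ZMod p) (AdjoinRoot t) := (AdjoinRoot.powerBasis ht.ne_zero).finite
  have : Finite (AdjoinRoot t) := Module.finite_of_finite (ZMod p)
  obtain ⟨x, hx⟩ := Algebra.trace_surjective (ZMod p) (AdjoinRoot t) 1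
  obtain ⟨a, rfl⟩ := AdjoinRoot.mk_surjective x
  have h1 := FiniteField.algebraMap_trace_eq_sum_pow (ZMod p) (AdjoinRoot t) (AdjoinRoot.mk t a)
  rw [hx, map_one, (AdjoinRoot.powerBasis ht.ne_zero).finrank, AdjoinRoot.powerBasis_dim,
    Nat.card_zmod] at h1
  refine ⟨a, fun h => ?_⟩
  rw [← AdjoinRoot.mk_eq_zero, o2_tr, map_sum] at h
  simp only [map_pow] at h
  exact one_ne_zero (h1.trans h)

theorem o2_trF (hu : Can p u q) {d j : ℕ} (hd : d ≤ u.length) (hj : j < u.length) :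
    q ∣ tz p (trF p d u j) - o2_tr p d (X ^ j) := by
  rw [← AdjoinRoot.mk_eq_mk, trF, min_eq_left hd]
  refine ((o2_quot hu).sum_range _ _).trans ?_
  rw [o2_tr, map_sum]
  refine Finset.sum_congr rfl fun i hi => ?_
  rw [Finset.mem_range] at hi
  refine ((o2_quot hu).pow _ _).trans ?_
  rw [min_eq_left (by omega), map_pow, tz, o2_hom.pmon hj]

theorem o2_nonconst (hm : q.Monic) (h1 : Squarefree q) {d : ℕ}
    (h2 : ∀ t, Irreducible t → t ∣ q → t.natDegree = d) (h3 : d < q.natDegree) :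
    ∃ j < q.natDegree + 1, ∀ c, ¬ q ∣ o2_tr p d (X ^ j) - C c := by
  have hp : p.Prime := Fact.out
  by_contra! h
  have h4 : ∀ a, ∃ c, q ∣ o2_tr p d a - C c := by
    intro a
    have h5 : ∀ s : Finset ℕ, (∀ j ∈ s, j < q.natDegree + 1) → ∀ e : ℕ → ZMod p,
        ∃ c, q ∣ o2_tr p d (∑ j ∈ s, C (e j) * X ^ j) - C c := by
      intro s hs e
      induction s using Finset.induction_on with
      | empty =>
        refine ⟨0, ?_⟩
        rw [Finset.sum_empty, ← zero_mul 0, ← C_0, o2_tr_C_mul]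
        simp
      | insert j s hj ih =>
        obtain ⟨c, hc⟩ := ih fun i hi => hs i (Finset.mem_insert_of_mem hi)
        obtain ⟨c', hc'⟩ := h j (hs j (Finset.mem_insert_self _ _))
        refine ⟨e j * c' + c, ?_⟩
        rw [Finset.sum_insert hj, o2_tr_add, o2_tr_C_mul, C_add, C_mul, add_sub_add_comm, ← mul_sub]
        exact dvd_add (hc'.mul_left _) hc
    obtain ⟨c, hc⟩ := h5 (Finset.range (q.natDegree + 1)) (fun j hj => Finset.mem_range.1 hj)
      (a %ₘ q).coeff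
    rw [← as_sum_range_C_mul_X_pow' _ (Nat.lt_succ_of_le (natDegree_modByMonic_le a hm))] at hc
    refine ⟨c, ?_⟩
    have h6 : q ∣ a - a %ₘ q := ⟨a /ₘ q, by rw [sub_eq_iff_eq_add', modByMonic_add_div]⟩
    simpa using dvd_add (o2_tr_congr d h6) hc
  obtain ⟨t, ht, r, rfl⟩ := exists_irreducible_of_natDegree_pos (Nat.zero_lt_of_lt h3)
  have hd := h2 t ht (dvd_mul_right _ _)
  have hr : r ≠ 0 := right_ne_zero_of_mul hm.ne_zero
  rw [natDegree_mul ht.ne_zero hr] at h3
  obtain ⟨a, ha⟩ := o2_tr_ne ht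
  obtain ⟨s, v, hsv⟩ := (IsRelPrime.of_squarefree_mul h1).isCoprime
  obtain ⟨c, hc⟩ := h4 (a * (v * r))
  have h5 : r ∣ o2_tr p d (a * (v * r)) :=
    Finset.dvd_sum fun i _ => dvd_pow ((dvd_mul_left _ _).mul_left _) (pow_ne_zero _ hp.ne_zero)
  have h6 : r ∣ C c := by simpa using dvd_sub h5 ((dvd_mul_left _ _).trans hc)
  have h7 : c = 0 := by
    by_contra h8
    have := natDegree_le_of_dvd h6 (C_ne_zero.2 h8)
    rw [natDegree_C] at this
    omega
  rw [h7, C_0, sub_zero] at hc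
  have h8 : t ∣ a - a * (v * r) := ⟨a * s, by linear_combination -a * hsv⟩
  refine ha ?_
  rw [hd]
  simpa using dvd_add (o2_tr_congr d h8) ((dvd_mul_right _ _).trans hc)

theorem edf_spec (h : SplitOK p N adv tab M) (hu : Can p u q) (h1 : Squarefree q) {d : ℕ}
    (h2 : ∀ t, Irreducible t → t ∣ q → t.natDegree = d) (h3 : d < q.natDegree)
    (h4 : q.natDegree ≤ M) : ∃ v, Can p (edf p N adv tab d u) v ∧ v ∣ q ∧ 0 < v.natDegree ∧
      v.natDegree < q.natDegree := by
  have hl := hu.2.2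
  have hq := hu.2.1.ne_zero
  have hq' : tz p u ≠ 0 := by rwa [hu.1]
  have key : ∃ g ∈ (List.range u.length).map fun j =>
      pgcd p u ((oP p).psub (trF p d u j) [rootF p N adv tab (minP p u (trF p d u j))]),
      1 < g.length ∧ g.length < u.length := by
    obtain ⟨j, hj, hc⟩ := o2_nonconst hu.2.1 h1 h2 h3
    refine ⟨_, List.mem_map.2 ⟨j, List.mem_range.2 (by omega), rfl⟩, ?_⟩
    have h5 := o2_trF (d := d) (j := j) hu (by omega) (by omega)
    obtain ⟨g, g1, g2, g3, g4⟩ := minP_spec hu (by omega) (trF p d u j)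
    have h6 : g ∣ X ^ p - X := by
      rw [g4]
      have k1 : q ∣ o2_tr p d (X ^ j) ^ p - o2_tr p d (X ^ j) := by
        rw [o2_tr_pow]
        refine Dvd.dvd.trans (o2_dvd_of_irr h1 fun t ht k2 => ?_) (o2_frob d _)
        rw [o2_irr ht, h2 t ht k2]
      have k2 := dvd_add (dvd_sub (h5.trans (sub_dvd_pow_sub_pow _ _ p)) h5) k1
      simp only [sub_comp, pow_comp, X_comp]
      convert k2 using 1
      ring
    have h7 := rootF_spec h g1 h6 g2 (g3.trans h4)
    generalize rootF p N adv tab (minP p u (trF p d u j)) = c at h7 ⊢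
    obtain ⟨γ, k1, k2⟩ := pgcd_spec hq' ((oP p).psub (trF p d u j) [c])
    simp only [hu.1, o2_hom.psub, tp_single] at k2
    rw [k1.2.2, hl]
    obtain ⟨k3, k4⟩ := (k2 γ).1 dvd_rfl
    constructor
    · by_contra k5
      have k6 : γ = 1 := k1.2.1.natDegree_eq_zero.1 (by omega)
      have k7 : IsRelPrime q (tz p (trF p d u j) - C (c : ZMod p)) := fun t t1 t2 =>
        isUnit_of_dvd_one (k6 ▸ (k2 t).2 ⟨t1, t2⟩)
      obtain ⟨g', rfl⟩ := dvd_iff_isRoot.2 h7
      have k8 := (g4 _).1 dvd_rfl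
      rw [mul_comp, sub_comp, X_comp, C_comp] at k8
      have k9 := (g4 _).2 (k7.dvd_of_dvd_mul_left k8)
      have k10 : g' ≠ 0 := right_ne_zero_of_mul g1.2.1.ne_zero
      have k11 := natDegree_le_of_dvd k9 k10
      rw [natDegree_mul (X_sub_C_ne_zero _) k10, natDegree_X_sub_C] at k11
      omega
    · by_contra k5
      have k6 := (associated_of_dvd_of_natDegree_le k3 hq (by omega)).symm.dvd.trans k4
      refine hc (c : ZMod p) ?_
      simpa using dvd_sub k6 h5
  obtain ⟨k1, k2, k3⟩ := pick_spec key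
  obtain ⟨j, -, hj⟩ := List.mem_map.1 k1
  obtain ⟨γ, k4, k5⟩ := pgcd_spec hq'
    ((oP p).psub (trF p d u j) [rootF p N adv tab (minP p u (trF p d u j))])
  rw [hj] at k4
  have k6 := k4.2.2
  exact ⟨γ, k4, hu.1 ▸ ((k5 γ).1 dvd_rfl).1, by omega, by omega⟩

theorem o2_gcd (hu : Can p u q) (e : ℕ) :
    ∃ g, Can p (pgcd p u ((oP p).psub (((oP p).quot0 u).pow [0, 1] e) [0, 1])) g ∧
      ∀ t, t ∣ g ↔ t ∣ q ∧ t ∣ X ^ e - X := by
  have hq' : tz p u ≠ 0 := by rw [hu.1]; exact hu.2.1.ne_zero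
  obtain ⟨g, h1, h2⟩ := pgcd_spec hq' ((oP p).psub (((oP p).quot0 u).pow [0, 1] e) [0, 1])
  have hX : tz p [0, 1] = X := by simp [tp_cons]
  have h3 : q ∣ tz p (((oP p).quot0 u).pow [0, 1] e) - X ^ e := by
    rw [← AdjoinRoot.mk_eq_mk]
    refine ((o2_quot hu).pow _ _).trans ?_
    rw [hX, map_pow]
  refine ⟨g, h1, fun t => ?_⟩
  rw [h2, hu.1, tz, o2_hom.psub]
  refine and_congr_right fun ht => ?_
  have h4 : tp (Nat.cast : ℕ → ZMod p) (((oP p).quot0 u).pow [0, 1] e) -
      tp (Nat.cast : ℕ → ZMod p) [0, 1] =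
      (tz p (((oP p).quot0 u).pow [0, 1] e) - X ^ e) + (X ^ e - X) := by
    rw [← hX]
    ring
  rw [h4]
  exact dvd_add_right (ht.trans h3)

theorem ddf_spec (hu : Can p u q) (h1 : 1 ≤ q.natDegree) :
    (∀ t, Irreducible t → t ∣ q → (ddf p u).1 ≤ t.natDegree) ∧
      ∃ v, Can p (ddf p u).2 v ∧ v ∣ q ∧ Squarefree v ∧ 1 ≤ v.natDegree ∧
        ∀ t, Irreducible t → t ∣ v → t.natDegree = (ddf p u).1 := by
  have hl := hu.2.2
  have hq := hu.2.1.ne_zero
  have hit : ∀ t, Irreducible t → t ∣ q → ∃ k, k + 1 = t.natDegree ∧ k < u.length ∧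
      1 < (pgcd p u ((oP p).psub (((oP p).quot0 u).pow [0, 1] (p ^ min (k + 1) u.length))
        [0, 1])).length := by
    intro t ht h2
    have h3 := ht.natDegree_pos
    have h4 := natDegree_le_of_dvd h2 hq
    refine ⟨t.natDegree - 1, by omega, by omega, ?_⟩
    rw [show min (t.natDegree - 1 + 1) u.length = t.natDegree by omega]
    obtain ⟨g, h5, h6⟩ := o2_gcd hu (p ^ t.natDegree)
    have h7 := natDegree_le_of_dvd ((h6 t).2 ⟨h2, (o2_irr ht _).2 dvd_rfl⟩) h5.2.1.ne_zero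
    rw [h5.2.2]
    omega
  rw [ddf, List.find?_map]
  cases hf : (List.range u.length).find? _ with
  | none =>
    obtain ⟨t, ht, h2⟩ := exists_irreducible_of_natDegree_pos h1
    obtain ⟨k, -, h3, h4⟩ := hit t ht h2
    rw [List.find?_eq_none] at hf
    exact absurd (by simpa using h4) (hf k (List.mem_range.2 h3))
  | some k =>
    rw [List.find?_range_eq_some] at hf
    obtain ⟨h2, h3, h4⟩ := hf
    rw [List.mem_range] at h3
    simp only [Option.map_some, Option.getD_some]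
    simp only [Function.comp_apply, decide_eq_true_eq, Bool.not_eq_eq_eq_not, Bool.not_true,
      decide_eq_false_iff_not] at h2 h4
    have h5 : ∀ t, Irreducible t → t ∣ q → k + 1 ≤ t.natDegree := by
      intro t ht h6
      obtain ⟨k', h7, -, h8⟩ := hit t ht h6
      by_contra h9
      exact h4 k' (by omega) h8
    rw [min_eq_left (by omega)] at h2 ⊢
    obtain ⟨g, h6, h7⟩ := o2_gcd hu (p ^ (k + 1))
    obtain ⟨h8, h9⟩ := (h7 g).1 dvd_rfl
    refine ⟨h5, g, h6, h8, ?_, ?_, fun t ht h10 => ?_⟩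
    · exact (galois_poly_separable p _ (dvd_pow_self p k.succ_ne_zero)).squarefree.squarefree_of_dvd h9
    · rw [h6.2.2] at h2
      omega
    · exact le_antisymm (Nat.le_of_dvd k.succ_pos ((o2_irr ht _).1 (h10.trans h9)))
        (h5 t ht (h10.trans h8))

theorem irrF_spec (h : SplitOK p N adv tab M) (hu : Can p u q) (h1 : 1 ≤ q.natDegree)
    (h2 : q.natDegree ≤ M) : ∃ v, Can p (irrF p N adv tab u) v ∧ Irreducible v ∧ v ∣ q := by
  have hq := hu.2.1.ne_zero
  obtain ⟨-, v, k1, k2, k3, k4, k5⟩ := ddf_spec hu h1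
  have k6 := natDegree_le_of_dvd k2 hq
  obtain ⟨w, h5, ⟨h6, h7⟩, h8⟩ := o2_loop (E := (ddf p u).1 + 1) (st := edf p N adv tab (ddf p u).1)
    (I := fun w => w ∣ v ∧ 1 ≤ w.natDegree) (fun s w a1 a2 a3 => by
      obtain ⟨w', a4, a5, a6, a7⟩ := edf_spec h a1 (k3.squarefree_of_dvd a2.1)
        (fun t ht a8 => k5 t ht (a8.trans a2.1)) a3
        ((natDegree_le_of_dvd (a2.1.trans k2) hq).trans h2)
      exact ⟨w', a4, ⟨a5.trans a2.1, a6⟩, a7⟩) (List.range u.length) _ v k1 ⟨dvd_rfl, k4⟩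
  rw [List.length_range, hu.2.2] at h8
  refine ⟨w, h5, ?_, h6.trans k2⟩
  obtain ⟨t, ht, h9⟩ := exists_irreducible_of_natDegree_pos h7
  have h10 := k5 t ht (h9.trans h6)
  exact (associated_of_dvd_of_natDegree_le h9 h5.2.1.ne_zero (by omega)).irreducible ht

end Vale.Agent.P319
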