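import Vale.Agent.P319.Alg

/-! Polynomial time: numbers, ring operations, polynomials. -/

namespace Vale.Agent.P319

open Vale.Agent.Lib.PolyTime

attribute [fun_prop] PB

variable {σ τ α β : Type} [Enc σ] [Enc τ] [Enc α] [Enc β]

@[fun_prop] theorem pb_const (c : ℕ) : PB (fun _ : σ => c) := PB.const c
@[fun_prop] theorem pb_comp {g : τ → ℕ} {f : σ → τ} (hg : PB g) (hf : PT f) :
    PB (fun a => g (f a)) := hg.comp hf
@[fun_prop] theorem pb_add {f g : σ → ℕ} (hf : PB f) (hg : PB g) : PB (fun a => f a + g a) :=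
  hf.add hg
@[fun_prop] theorem pb_mul {f g : σ → ℕ} (hf : PB f) (hg : PB g) : PB (fun a => f a * g a) :=
  hf.mul hg
@[fun_prop] theorem pb_sub {f g : σ → ℕ} (hf : PB f) : PB (fun a => f a - g a) :=
  hf.of_le fun _ => Nat.sub_le _ _
@[fun_prop] theorem pb_div {f g : σ → ℕ} (hf : PB f) : PB (fun a => f a / g a) :=
  hf.of_le fun _ => Nat.div_le_self _ _
@[fun_prop] theorem pb_max {f g : σ → ℕ} (hf : PB f) (hg : PB g) :
    PB (fun a => max (f a) (g a)) := (hf.add hg).of_le fun a => by omega
@[fun_prop] theorem pb_min {f g : σ → ℕ} (hg : PB g) : PB (fun a => min (f a) (g a)) :=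
  hg.of_le fun _ => min_le_right _ _
@[fun_prop] theorem pb_len {l : σ → List β} (hl : PT l) : PB (fun a => (l a).length) :=
  hl.pb_length
@[fun_prop] theorem pb_size {f : σ → ℕ} (hf : PT f) : PB (fun a => Nat.size (f a)) := hf.1
@[fun_prop] theorem pb_wW {n : σ → ℕ} (hn : PB n) : PB (fun a => wW (n a)) := by
  unfold wW; fun_prop
@[fun_prop] theorem pt_wW {n : σ → ℕ} (hn : PT n) : PT (fun a => wW (n a)) := by
  unfold wW; fun_prop
@[fun_prop] theorem pb_lmax_len {l : σ → List (List β)} (hl : PT l) :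
    PB (fun a => lmax ((l a).map List.length)) := by
  refine hl.1.of_le fun a => (lmax_le _ _).2 fun x hx => ?_
  obtain ⟨y, hy, rfl⟩ := List.mem_map.1 hx
  exact (length_le_sz y).trans (sz_mem hy)
@[fun_prop] theorem pt_range {n : σ → ℕ} (hn : PT n) (hb : PB n) :
    PT (fun a => List.range (n a)) := PT.range hn hb
@[fun_prop] theorem pt_replicate [Inhabited β] {n : σ → ℕ} {y : σ → β} (hn : PT n) (hb : PB n)
    (hy : PT y) : PT (fun a => List.replicate (n a) (y a)) := PT.replicate hn hb hy
@[fun_prop] theorem pt_size {f : σ → ℕ} (hf : PT f) : PT fun a => Nat.size (f a) := by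
  exact hf.bits.length.congr fun _ => (Nat.size_eq_bits_len _).symm
/-- The number with the given binary digits. -/
def pt0_val (w : List Bool) : ℕ := w.foldr (fun b acc => acc + acc + if b = true then 1 else 0) 0
theorem pt0_div (b : ℕ) (l : List Bool) : l.foldr (fun (d : Bool) (s : ℕ × ℕ) =>
    (s.1 + s.1 + if d = true then 1 else 0,
      if 0 < b ∧ (s.2 + s.2 + 1) * b ≤ s.1 + s.1 + if d = true then 1 else 0 then s.2 + s.2 + 1
      else s.2 + s.2)) (0, 0) = (pt0_val l, pt0_val l / b) := by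
  induction l with
  | nil => simp [pt0_val]
  | cons d l ih =>
    have e : pt0_val (d :: l) = pt0_val l + pt0_val l + if d = true then 1 else 0 := rfl
    rw [List.foldr_cons, ih, e]
    have hd : (if d = true then 1 else 0) ≤ 1 := by split_ifs <;> omega
    generalize (if d = true then 1 else 0) = x at hd
    generalize pt0_val l = v
    refine Prod.ext rfl ?_
    rcases Nat.eq_zero_or_pos b with rfl | hb
    · simp
    have h1 := Nat.div_add_mod v b
    have h2 := Nat.mod_lt v hb
    dsimp only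
    rw [mul_comm] at h1
    rw [eq_comm, Nat.div_eq_iff hb]
    split_ifs with h <;> simp only [add_mul, one_mul, hb, true_and] at h ⊢ <;> omega
theorem pt0_val_bits (k : ℕ) : pt0_val k.bits = k :=
  foldr_bits k _ id rfl fun b k => by cases b <;> simp <;> ring
theorem pt0_double (s : ℕ) {x : ℕ} (hx : x ≤ 1) : Nat.size (s + s + x) ≤ Nat.size s + 1 := by
  rw [Nat.size_le, pow_succ]
  have := Nat.lt_size_self s
  omega
@[fun_prop] theorem pt_div {f g : σ → ℕ} (hf : PT f) (hg : PT g) : PT fun a => f a / g a := by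
  have h := PT.foldr_add (f := fun a (d : Bool) (s : ℕ × ℕ) =>
    (s.1 + s.1 + if d = true then 1 else 0,
      if 0 < g a ∧ (s.2 + s.2 + 1) * g a ≤ s.1 + s.1 + if d = true then 1 else 0 then s.2 + s.2 + 1
      else s.2 + s.2)) (i := fun _ => (0, 0)) (by fun_prop) hf.bits (by fun_prop) (PB.const 3)
    fun a s d _ => by
      have h1 := pt0_double s.1 (x := if d = true then 1 else 0) (by split_ifs <;> omega)
      have h2 := pt0_double s.2 (x := 1) le_rfl
      have h3 := pt0_double s.2 (x := 0) zero_le_one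
      rw [sz_prod s]
      simp only [sz_pair, sz_nat, add_zero] at *
      split_ifs at * <;> omega
  exact h.snd.congr fun a => by rw [pt0_div, pt0_val_bits]
@[fun_prop] theorem pt_npow {f g : σ → ℕ} (hf : PT f) (hg : PT g) (hb : PB g) :
    PT fun a => f a ^ g a := by
  have key : ∀ x k : ℕ, (fun s : ℕ => s * x)^[k] 1 = x ^ k := fun x k => by
    induction k with
    | zero => rfl
    | succ k ih => rw [Function.iterate_succ_apply', ih, pow_succ]
  refine (PT.iterate (f := fun a (s : ℕ) => s * f a) (i := fun _ => 1)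
    (B := fun a => Nat.size (f a) * g a + 1) (by fun_prop) hg hb (by fun_prop) (by fun_prop)
    fun a k hk => ?_).congr fun a => (key _ _).symm
  rw [key, sz_nat, Nat.size_le]
  calc f a ^ k ≤ (2 ^ Nat.size (f a)) ^ k := Nat.pow_le_pow_left (Nat.lt_size_self _).le k
    _ ≤ (2 ^ Nat.size (f a)) ^ g a := Nat.pow_le_pow_right (by positivity) hk
    _ < 2 ^ (Nat.size (f a) * g a + 1) := by
      rw [← pow_mul]
      exact Nat.pow_lt_pow_right one_lt_two (Nat.lt_succ_self _)
theorem pb_pow {f : σ → ℕ} (hf : PB f) (k : ℕ) : PB fun a => f a ^ k := hf.pow k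
@[fun_prop] theorem pt_mons {u v ℓ W : σ → ℕ} (hu : PT u) (hv : PT v) (hℓ : PT ℓ) (hℓ' : PB ℓ)
    (hW : PT W) (hW' : PB W) : PT fun a => mons (u a) (v a) (ℓ a) (W a) := by
  unfold mons; fun_prop
theorem pt0_flat {γ δ : Type} {l : List γ} {g : γ → List δ} {c : ℕ}
    (h : ∀ y ∈ l, (g y).length ≤ c) : (l.flatMap g).length ≤ l.length * c := by
  induction l with
  | nil => simp
  | cons y l ih =>
    have h1 := h y List.mem_cons_self
    have h2 := ih fun z hz => h z (List.mem_cons_of_mem _ hz)
    rw [List.flatMap_cons, List.length_append, List.length_cons, add_mul]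
    omega
theorem length_mons_le (u v ℓ W : ℕ) : (mons u v ℓ W).length ≤ (W + 1) * (ℓ * (W + 1)) := by
  refine (pt0_flat (c := ℓ * (W + 1)) fun w _ => (pt0_flat (c := W + 1) fun b _ => ?_).trans
    (by simp)).trans (by simp)
  rw [List.length_map]
  exact (List.length_filter_le _ _).trans (by simp)
theorem sz_map_range_le {k B : ℕ} {g : ℕ → β} (h : ∀ i, sz (g i) ≤ B) :
    sz ((List.range k).map g) ≤ k * (2 * B + 2) := by
  refine (sz_le_of_forall (b := B) fun y hy => ?_).trans (by simp)
  obtain ⟨i, -, rfl⟩ := List.mem_map.1 hy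
  exact h i

/-- All results of the operations have size at most `B`. -/
structure OB (o : Ops α) (B : ℕ) : Prop where
  zero : sz o.zero ≤ B
  one : sz o.one ≤ B
  add : ∀ x y, sz (o.add x y) ≤ B
  mul : ∀ x y, sz (o.mul x y) ≤ B
  neg : ∀ x, sz (o.neg x) ≤ B
  inv : ∀ x, sz (o.inv x) ≤ B

/-- A family of operation records that runs in polynomial time with bounded results. -/
@[fun_prop] structure PO (o : σ → Ops α) : Prop where
  zero : PT (fun a => (o a).zero)
  one : PT (fun a => (o a).one)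
  add : PT (fun q : σ × α × α => (o q.1).add q.2.1 q.2.2)
  mul : PT (fun q : σ × α × α => (o q.1).mul q.2.1 q.2.2)
  neg : PT (fun q : σ × α => (o q.1).neg q.2)
  inv : PT (fun q : σ × α => (o q.1).inv q.2)
  bd : ∃ B : σ → ℕ, PB B ∧ ∀ a, OB (o a) (B a)

@[fun_prop] theorem PO.comp {o : τ → Ops α} {f : σ → τ} (ho : PO o) (hf : PT f) :
    PO (fun a => o (f a)) := by
  obtain ⟨B, hB, h⟩ := ho.bd
  exact ⟨ho.zero.comp hf, ho.one.comp hf,
    ho.add.comp (f := fun q : σ × α × α => (f q.1, q.2)) (by fun_prop),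
    ho.mul.comp (f := fun q : σ × α × α => (f q.1, q.2)) (by fun_prop),
    ho.neg.comp (f := fun q : σ × α => (f q.1, q.2)) (by fun_prop),
    ho.inv.comp (f := fun q : σ × α => (f q.1, q.2)) (by fun_prop),
    fun a => B (f a), hB.comp hf, fun a => h (f a)⟩

section Sizes

variable {o : Ops α} {B : ℕ}

theorem OB.sum (h : OB o B) (l : List α) : sz (o.sum l) ≤ B := by
  unfold Ops.sum
  induction l using List.reverseRecOn with
  | nil => exact h.zero
  | append_singleton l c _ => rw [List.foldl_append]; exact h.add _ _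
theorem OB.pow (h : OB o B) (a : α) (e : ℕ) : sz (o.pow a e) ≤ B := by
  unfold Ops.pow
  cases e.bits with
  | nil => exact h.one
  | cons c l => rw [List.foldr_cons]; split_ifs <;> exact h.mul _ _
theorem OB.first (h : OB o B) (l : List α) : sz (o.first l) ≤ B := by
  cases l with
  | nil => exact h.zero
  | cons c l => exact h.add _ _
theorem OB.prem (h : OB o B) (a m : List α) : sz (o.prem a m) ≤ m.length * (2 * B + 2) := by
  cases a with
  | nil => exact Nat.zero_le _
  | cons c l =>
    exact (sz_map_range_le fun i => h.add _ _).trans (Nat.mul_le_mul_right _ (Nat.sub_le _ _))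
theorem OB.psum (h : OB o B) {A : ℕ} (l : List (List α)) (hl : ∀ a ∈ l, a.length ≤ A) :
    (o.psum l).length ≤ A ∧ sz (o.psum l) ≤ A * (2 * B + 2) := by
  have h1 : lmax (l.map List.length) ≤ A := (lmax_le _ _).2 fun x hx => by
    obtain ⟨y, hy, rfl⟩ := List.mem_map.1 hx
    exact hl y hy
  exact ⟨by simpa [Ops.psum] using h1,
    (sz_map_range_le fun i => h.sum _).trans (Nat.mul_le_mul_right _ h1)⟩
theorem OB.quot0 (h : OB o B) (m : List α) : OB (o.quot0 m) (m.length * (2 * B + 2)) := by
  exact ⟨Nat.zero_le _, h.prem _ _, fun _ _ => h.prem _ _, fun _ _ => h.prem _ _,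
    fun _ => h.prem _ _, fun _ => Nat.zero_le _⟩
theorem OB.quot (h : OB o B) (m : List α) (Q : ℕ) :
    OB (o.quot m Q) (m.length * (2 * B + 2)) := by
  have h0 := h.quot0 m
  exact ⟨h0.zero, h0.one, h0.add, h0.mul, h0.neg, fun _ => h0.pow _ _⟩
theorem pt0_oP0 (p : ℕ) : OB (oP0 p) (Nat.size p) := by
  have key : ∀ x : ℕ, sz (x % max p 1) ≤ Nat.size p := fun x => Nat.size_le_size (by
    have := Nat.mod_lt x (show 0 < max p 1 by omega)
    omega)
  exact ⟨Nat.size_le_size (Nat.zero_le _), key _, fun _ _ => key _, fun _ _ => key _,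
    fun _ => key _, fun _ => Nat.size_le_size (Nat.zero_le _)⟩
theorem ob_oP (p : ℕ) : OB (oP p) (Nat.size p) := by
  have h0 := pt0_oP0 p
  exact ⟨h0.zero, h0.one, h0.add, h0.mul, h0.neg, fun _ => h0.pow _ _⟩

end Sizes

variable {o : σ → Ops α} {x y z : σ → α} {a b m : σ → List α} {k e : σ → ℕ}

@[fun_prop] theorem pt_ozero (ho : PO o) : PT (fun s => (o s).zero) := ho.zero
@[fun_prop] theorem pt_oone (ho : PO o) : PT (fun s => (o s).one) := ho.one
@[fun_prop] theorem pt_oadd (ho : PO o) (hx : PT x) (hy : PT y) :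
    PT (fun s => (o s).add (x s) (y s)) := ho.add.comp (f := fun s => (s, x s, y s)) (by fun_prop)
@[fun_prop] theorem pt_omul (ho : PO o) (hx : PT x) (hy : PT y) :
    PT (fun s => (o s).mul (x s) (y s)) := ho.mul.comp (f := fun s => (s, x s, y s)) (by fun_prop)
@[fun_prop] theorem pt_oneg (ho : PO o) (hx : PT x) : PT (fun s => (o s).neg (x s)) :=
  ho.neg.comp (f := fun s => (s, x s)) (by fun_prop)
@[fun_prop] theorem pt_oinv (ho : PO o) (hx : PT x) : PT (fun s => (o s).inv (x s)) :=
  ho.inv.comp (f := fun s => (s, x s)) (by fun_prop)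

variable [Inhabited α]

@[fun_prop] theorem pt_osub (ho : PO o) (hx : PT x) (hy : PT y) :
    PT (fun s => (o s).sub (x s) (y s)) := by
  unfold Ops.sub; fun_prop
@[fun_prop] theorem pt_osum (ho : PO o) (ha : PT a) : PT (fun s => (o s).sum (a s)) := by
  obtain ⟨B, hB, h⟩ := ho.bd
  exact PT.foldl_add (f := fun s => (o s).add) (by fun_prop) ha (by fun_prop) hB
    fun s _ _ _ => ((h s).add _ _).trans (Nat.le_add_left _ _)
@[fun_prop] theorem pt_opow (ho : PO o) (hx : PT x) (he : PT e) :
    PT (fun s => (o s).pow (x s) (e s)) := by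
  obtain ⟨B, hB, h⟩ := ho.bd
  refine PT.foldr_add (f := fun s (b : Bool) (t : α) =>
    if b = true then (o s).mul (x s) ((o s).mul t t) else (o s).mul t t) (by fun_prop) he.bits
    (by fun_prop) hB fun s _ _ _ => le_trans ?_ (Nat.le_add_left _ _)
  split_ifs <;> exact (h s).mul _ _
@[fun_prop] theorem pt_onat (ho : PO o) (he : PT e) : PT (fun s => (o s).nat (e s)) := by
  obtain ⟨B, hB, h⟩ := ho.bd
  refine PT.foldr_add (f := fun s (b : Bool) (t : α) =>
    if b = true then (o s).add (o s).one ((o s).add t t) else (o s).add t t) (by fun_prop) he.bits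
    (by fun_prop) hB fun s _ _ _ => le_trans ?_ (Nat.le_add_left _ _)
  split_ifs <;> exact (h s).add _ _
@[fun_prop] theorem pt_oind (ho : PO o) (hx : PT x) : PT (fun s => (o s).ind (x s)) := by
  unfold Ops.ind; fun_prop
@[fun_prop] theorem pt_osel (ho : PO o) (hx : PT x) (hy : PT y) (hz : PT z) :
    PT (fun s => (o s).sel (x s) (y s) (z s)) := by
  unfold Ops.sel; fun_prop
@[fun_prop] theorem pt_ofirst (ho : PO o) (ha : PT a) : PT (fun s => (o s).first (a s)) := by
  obtain ⟨B, hB, h⟩ := ho.bd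
  exact PT.foldr_add (f := fun s (c t : α) => (o s).sel ((o s).ind c) c t) (by fun_prop) ha
    (by fun_prop) hB fun s _ _ _ => ((h s).add _ _).trans (Nat.le_add_left _ _)
@[fun_prop] theorem pt_padd (ho : PO o) (ha : PT a) (hb : PT b) :
    PT (fun s => (o s).padd (a s) (b s)) := by
  unfold Ops.padd; fun_prop
@[fun_prop] theorem pt_psm (ho : PO o) (hx : PT x) (ha : PT a) :
    PT (fun s => (o s).psm (x s) (a s)) := by
  unfold Ops.psm; fun_prop
@[fun_prop] theorem pt_pneg (ho : PO o) (ha : PT a) : PT (fun s => (o s).pneg (a s)) := by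
  unfold Ops.pneg; fun_prop
@[fun_prop] theorem pt_psub (ho : PO o) (ha : PT a) (hb : PT b) :
    PT (fun s => (o s).psub (a s) (b s)) := by
  unfold Ops.psub; fun_prop
@[fun_prop] theorem pt_pmul (ho : PO o) (ha : PT a) (hb : PT b) :
    PT (fun s => (o s).pmul (a s) (b s)) := by
  unfold Ops.pmul; fun_prop
@[fun_prop] theorem pt_psum (ho : PO o) {l : σ → List (List α)} (hl : PT l) :
    PT (fun s => (o s).psum (l s)) := by
  unfold Ops.psum; fun_prop
theorem pt0_getD (l : List β) (i : ℕ) (d : β) : sz (l.getD i d) ≤ sz l + sz d := by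
  rcases Nat.lt_or_ge i l.length with h | h
  · rw [List.getD_eq_getElem _ _ h]
    exact (sz_mem (List.getElem_mem h)).trans (Nat.le_add_right _ _)
  · rw [List.getD_eq_default _ _ h]
    exact Nat.le_add_left _ _
/-- Right folds with an invariant under which the state grows by a bounded amount. -/
theorem pt0_foldr [Inhabited β] {f : σ → β → τ → τ} {l : σ → List β} {i : σ → τ} {D : σ → ℕ}
    (hf : PT (fun p : σ × β × τ => f p.1 p.2.1 p.2.2)) (hl : PT l) (hi : PT i) (hD : PB D)
    (I : σ → τ → Prop) (h0 : ∀ s, I s (i s))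
    (h1 : ∀ s t, ∀ y ∈ l s, I s t → I s (f s y t) ∧ sz (f s y t) ≤ sz t + D s) :
    PT (fun s => (l s).foldr (f s) (i s)) := by
  have h2 : PT (fun p : σ × τ × β => f p.1 p.2.2 p.2.1) :=
    hf.comp (f := fun p : σ × τ × β => (p.1, p.2.2, p.2.1)) (by fun_prop)
  have key : ∀ s (L : List β), (∀ y ∈ L, y ∈ l s) → ∀ t, I s t →
      sz (L.foldl (fun t y => f s y t) t) ≤ sz t + L.length * D s := by
    intro s L
    induction L with
    | nil => simp
    | cons y L ih =>
      intro hL t ht
      obtain ⟨h3, h4⟩ := h1 s t y (hL y List.mem_cons_self) ht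
      have := ih (fun z hz => hL z (List.mem_cons_of_mem _ hz)) _ h3
      rw [List.foldl_cons, List.length_cons, add_mul]
      omega
  refine (PT.foldl (f := fun s t y => f s y t) (B := fun s => sz (i s) + (l s).length * D s) h2
    hl.reverse hi (hi.1.add (hl.pb_length.mul hD)) fun s k => ?_).congr
    fun s => by rw [List.foldl_reverse]
  refine (key s _ (fun y hy => List.mem_reverse.1 (List.mem_of_mem_take hy)) _ (h0 s)).trans ?_
  exact Nat.add_le_add_left (Nat.mul_le_mul_right _ (by simp)) _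
theorem pt0_pdm (ho : PO o) (ha : PT a) (hm : PT m) : PT (fun s => (o s).pdm (a s) (m s)) := by
  obtain ⟨B, hB, h⟩ := ho.bd
  have ha1 : PB fun s => sz (a s) := ha.1
  refine pt0_foldr (f := fun s (c : α) (t : List α × List α) =>
    ((c :: t.2).getD ((m s).length - 1) (o s).zero :: t.1,
      (List.range ((m s).length - 1)).map fun i => (o s).sub ((c :: t.2).getD i (o s).zero)
        ((o s).mul ((c :: t.2).getD ((m s).length - 1) (o s).zero) ((m s).getD i (o s).zero))))
    (D := fun s => 8 * sz (a s) + 5 * ((m s).length * (2 * B s + 2)) + 4 * B s + 12)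
    (by fun_prop) ha (by fun_prop) (by fun_prop)
    (fun s t => sz t.2 ≤ (m s).length * (2 * B s + 2)) (fun s => Nat.zero_le _)
    fun s t c hc ht => ?_
  have h1 := (sz_map_range_le (k := (m s).length - 1) (g := fun i =>
    (o s).sub ((c :: t.2).getD i (o s).zero)
      ((o s).mul ((c :: t.2).getD ((m s).length - 1) (o s).zero) ((m s).getD i (o s).zero)))
    fun i => (h s).add _ _).trans (Nat.mul_le_mul_right _ (Nat.sub_le _ _))
  refine ⟨h1, ?_⟩
  have h2 := pt0_getD (c :: t.2) ((m s).length - 1) (o s).zero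
  have h3 := sz_mem hc
  have h4 := (h s).zero
  rw [sz_pair, sz_cons, sz_prod t]
  rw [sz_cons] at h2
  omega
@[fun_prop] theorem pt_pquo (ho : PO o) (ha : PT a) (hm : PT m) :
    PT (fun s => (o s).pquo (a s) (m s)) := by
  exact (pt0_pdm ho ha hm).fst
@[fun_prop] theorem pt_prem (ho : PO o) (ha : PT a) (hm : PT m) :
    PT (fun s => (o s).prem (a s) (m s)) := by
  exact (pt0_pdm ho ha hm).snd
@[fun_prop] theorem pt_pshift (ho : PO o) (hx : PT x) (ha : PT a) :
    PT (fun s => (o s).pshift (x s) (a s)) := by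
  obtain ⟨B, hB, h⟩ := ho.bd
  exact PT.foldr_add (f := fun s (t : α) (u : List α) => (List.range (a s).length).map fun i =>
    (o s).add ((t :: u).getD i (o s).zero) ((o s).mul (x s) (u.getD i (o s).zero)))
    (D := fun s => (a s).length * (2 * B s + 2)) (by fun_prop) ha (by fun_prop) (by fun_prop)
    fun s _ _ _ => (sz_map_range_le fun i => (h s).add _ _).trans (Nat.le_add_left _ _)
@[fun_prop] theorem pt_prev (ho : PO o) (hk : PT k) (hk' : PB k) (ha : PT a) :
    PT (fun s => (o s).prev (k s) (a s)) := by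
  unfold Ops.prev; fun_prop
@[fun_prop] theorem pt_pder (ho : PO o) (ha : PT a) : PT (fun s => (o s).pder (a s)) := by
  unfold Ops.pder; fun_prop
@[fun_prop] theorem pt_pmon (ho : PO o) (hk : PT k) (hk' : PB k) (he : PT e) :
    PT (fun s => (o s).pmon (k s) (e s)) := by
  unfold Ops.pmon; fun_prop
@[fun_prop] theorem pt_peval (ho : PO o) (ha : PT a) (hx : PT x) :
    PT (fun s => (o s).peval (a s) (x s)) := by
  obtain ⟨B, hB, h⟩ := ho.bd
  exact PT.foldr_add (f := fun s (t u : α) => (o s).add t ((o s).mul (x s) u)) (by fun_prop) ha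
    (by fun_prop) hB fun s _ _ _ => ((h s).add _ _).trans (Nat.le_add_left _ _)
@[fun_prop] theorem po_quot0 (ho : PO o) (hm : PT m) : PO (fun s => (o s).quot0 (m s)) := by
  obtain ⟨B, hB, h⟩ := ho.bd
  unfold Ops.quot0
  exact ⟨by fun_prop, by fun_prop, by fun_prop, by fun_prop, by fun_prop, by fun_prop,
    fun s => (m s).length * (2 * B s + 2), by fun_prop, fun s => (h s).quot0 _⟩
@[fun_prop] theorem po_quot (ho : PO o) (hm : PT m) (hk : PT k) :
    PO (fun s => (o s).quot (m s) (k s)) := by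
  obtain ⟨B, hB, h⟩ := ho.bd
  have h0 := po_quot0 ho hm
  refine ⟨h0.zero, h0.one, h0.add, h0.mul, h0.neg, ?_,
    fun s => (m s).length * (2 * B s + 2), by fun_prop, fun s => (h s).quot _ _⟩
  exact pt_opow (o := fun q : σ × List α => (o q.1).quot0 (m q.1)) (x := fun q => q.2)
    (e := fun q => 2 * k q.1 - 3) (h0.comp (by fun_prop)) (by fun_prop) (by fun_prop)
@[fun_prop] theorem po_oP0 (hk : PT k) : PO (fun s => oP0 (k s)) := by
  unfold oP0
  exact ⟨by fun_prop, by fun_prop, by fun_prop, by fun_prop, by fun_prop, by fun_prop,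
    fun s => Nat.size (k s), hk.1, fun s => pt0_oP0 _⟩
@[fun_prop] theorem po_oP (hk : PT k) : PO (fun s => oP (k s)) := by
  have h0 := po_oP0 hk
  refine ⟨h0.zero, h0.one, h0.add, h0.mul, h0.neg, ?_,
    fun s => Nat.size (k s), hk.1, fun s => ob_oP _⟩
  exact pt_opow (o := fun q : σ × ℕ => oP0 (k q.1)) (x := fun q => q.2)
    (e := fun q => 2 * k q.1 - 3) (h0.comp (by fun_prop)) (by fun_prop) (by fun_prop)

end Vale.Agent.P319
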