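import Vale.Agent.P319.PT0

/-! Polynomial time: linear algebra, arithmetic on the curve, roots. -/

namespace Vale.Agent.P319

open Vale.Agent.Lib.PolyTime

variable {σ α : Type} [Enc σ] [Enc α]

section Sizes

variable {o : Ops α} {B : ℕ}

theorem p1_lc2 (h : OB o B) (d : ℕ) (a : α) (u : List α) (b : α) (v : List α) :
    (o.lc2 d a u b v).length ≤ d ∧ ∀ c ∈ o.lc2 d a u b v, sz c ≤ B := by
  refine ⟨by simp [Ops.lc2], fun c hc => ?_⟩
  obtain ⟨j, -, rfl⟩ := List.mem_map.1 hc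
  exact h.add _ _

theorem p1_sz {d : ℕ} {u : List α} (h : u.length ≤ d ∧ ∀ c ∈ u, sz c ≤ B) :
    sz u ≤ d * (2 * B + 2) :=
  (sz_le_of_forall h.2).trans (Nat.mul_le_mul_right _ h.1)

theorem p1_ins (h : OB o B) (d : ℕ) (R : List (List α)) (v : List α) :
    (o.ins d R v).length ≤ d ∧ ∀ w ∈ o.ins d R v, w.length ≤ d ∧ ∀ c ∈ w, sz c ≤ B := by
  have key : ∀ (L : List ℕ) (s : List (List α) × List α),
      (∀ w ∈ s.1, w.length ≤ d ∧ ∀ c ∈ w, sz c ≤ B) →
      (L.foldl (fun (s : List (List α) × List α) i => (s.1 ++ [o.piv d (R.getD i []) s.2 i],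
        o.lc2 d o.one s.2 (o.neg (s.2.getD i o.zero)) (o.piv d (R.getD i []) s.2 i))) s).1.length
        ≤ s.1.length + L.length ∧
      ∀ w ∈ (L.foldl (fun (s : List (List α) × List α) i => (s.1 ++ [o.piv d (R.getD i []) s.2 i],
        o.lc2 d o.one s.2 (o.neg (s.2.getD i o.zero)) (o.piv d (R.getD i []) s.2 i))) s).1,
        w.length ≤ d ∧ ∀ c ∈ w, sz c ≤ B := by
    intro L
    induction L with
    | nil => exact fun s hs => ⟨le_rfl, hs⟩
    | cons i L ih =>
      intro s hs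
      rw [List.foldl_cons]
      refine (ih _ fun w hw => ?_).imp (fun h1 => h1.trans ?_) id
      · rcases List.mem_append.1 hw with hw | hw
        · exact hs w hw
        · rw [List.mem_singleton.1 hw]
          exact p1_lc2 h _ _ _ _ _
      · simp only [List.length_append, List.length_cons, List.length_nil]
        omega
  have := key (List.range d) ([], v) fun w hw => absurd hw List.not_mem_nil
  rw [List.length_range, List.length_nil, Nat.zero_add] at this
  exact this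

theorem p1_rep (d : ℕ) : (List.replicate d ([] : List α)).length ≤ d ∧
    ∀ w ∈ List.replicate d ([] : List α), w.length ≤ d ∧ ∀ c ∈ w, sz c ≤ B := by
  refine ⟨List.length_replicate.le, fun w hw => ?_⟩
  rw [List.eq_of_mem_replicate hw]
  exact ⟨Nat.zero_le _, fun c hc => absurd hc List.not_mem_nil⟩

theorem p1_ech (h : OB o B) (d : ℕ) (vs : List (List α)) :
    (o.ech d vs).length ≤ d ∧ ∀ w ∈ o.ech d vs, w.length ≤ d ∧ ∀ c ∈ w, sz c ≤ B :=
  List.foldlRecOn (motive := fun R : List (List α) =>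
    R.length ≤ d ∧ ∀ w ∈ R, w.length ≤ d ∧ ∀ c ∈ w, sz c ≤ B) vs (o.ins d) (p1_rep d)
    fun R _ v _ => p1_ins h d R v

theorem p1_kerMod (h : OB o B) (d : ℕ) (C G : List (List α)) :
    (o.kerMod d C G).length ≤ C.length ∧
      ∀ w ∈ o.kerMod d C G, w.length ≤ C.length ∧ ∀ c ∈ w, sz c ≤ B := by
  unfold Ops.kerMod
  generalize ((List.range C.length).map fun t =>
    ((List.range d).map fun j => (C.getD t []).getD j o.zero) ++ o.pmon C.length t) ++ G = vs
  obtain ⟨h1, h2⟩ := p1_ech h (d + C.length) vs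
  refine ⟨?_, fun w hw => ?_⟩
  · rw [List.length_map, List.length_drop]
    omega
  · obtain ⟨u, hu, rfl⟩ := List.mem_map.1 hw
    obtain ⟨h3, h4⟩ := h2 u (List.mem_of_mem_drop hu)
    refine ⟨?_, fun c hc => h4 c (List.mem_of_mem_drop hc)⟩
    rw [List.length_drop]
    omega

omit [Enc α] in
theorem p1_getD {p : List α → Prop} (h0 : p []) {a : List (List α)} (h : ∀ q ∈ a, p q) (k : ℕ) :
    p (a.getD k []) := by
  by_cases hk : k < a.length
  · rw [List.getD_eq_getElem _ _ hk]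
    exact h _ (List.getElem_mem _)
  · rw [List.getD_eq_default _ _ (Nat.le_of_not_lt hk)]
    exact h0

omit [Enc α] in
theorem p1_len {A : ℕ} {a : List (List α)} (h : ∀ q ∈ a, q.length ≤ A) (k : ℕ) :
    (a.getD k []).length ≤ A :=
  p1_getD (p := fun q => q.length ≤ A) (Nat.zero_le _) h k

theorem p1_psums (h : OB o B) (ℓ : ℕ) {A : ℕ} (g : ℕ → List (List α))
    (hg : ∀ k, ∀ q ∈ g k, q.length ≤ A) :
    (∀ q ∈ (List.range ℓ).map fun k => o.psum (g k), q.length ≤ A) ∧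
      sz ((List.range ℓ).map fun k => o.psum (g k)) ≤ ℓ * (2 * (A * (2 * B + 2)) + 2) := by
  refine ⟨fun q hq => ?_, sz_map_range_le fun k => (h.psum _ (hg k)).2⟩
  obtain ⟨k, -, rfl⟩ := List.mem_map.1 hq
  exact (h.psum _ (hg k)).1

omit [Enc α] in
theorem p1_pmul (a b : List α) : (o.pmul a b).length = a.length + b.length := by
  simp [Ops.pmul]

theorem p1_lev (h : OB o B) (ℓ : ℕ) (g a x : α) (u : ℕ) {N : ℕ} (hN : B ≤ N) (hx : sz x ≤ N) :
    sz (o.lev ℓ g a x u) ≤ N :=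
  List.foldlRecOn (motive := fun s : α => sz s ≤ N) _ _ hx fun _ _ _ _ => (h.add _ _).trans hN

theorem OB.solve (h : OB o B) (ℓ : ℕ) (C G : List (List (List (List α)))) :
    (o.solve ℓ C G).length ≤ C.length ∧
      ∀ w ∈ o.solve ℓ C G, w.length ≤ C.length ∧ ∀ c ∈ w, sz c ≤ B := by
  have := p1_kerMod h (G.length * ℓ * lmax ((C ++ G).flatten.flatten.map List.length))
    (C.map (o.flat ℓ G.length (lmax ((C ++ G).flatten.flatten.map List.length))))
    ((List.range G.length).flatMap fun j => (G.getD j []).map fun g =>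
      o.flat ℓ G.length (lmax ((C ++ G).flatten.flatten.map List.length))
        ((List.range G.length).map fun i => if i = j then g else []))
  rw [List.length_map] at this
  exact this

theorem OB.last (h : OB o B) (rows : List (List α)) :
    (o.last rows).length ≤ rows.length ∧ ∀ c ∈ o.last rows, sz c ≤ B := by
  exact List.foldlRecOn (motive := fun s : List α =>
    s.length ≤ rows.length ∧ ∀ c ∈ s, sz c ≤ B) _ _
    ⟨Nat.zero_le _, fun c hc => absurd hc List.not_mem_nil⟩ fun _ _ _ _ => p1_lc2 h _ _ _ _ _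

theorem OB.lin (h : OB o B) (ℓ : ℕ) {A : ℕ} (c : List α) (us : List (List (List α)))
    (hu : ∀ u ∈ us, ∀ q ∈ u, q.length ≤ A) : (∀ q ∈ o.lin ℓ c us, q.length ≤ A) ∧
      sz (o.lin ℓ c us) ≤ ℓ * (2 * (A * (2 * B + 2)) + 2) := by
  refine p1_psums h ℓ _ fun k q hq => ?_
  obtain ⟨z, hz, rfl⟩ := List.mem_map.1 hq
  obtain ⟨t, -, rfl⟩ := List.mem_map.1 hz
  refine p1_len (fun q hq => ?_) k
  obtain ⟨r, hr, rfl⟩ := List.mem_map.1 hq
  rw [Ops.psm, List.length_map]
  exact p1_getD (p := fun u => ∀ q ∈ u, q.length ≤ A)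
    (fun q hq => absurd hq List.not_mem_nil) hu t r hr

theorem OB.tmul (h : OB o B) (ℓ : ℕ) (F : List α) {A A' : ℕ} (a b : List (List α))
    (ha : ∀ q ∈ a, q.length ≤ A) (hb : ∀ q ∈ b, q.length ≤ A') :
    (∀ q ∈ o.tmul ℓ F a b, q.length ≤ F.length + A + A') ∧
      sz (o.tmul ℓ F a b) ≤ ℓ * (2 * ((F.length + A + A') * (2 * B + 2)) + 2) := by
  refine p1_psums h ℓ _ fun k q hq => ?_
  obtain ⟨i, -, rfl⟩ := List.mem_map.1 hq
  have h1 := p1_len ha i
  split_ifs
  · have h2 := p1_len hb (k - i)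
    rw [p1_pmul]
    omega
  · have h2 := p1_len hb (k + ℓ - i)
    rw [p1_pmul, p1_pmul]
    omega

theorem OB.root (h : OB o B) (ℓ Q : ℕ) (w a : α) : sz (o.root ℓ Q w a) ≤ B := by
  refine List.foldlRecOn (motive := fun s : α × ℕ => sz s.1 ≤ B) _ _ (h.pow _ _)
    fun s hs _ _ => ?_
  split_ifs
  · exact hs
  · exact p1_lev h _ _ _ _ _ le_rfl hs

omit [Enc α] in
theorem len_tmon (o : Ops α) (ℓ A : ℕ) (q : ℕ × ℕ) : ∀ u ∈ o.tmon ℓ A q, u.length ≤ A := by
  intro u hu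
  obtain ⟨k, -, rfl⟩ := List.mem_map.1 hu
  split_ifs
  · simp [Ops.pmon]
  · exact Nat.zero_le _

theorem p1_tprod (h : OB o B) (ℓ : ℕ) (F : List α) {A : ℕ} (L : List (List (List α)))
    (hL : ∀ z ∈ L, ∀ q ∈ z, q.length ≤ A) :
    (∀ q ∈ o.tprod ℓ F L, q.length ≤ 1 + L.length * (F.length + A)) ∧
      sz (o.tprod ℓ F L) ≤
        4 * B + 6 + ℓ * (2 * ((1 + L.length * (F.length + A)) * (2 * B + 2)) + 2) := by
  induction L using List.reverseRecOn with
  | nil =>
    refine ⟨fun q hq => ?_, ?_⟩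
    · rw [List.mem_singleton.1 hq]
      exact Nat.le_add_right _ _
    · have h1 := h.one
      have h2 : sz (o.tprod ℓ F []) = 2 * (2 * sz o.one + 0 + 2) + 0 + 2 := rfl
      omega
  | append_singleton L z ih =>
    have h1 := h.tmul ℓ F (o.tprod ℓ F L) z
      (ih fun u hu => hL u (List.mem_append_left _ hu)).1 (hL z (by simp))
    have e1 : o.tprod ℓ F (L ++ [z]) = o.tmul ℓ F (o.tprod ℓ F L) z := List.foldl_concat _ _ _ _
    have e2 : 1 + (L ++ [z]).length * (F.length + A)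
        = F.length + (1 + L.length * (F.length + A)) + A := by
      rw [List.length_append, List.length_singleton]
      ring
    rw [e1, e2]
    exact ⟨h1.1, h1.2.trans (Nat.le_add_left _ _)⟩


end Sizes

variable [Inhabited α] {o : σ → Ops α} {x w : σ → α} {F c : σ → List α} {ℓ d k Q A : σ → ℕ}
  {a b : σ → List (List α)} {l : σ → List (List (List α))}

@[fun_prop] theorem p1_pt_lc2 (ho : PO o) (hd : PT d) (hd' : PB d) (hx : PT x) (hF : PT F)
    (hw : PT w) (hc : PT c) : PT (fun s => (o s).lc2 (d s) (x s) (F s) (w s) (c s)) := by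
  unfold Ops.lc2
  fun_prop

@[fun_prop] theorem p1_pt_piv (ho : PO o) (hd : PT d) (hd' : PB d) (hF : PT F) (hc : PT c)
    (hk : PT k) : PT (fun s => (o s).piv (d s) (F s) (c s) (k s)) := by
  unfold Ops.piv
  fun_prop

@[fun_prop] theorem p1_pt_ins (ho : PO o) (hd : PT d) (hd' : PB d) (ha : PT a) (hc : PT c) :
    PT (fun s => (o s).ins (d s) (a s) (c s)) := by
  obtain ⟨B, hB, h⟩ := ho.bd
  refine PT.fst (PT.foldl_add (f := fun s (t : List (List α) × List α) i =>
    (t.1 ++ [(o s).piv (d s) ((a s).getD i []) t.2 i], (o s).lc2 (d s) (o s).one t.2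
      ((o s).neg (t.2.getD i (o s).zero)) ((o s).piv (d s) ((a s).getD i []) t.2 i)))
    (l := fun s => List.range (d s)) (i := fun s => ([], c s))
    (D := fun s => 5 * (d s * (2 * B s + 2)) + 4) (by fun_prop) (by fun_prop) (by fun_prop)
    (by fun_prop) fun s t i _ => ?_)
  have h1 : sz ((o s).piv (d s) ((a s).getD i []) t.2 i) ≤ d s * (2 * B s + 2) :=
    p1_sz (p1_lc2 (h s) _ _ _ _ _)
  have h2 := p1_sz (p1_lc2 (h s) (d s) (o s).one t.2 ((o s).neg (t.2.getD i (o s).zero))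
    ((o s).piv (d s) ((a s).getD i []) t.2 i))
  rw [sz_pair, sz_append, sz_cons, sz_nil, sz_prod t]
  omega

@[fun_prop] theorem pt_ech (ho : PO o) (hd : PT d) (hd' : PB d) (ha : PT a) :
    PT (fun s => (o s).ech (d s) (a s)) := by
  obtain ⟨B, hB, h⟩ := ho.bd
  exact PT.foldl_inv (f := fun s => (o s).ins (d s)) (i := fun s => List.replicate (d s) [])
    (B := fun s => d s * (2 * (d s * (2 * B s + 2)) + 2)) (by fun_prop) ha (by fun_prop)
    (by fun_prop) (fun s R => R.length ≤ d s ∧ ∀ w ∈ R, w.length ≤ d s ∧ ∀ c ∈ w, sz c ≤ B s)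
    (fun s => p1_rep _) (fun s R v _ _ => p1_ins (h s) _ R v)
    fun s R hR => p1_sz ⟨hR.1, fun w hw => p1_sz (hR.2 w hw)⟩

@[fun_prop] theorem pt_kerMod (ho : PO o) (hd : PT d) (hd' : PB d) (ha : PT a) (hb : PT b) :
    PT (fun s => (o s).kerMod (d s) (a s) (b s)) := by
  unfold Ops.kerMod
  fun_prop

@[fun_prop] theorem pt_diag (ho : PO o) (ha : PT a) : PT (fun s => (o s).diag (a s)) := by
  unfold Ops.diag
  fun_prop

@[fun_prop] theorem pt_last (ho : PO o) (ha : PT a) : PT (fun s => (o s).last (a s)) := by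
  obtain ⟨B, hB, h⟩ := ho.bd
  exact PT.foldl_add (f := fun s t i => (o s).lc2 (a s).length (((a s).getD i []).getD i (o s).zero)
    ((a s).getD i []) ((o s).sub (o s).one (((a s).getD i []).getD i (o s).zero)) t)
    (l := fun s => List.range (a s).length) (i := fun _ => [])
    (D := fun s => (a s).length * (2 * B s + 2)) (by fun_prop) (by fun_prop) (by fun_prop)
    (by fun_prop) fun s t i _ => (p1_sz (p1_lc2 (h s) _ _ _ _ _)).trans (Nat.le_add_left _ _)

@[fun_prop] theorem pt_tadd (ho : PO o) (hℓ : PT ℓ) (hℓ' : PB ℓ) (ha : PT a) (hb : PT b) :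
    PT (fun s => (o s).tadd (ℓ s) (a s) (b s)) := by
  unfold Ops.tadd
  fun_prop

@[fun_prop] theorem pt_tsm (ho : PO o) (hx : PT x) (ha : PT a) :
    PT (fun s => (o s).tsm (x s) (a s)) := by
  unfold Ops.tsm
  fun_prop

@[fun_prop] theorem pt_tmul (ho : PO o) (hℓ : PT ℓ) (hℓ' : PB ℓ) (hF : PT F) (ha : PT a)
    (hb : PT b) : PT (fun s => (o s).tmul (ℓ s) (F s) (a s) (b s)) := by
  unfold Ops.tmul
  fun_prop

@[fun_prop] theorem pt_ttau (ho : PO o) (hℓ : PT ℓ) (hℓ' : PB ℓ) (hx : PT x) (ha : PT a) :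
    PT (fun s => (o s).ttau (ℓ s) (x s) (a s)) := by
  unfold Ops.ttau
  fun_prop

@[fun_prop] theorem pt_tsum (ho : PO o) (hℓ : PT ℓ) (hℓ' : PB ℓ) (hl : PT l) :
    PT (fun s => (o s).tsum (ℓ s) (l s)) := by
  unfold Ops.tsum
  fun_prop

@[fun_prop] theorem pt_tprod (ho : PO o) (hℓ : PT ℓ) (hℓ' : PB ℓ) (hF : PT F) (hl : PT l) :
    PT (fun s => (o s).tprod (ℓ s) (F s) (l s)) := by
  obtain ⟨B, hB, h⟩ := ho.bd
  refine PT.foldl (f := fun s => (o s).tmul (ℓ s) (F s)) (i := fun s => [[(o s).one]])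
    (B := fun s => 4 * B s + 6 + ℓ s * (2 * ((1 + (l s).length * ((F s).length +
      lmax ((l s).flatten.map List.length))) * (2 * B s + 2)) + 2)) (by fun_prop) hl
    (by fun_prop) (by fun_prop) fun s k => ?_
  refine (p1_tprod (h s) (ℓ s) (F s) (A := lmax ((l s).flatten.map List.length)) ((l s).take k)
    fun z hz q hq => le_lmax (List.mem_map_of_mem
      (List.mem_flatten.2 ⟨z, List.mem_of_mem_take hz, hq⟩))).2.trans ?_
  have h1 : ((l s).take k).length ≤ (l s).length := List.length_take_le' _ _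
  gcongr

@[fun_prop] theorem pt_tpow (ho : PO o) (hℓ : PT ℓ) (hℓ' : PB ℓ) (hF : PT F) (hA : PT A)
    (hA' : PB A) (ha : PT a) (hk : PT k) :
    PT (fun s => (o s).tpow (ℓ s) (F s) (A s) (a s) (k s)) := by
  unfold Ops.tpow
  fun_prop

@[fun_prop] theorem pt_tmon (ho : PO o) (hℓ : PT ℓ) (hℓ' : PB ℓ) (hA : PT A) (hA' : PB A)
    {q : σ → ℕ × ℕ} (hq : PT q) : PT (fun s => (o s).tmon (ℓ s) (A s) (q s)) := by
  unfold Ops.tmon
  fun_prop

@[fun_prop] theorem pt_lin (ho : PO o) (hℓ : PT ℓ) (hℓ' : PB ℓ) (hc : PT c) (hl : PT l) :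
    PT (fun s => (o s).lin (ℓ s) (c s) (l s)) := by
  unfold Ops.lin
  fun_prop

@[fun_prop] theorem p1_pt_flat (ho : PO o) (hℓ : PT ℓ) (hℓ' : PB ℓ) (hk : PT k) (hk' : PB k)
    (hA : PT A) (hA' : PB A) (hl : PT l) : PT (fun s => (o s).flat (ℓ s) (k s) (A s) (l s)) := by
  unfold Ops.flat
  fun_prop

@[fun_prop] theorem pt_solve (ho : PO o) (hℓ : PT ℓ) (hℓ' : PB ℓ)
    {C G : σ → List (List (List (List α)))} (hC : PT C) (hG : PT G) :
    PT (fun s => (o s).solve (ℓ s) (C s) (G s)) := by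
  have h1 : PT fun s => lmax ((C s ++ G s).flatten.flatten.map List.length) := by fun_prop
  have h2 : PB fun s => lmax ((C s ++ G s).flatten.flatten.map List.length) := by fun_prop
  unfold Ops.solve
  generalize hA : (fun s => lmax ((C s ++ G s).flatten.flatten.map List.length)) = A at h1 h2
  have hA' : ∀ s, lmax ((C s ++ G s).flatten.flatten.map List.length) = A s := congrFun hA
  simp only [hA']
  fun_prop

@[fun_prop] theorem pt_cof (hℓ : PT ℓ) (hQ : PT Q) : PT (fun s => Ops.cof (ℓ s) (Q s)) := by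
  refine PT.foldl_add (f := fun s m (_ : Bool) => if m % ℓ s = 0 then m / ℓ s else m)
    (l := fun s => (Q s).bits) (i := fun s => Q s - 1) (D := fun _ => 0) (by fun_prop)
    (by fun_prop) (by fun_prop) (by fun_prop) fun s m _ _ => ?_
  split_ifs
  · exact sz_nat_mono (Nat.div_le_self _ _)
  · exact le_rfl

@[fun_prop] theorem p1_pt_adj (ho : PO o) (hℓ : PT ℓ) (hℓ' : PB ℓ) (hQ : PT Q) (hw : PT w)
    (hx : PT x) : PT (fun s => (o s).adj (ℓ s) (Q s) (w s) (x s)) := by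
  obtain ⟨B, hB, h⟩ := ho.bd
  exact PT.foldl_add (f := fun s t (_ : ℕ) => (o s).sel ((o s).ind ((o s).sub
    ((o s).pow t ((Q s - 1) / ℓ s)) (o s).one)) ((o s).mul t (w s)) t)
    (l := fun s => List.range (ℓ s)) (D := B) (by fun_prop) (by fun_prop) hx hB
    fun s t _ _ => ((h s).add _ _).trans (Nat.le_add_left _ _)

@[fun_prop] theorem p1_pt_lev (ho : PO o) (hℓ : PT ℓ) (hℓ' : PB ℓ) (hw : PT w) (hx : PT x)
    {y : σ → α} (hy : PT y) (hk : PT k) :
    PT (fun s => (o s).lev (ℓ s) (w s) (x s) (y s) (k s)) := by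
  obtain ⟨B, hB, h⟩ := ho.bd
  exact PT.foldl_add (f := fun s t (_ : ℕ) => (o s).sel ((o s).ind ((o s).sub
    ((o s).pow t (ℓ s * k s)) ((o s).pow (x s) (k s)))) ((o s).mul t (w s)) t)
    (l := fun s => List.range (ℓ s)) (D := B) (by fun_prop) (by fun_prop) hy hB
    fun s t _ _ => ((h s).add _ _).trans (Nat.le_add_left _ _)

@[fun_prop] theorem p1_pt_root0 (ho : PO o) (hℓ : PT ℓ) (hℓ' : PB ℓ) (hQ : PT Q) (hw : PT w)
    (hx : PT x) : PT (fun s => (o s).root0 (ℓ s) (Q s) (w s) (x s)) := by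
  obtain ⟨B, hB, h⟩ := ho.bd
  refine PT.fst (PT.foldl_add (f := fun s (t : α × ℕ) (_ : Bool) => if t.2 ≤ 1 then t else
      ((o s).lev (ℓ s) ((o s).pow (w s) ((Q s - 1) / (ℓ s * t.2))) (x s) t.1 (t.2 / ℓ s),
        t.2 / ℓ s)) (l := fun s => (Q s).bits)
    (i := fun s => ((o s).pow (x s) ((1 + Ops.cof (ℓ s) (Q s) * (((List.range (ℓ s)).find? fun t =>
      decide ((1 + Ops.cof (ℓ s) (Q s) * t) % ℓ s = 0)).getD 0)) / ℓ s),
      (Q s - 1) / (Ops.cof (ℓ s) (Q s) * ℓ s)))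
    (D := fun s => 2 * B s) (by fun_prop) (by fun_prop) (by fun_prop) (by fun_prop)
    fun s t _ _ => ?_)
  split_ifs
  · exact Nat.le_add_right _ _
  · have h1 := p1_lev (h s) (ℓ s) ((o s).pow (w s) ((Q s - 1) / (ℓ s * t.2))) (x s) t.1
      (t.2 / ℓ s) (Nat.le_add_left (B s) (sz t.1)) (Nat.le_add_right _ _)
    have h2 : sz (t.2 / ℓ s) ≤ sz t.2 := sz_nat_mono (Nat.div_le_self _ _)
    rw [sz_pair, sz_prod t]
    omega

@[fun_prop] theorem pt_root (ho : PO o) (hℓ : PT ℓ) (hℓ' : PB ℓ) (hQ : PT Q) (hw : PT w)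
    (hx : PT x) : PT (fun s => (o s).root (ℓ s) (Q s) (w s) (x s)) := by
  unfold Ops.root
  fun_prop


end Vale.Agent.P319
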