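import Vale.Agent.P319.PT1

/-! Polynomial time: ideals, the lattice, norms. -/

namespace Vale.Agent.P319

open Vale.Agent.Lib.PolyTime

variable {σ α : Type} [Enc σ] [Enc α]

/-- Polynomial functions. -/
@[fun_prop] def P2l (g : ℕ → ℕ) : Prop := ∃ P : Polynomial ℕ, ∀ t, g t = P.eval t

@[fun_prop] theorem p2l_id : P2l (fun t => t) := ⟨Polynomial.X, fun _ => by simp⟩
@[fun_prop] theorem p2l_const (c : ℕ) : P2l (fun _ => c) := ⟨Polynomial.C c, fun _ => by simp⟩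
@[fun_prop] theorem p2l_comp {g f : ℕ → ℕ} (hg : P2l g) (hf : P2l f) : P2l (fun t => g (f t)) := by
  obtain ⟨P, hP⟩ := hg
  obtain ⟨Q, hQ⟩ := hf
  exact ⟨P.comp Q, fun t => by rw [Polynomial.eval_comp, ← hQ, ← hP]⟩
@[fun_prop] theorem p2l_add {g f : ℕ → ℕ} (hg : P2l g) (hf : P2l f) :
    P2l (fun t => g t + f t) := by
  obtain ⟨P, hP⟩ := hg
  obtain ⟨Q, hQ⟩ := hf
  exact ⟨P + Q, fun t => by rw [Polynomial.eval_add, ← hQ, ← hP]⟩
@[fun_prop] theorem p2l_mul {g f : ℕ → ℕ} (hg : P2l g) (hf : P2l f) :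
    P2l (fun t => g t * f t) := by
  obtain ⟨P, hP⟩ := hg
  obtain ⟨Q, hQ⟩ := hf
  exact ⟨P * Q, fun t => by rw [Polynomial.eval_mul, ← hQ, ← hP]⟩

theorem p2_getD {β : Type} {P : β → Prop} {l : List β} {d : β} (hl : ∀ x ∈ l, P x) (hd : P d)
    (i : ℕ) : P (l.getD i d) := by
  rw [List.getD_eq_getElem?_getD]
  cases h : l[i]? with
  | none => exact hd
  | some x => exact hl x (List.mem_of_getElem? h)

theorem p2_wW {n t : ℕ} (h : n ≤ t) : wW n ≤ wW t := by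
  unfold wW
  gcongr

/-- The size bound for the solutions of a linear system in the monomials. -/
def p2S (B ℓ W : ℕ) : ℕ :=
  (W + 1) * (ℓ * (W + 1)) * (2 * (ℓ * (2 * ((W + 1) * (2 * B + 2)) + 2)) + 2)

theorem p2_sl {o : Ops α} {B : ℕ} (h : OB o B) (ℓ n W : ℕ) (C G : List (List (List (List α))))
    (hC : C.length = (o.monT ℓ n W).length) {t W' : ℕ} (h1 : B ≤ t) (h2 : ℓ ≤ t) (h3 : W ≤ W') :
    sz ((o.solve ℓ C G).map fun c => o.lin ℓ c (o.monT ℓ n W)) ≤ p2S t t W' := by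
  have a1 : ∀ y ∈ (o.solve ℓ C G).map fun c => o.lin ℓ c (o.monT ℓ n W),
      sz y ≤ ℓ * (2 * ((W + 1) * (2 * B + 2)) + 2) := by
    intro y hy
    obtain ⟨c, -, rfl⟩ := List.mem_map.1 hy
    refine (h.lin ℓ c _ fun u hu => ?_).2
    obtain ⟨q, -, rfl⟩ := List.mem_map.1 hu
    exact len_tmon o ℓ _ q
  have a2 := (h.solve ℓ C G).1
  rw [hC, Ops.monT, List.length_map] at a2
  have a3 := a2.trans (length_mons_le _ _ _ _)
  refine (sz_le_of_forall a1).trans ?_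
  rw [List.length_map, p2S]
  refine Nat.mul_le_mul (a3.trans ?_) ?_ <;> gcongr

theorem p2_fold {β γ : Type} [Enc β] {f : β → γ → β} {D : ℕ} (h : ∀ s y, sz (f s y) ≤ D)
    (l : List γ) (s : β) : sz (l.foldl f s) ≤ sz s + D := by
  induction l using List.reverseRecOn with
  | nil => exact Nat.le_add_right _ _
  | append_singleton l y _ =>
    rw [List.foldl_append]
    exact (h _ y).trans (Nat.le_add_left _ _)

theorem sz_close : ∃ P : Polynomial ℕ, ∀ (o : Ops α) (B ℓ n : ℕ) (F : List α)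
    (G : List (List (List α))), OB o B → sz (o.close ℓ n F G) ≤ P.eval (B + ℓ + n) := by
  obtain ⟨P, hP⟩ : P2l fun t => p2S t t (wW t) := by
    unfold p2S wW
    fun_prop
  refine ⟨P, fun o B ℓ n F G h => ?_⟩
  rw [← hP]
  exact p2_sl h ℓ n _ _ _ (List.length_map _) (by omega) (by omega) (p2_wW (by omega))
theorem sz_egen : ∃ P : Polynomial ℕ, ∀ (o : Ops α) (B ℓ n : ℕ) (F : List α)
    (c : List (List (List α))) (Ds : List (List (List (List α)))), OB o B →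
    sz (o.egen ℓ n F c Ds) ≤ P.eval (B + ℓ + n) := by
  obtain ⟨P, hP⟩ : P2l fun t => p2S t t (2 * (t * t)) := by
    unfold p2S
    fun_prop
  refine ⟨P, fun o B ℓ n F c Ds h => ?_⟩
  rw [← hP]
  refine p2_sl h ℓ n _ _ _ (List.length_map _) (by omega) (by omega) ?_
  gcongr <;> omega
theorem sz_addInf : ∃ P : Polynomial ℕ, ∀ (o : Ops α) (B ℓ n : ℕ) (F : List α) (ζ : α)
    (d : List ℕ) (G : List (List (List α))), OB o B →
    sz (o.addInf ℓ n F ζ d G) ≤ sz G + P.eval (B + ℓ + n) := by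
  obtain ⟨P, hP⟩ := sz_close (α := α)
  exact ⟨P, fun o B ℓ n F ζ d G h => p2_fold (fun _ _ => hP o B ℓ n F _ h) _ _⟩
theorem sz_hdiag : ∃ P : Polynomial ℕ, ∀ (o : Ops α) (B ℓ n : ℕ) (F : List α) (ζ : α)
    (G : List (List (List α))), OB o B →
    sz (o.diag (o.hrows ℓ n F ζ G)) ≤ P.eval (B + ℓ + n) := by
  obtain ⟨P, hP⟩ : P2l fun t => (3 * (t * t) + 1) * (2 * t + 2) := by fun_prop
  refine ⟨P, fun o B ℓ n F ζ G h => ?_⟩
  rw [← hP]
  obtain ⟨a1, a2⟩ : (o.hrows ℓ n F ζ G).length ≤ _ ∧ ∀ w ∈ o.hrows ℓ n F ζ G, _ := h.solve ℓ _ _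
  rw [List.length_map, List.length_range] at a1
  refine (sz_map_range_le (B := B) fun i => ?_).trans (Nat.mul_le_mul (a1.trans ?_) (by omega))
  · exact p2_getD (P := fun c => sz c ≤ B) (p2_getD (P := fun w : List α => ∀ c ∈ w, sz c ≤ B)
      (fun w hw => (a2 w hw).2) (by simp) i) h.zero i
  · gcongr <;> omega
theorem sz_psiN : ∃ P : Polynomial ℕ, ∀ (o : Ops α) (B ℓ n : ℕ) (f : List α) (ζ κ : α)
    (a b : List (List α)) (H : List α), OB o B →
    sz (o.psiN ℓ n f ζ κ a b H) ≤ P.eval (B + ℓ + n + f.length) := by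
  obtain ⟨P, hP⟩ : P2l fun t => t * (2 * ((t + (wW t + 1) + (wW t + 1)) * (2 * t + 2)) + 2) := by
    unfold wW
    fun_prop
  refine ⟨P, fun o B ℓ n f ζ κ a b H h => ?_⟩
  rw [← hP]
  refine (h.tmul ℓ f (A := wW n + 1) (A' := wW n + 1) _ _ (fun q hq => ?_)
    (h.lin ℓ _ _ fun u hu => ?_).1).2.trans ?_
  · rw [List.mem_singleton.1 hq, Ops.uPol, Ops.prev, List.length_map, List.length_range]
  · obtain ⟨q, -, rfl⟩ := List.mem_map.1 hu
    exact len_tmon o ℓ _ q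
  · have a1 : wW n ≤ wW (B + ℓ + n + f.length) := p2_wW (by omega)
    dsimp only
    gcongr <;> omega
theorem sz_rhoL (ℓ n : ℕ) (ρ : List ℕ) : sz (rhoL ℓ n ρ) ≤ ℓ * (2 * n + 2) := by
  have h : ∀ y ∈ rhoL ℓ n ρ, sz y ≤ n := by
    intro y hy
    obtain ⟨v, -, rfl⟩ := List.mem_map.1 hy
    have := Nat.mul_div_le (v + n - 1) n
    exact (sz_nat_le _).trans (by omega)
  simpa [rhoL, nuL] using sz_le_of_forall h

omit [Enc α] in
theorem p2_tsm (o : Ops α) (c : α) {z : List (List α)} {A : ℕ} (h : ∀ q ∈ z, q.length ≤ A) :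
    ∀ q ∈ o.tsm c z, q.length ≤ A := by
  intro q hq
  obtain ⟨r, hr, rfl⟩ := List.mem_map.1 hq
  rw [Ops.psm, List.length_map]
  exact h r hr

theorem p2_newton {o : Ops α} {B A : ℕ} (h : OB o B) (ℓ n : ℕ) (f : List α)
    {ps : List (List (List α))} (hp : ∀ z ∈ ps, ∀ q ∈ z, q.length ≤ A) (L : List ℕ)
    (es : List (List (List α))) (he : es = L.foldl (fun es k => es ++ [o.tsm (o.inv (o.nat (k + 1)))
      (o.tsum ℓ ((List.range n).map fun i => if i ≤ k then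
        o.tsm (if i % 2 = 0 then o.one else o.neg o.one)
          (o.tmul ℓ f (es.getD (k - i) []) (ps.getD i [])) else []))]) [[[o.one]]]) :
    es.length = L.length + 1 ∧ ∀ z ∈ es, z.length ≤ ℓ + 1 ∧
      (∀ q ∈ z, q.length ≤ 1 + L.length * (f.length + A)) ∧ ∀ q ∈ z, ∀ c ∈ q, sz c ≤ B := by
  induction L using List.reverseRecOn generalizing es with
  | nil =>
    subst he
    simpa using h.one
  | append_singleton L k ih =>
    rw [List.foldl_append] at he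
    obtain ⟨i1, i2⟩ := ih _ rfl
    generalize List.foldl _ _ L = e0 at he i1 i2
    subst he
    rw [List.foldl_cons, List.foldl_nil, List.length_append, List.length_append, i1,
      List.length_singleton, List.length_singleton, add_mul, one_mul]
    refine ⟨rfl, fun z hz => ?_⟩
    rcases List.mem_append.1 hz with hz | hz
    · exact ⟨(i2 z hz).1, fun q hq => ((i2 z hz).2.1 q hq).trans (by omega), (i2 z hz).2.2⟩
    rw [List.mem_singleton.1 hz]
    refine ⟨by simp [Ops.tsm, Ops.tsum], p2_tsm o _ fun q hq => ?_, fun q hq c hc => ?_⟩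
    · obtain ⟨j, -, rfl⟩ := List.mem_map.1 hq
      refine (h.psum _ fun a ha => ?_).1
      obtain ⟨y, hy, rfl⟩ := List.mem_map.1 ha
      obtain ⟨i, -, rfl⟩ := List.mem_map.1 hy
      refine p2_getD (P := fun q : List α => q.length ≤ _) ?_ (Nat.zero_le _) j
      split_ifs
      any_goals
        refine p2_tsm o _ fun q hq => ((h.tmul ℓ f _ _
          (p2_getD (P := fun z : List (List α) => ∀ q ∈ z, q.length ≤ _)
            (fun z hz => (i2 z hz).2.1) (by simp) _)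
          (p2_getD (P := fun z : List (List α) => ∀ q ∈ z, q.length ≤ A) hp (by simp) _)).1
          q hq).trans (by omega)
      simp
    · obtain ⟨r, -, rfl⟩ := List.mem_map.1 hq
      obtain ⟨x, -, rfl⟩ := List.mem_map.1 hc
      exact h.mul _ _

variable [Inhabited α] {o : σ → Ops α} {ζ κ w θ : σ → α} {F f h H u : σ → List α}
  {ℓ n m M W Q δ : σ → ℕ} {a b : σ → List (List α)} {G G' c : σ → List (List (List α))}
  {Ds : σ → List (List (List (List α)))} {ρ : σ → List ℕ}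

omit [Enc α] [Inhabited α] in
@[fun_prop] theorem p2_nuL (hℓ : PT ℓ) (hℓ' : PB ℓ) (hn : PT n) (hρ : PT ρ) :
    PT (fun s => nuL (ℓ s) (n s) (ρ s)) := by
  unfold nuL
  fun_prop
omit [Enc α] [Inhabited α] in
@[fun_prop] theorem p2_lidx (hℓ : PT ℓ) (hℓ' : PB ℓ) (hn : PT n) (hn' : PB n) (hδ : PT δ) :
    PT (fun s => lidx (ℓ s) (n s) (δ s)) := by
  unfold lidx
  fun_prop
@[fun_prop] theorem p2_monT (ho : PO o) (hℓ : PT ℓ) (hℓ' : PB ℓ) (hn : PT n) (hW : PT W)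
    (hW' : PB W) : PT (fun s => (o s).monT (ℓ s) (n s) (W s)) := by
  unfold Ops.monT
  fun_prop
@[fun_prop] theorem p2_close (ho : PO o) (hℓ : PT ℓ) (hℓ' : PB ℓ) (hn : PT n) (hn' : PB n)
    (hF : PT F) (hG : PT G) : PT (fun s => (o s).close (ℓ s) (n s) (F s) (G s)) := by
  unfold Ops.close
  fun_prop
@[fun_prop] theorem p2_mulI (ho : PO o) (hℓ : PT ℓ) (hℓ' : PB ℓ) (hn : PT n) (hn' : PB n)
    (hF : PT F) (hG : PT G) (hG' : PT G') :
    PT (fun s => (o s).mulI (ℓ s) (n s) (F s) (G s) (G' s)) := by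
  unfold Ops.mulI
  fun_prop
@[fun_prop] theorem p2_litem (ho : PO o) (hℓ : PT ℓ) (hℓ' : PB ℓ) (hn : PT n) (hn' : PB n)
    (hF : PT F) (hζ : PT ζ) (hu : PT u) {t : σ → ℕ × ℕ × ℕ} (ht : PT t) :
    PT (fun s => (o s).litem (ℓ s) (n s) (F s) (ζ s) (u s) (t s)) := by
  unfold Ops.litem
  fun_prop
@[fun_prop] theorem p2_lgen (ho : PO o) (hℓ : PT ℓ) (hℓ' : PB ℓ) (hn : PT n) (hn' : PB n)
    (hF : PT F) (hDs : PT Ds) : PT (fun s => (o s).lgen (ℓ s) (n s) (F s) (Ds s)) := by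
  unfold Ops.lgen
  fun_prop
@[fun_prop] theorem p2_trA (ho : PO o) (hf : PT f) (hu : PT u) :
    PT (fun s => (o s).trA (f s) (u s)) := by
  unfold Ops.trA
  fun_prop
@[fun_prop] theorem p2_ptNewton (ho : PO o) (hℓ : PT ℓ) (hℓ' : PB ℓ) (hn : PT n) (hn' : PB n)
    (hf : PT f) (hG : PT G) : PT (fun s => (o s).newton (ℓ s) (n s) (f s) (G s)) := by
  obtain ⟨B, hB, h⟩ := ho.bd
  refine PT.foldl (B := fun s => (n s + 1) * (2 * ((ℓ s + 1) * (2 * ((1 + n s *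
    ((f s).length + lmax ((G s).flatten.map List.length))) * (2 * B s + 2)) + 2)) + 2))
    (by fun_prop) (by fun_prop) (by fun_prop) (by fun_prop) fun s k => ?_
  obtain ⟨a1, a2⟩ := p2_newton (h s) (ℓ s) (n s) (f s) (ps := G s)
    (A := lmax ((G s).flatten.map List.length)) (fun z hz q hq =>
      le_lmax (List.mem_map_of_mem (List.mem_flatten_of_mem hz hq))) ((List.range (n s)).take k)
    _ rfl
  have a3 : ((List.range (n s)).take k).length ≤ n s := by simp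
  refine (sz_le_of_forall fun z hz => ?_).trans (Nat.mul_le_mul (by omega) le_rfl)
  refine (sz_le_of_forall fun q hq => ?_).trans (Nat.mul_le_mul (a2 z hz).1 le_rfl)
  refine (sz_le_of_forall ((a2 z hz).2.2 q hq)).trans
    (Nat.mul_le_mul (((a2 z hz).2.1 q hq).trans ?_) le_rfl)
  gcongr
@[fun_prop] theorem p2_psiP (ho : PO o) (hℓ : PT ℓ) (hℓ' : PB ℓ) (hn : PT n) (hn' : PB n)
    (hf : PT f) (hζ : PT ζ) (hκ : PT κ) (ha : PT a) (hb : PT b) :
    PT (fun s => (o s).psiP (ℓ s) (n s) (f s) (ζ s) (κ s) (a s) (b s)) := by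
  unfold Ops.psiP
  fun_prop
@[fun_prop] theorem p2_uPol (ho : PO o) (hℓ : PT ℓ) (hW : PT W) (hW' : PB W) (hu : PT u)
    (hH : PT H) : PT (fun s => (o s).uPol (ℓ s) (W s) (u s) (H s)) := by
  unfold Ops.uPol
  fun_prop

@[fun_prop] theorem pt_dL (hℓ : PT ℓ) (hℓ' : PB ℓ) (hn : PT n) (hρ : PT ρ) :
    PT (fun s => dL (ℓ s) (n s) (ρ s)) := by
  unfold dL
  fun_prop
@[fun_prop] theorem pt_rhoL (hℓ : PT ℓ) (hℓ' : PB ℓ) (hn : PT n) (hρ : PT ρ) :
    PT (fun s => rhoL (ℓ s) (n s) (ρ s)) := by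
  unfold rhoL
  fun_prop
@[fun_prop] theorem pt_parts (ho : PO o) (hℓ : PT ℓ) (hℓ' : PB ℓ) (hn : PT n) (hn' : PB n)
    (hF : PT F) (hζ : PT ζ) (hG : PT G) :
    PT (fun s => (o s).parts (ℓ s) (n s) (F s) (ζ s) (G s)) := by
  obtain ⟨B, hB, h⟩ := ho.bd
  obtain ⟨P, hP⟩ := sz_close (α := α)
  refine PT.foldl_add (D := fun s => 2 * P.eval (B s + ℓ s + n s) + 2) (by fun_prop) (by fun_prop)
    (by fun_prop) ((((hB.add hℓ').add hn').eval P).lin 2 2) fun s L j _ => ?_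
  rw [sz_append, sz_cons, sz_nil, add_zero]
  exact Nat.add_le_add_left (Nat.add_le_add_right (Nat.mul_le_mul_left 2 (hP _ _ _ _ _ _ (h s))) 2) _
@[fun_prop] theorem pt_hrows (ho : PO o) (hℓ : PT ℓ) (hℓ' : PB ℓ) (hn : PT n) (hn' : PB n)
    (hF : PT F) (hζ : PT ζ) (hG : PT G) :
    PT (fun s => (o s).hrows (ℓ s) (n s) (F s) (ζ s) (G s)) := by
  unfold Ops.hrows
  fun_prop
@[fun_prop] theorem pt_hpol (ho : PO o) (hℓ : PT ℓ) (hℓ' : PB ℓ) (hn : PT n) (hn' : PB n)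
    (hF : PT F) (hζ : PT ζ) (hG : PT G) :
    PT (fun s => (o s).hpol (ℓ s) (n s) (F s) (ζ s) (G s)) := by
  unfold Ops.hpol
  fun_prop
@[fun_prop] theorem pt_sroot (ho : PO o) (hℓ : PT ℓ) (hℓ' : PB ℓ) (hQ : PT Q) (hF : PT F)
    (hw : PT w) (hh : PT h) : PT (fun s => (o s).sroot (ℓ s) (Q s) (F s) (w s) (h s)) := by
  unfold Ops.sroot
  fun_prop
@[fun_prop] theorem pt_cs (ho : PO o) (hℓ : PT ℓ) (hℓ' : PB ℓ) (hn : PT n) (hn' : PB n)
    (hF : PT F) (hζ : PT ζ) (hu : PT u) (hδ : PT δ) (hDs : PT Ds) :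
    PT (fun s => (o s).cs (ℓ s) (n s) (F s) (ζ s) (u s) (δ s) (Ds s)) := by
  unfold Ops.cs
  fun_prop
@[fun_prop] theorem pt_egen (ho : PO o) (hℓ : PT ℓ) (hℓ' : PB ℓ) (hn : PT n) (hn' : PB n)
    (hF : PT F) (hc : PT c) (hDs : PT Ds) :
    PT (fun s => (o s).egen (ℓ s) (n s) (F s) (c s) (Ds s)) := by
  unfold Ops.egen
  fun_prop
@[fun_prop] theorem pt_infG (ho : PO o) (hζ : PT ζ) (hm : PT m) :
    PT (fun s => (o s).infG (ζ s) (m s)) := by
  unfold Ops.infG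
  fun_prop
@[fun_prop] theorem pt_addInf (ho : PO o) (hℓ : PT ℓ) (hℓ' : PB ℓ) (hn : PT n) (hn' : PB n)
    (hF : PT F) (hζ : PT ζ) (hρ : PT ρ) (hG : PT G) :
    PT (fun s => (o s).addInf (ℓ s) (n s) (F s) (ζ s) (ρ s) (G s)) := by
  obtain ⟨B, hB, h⟩ := ho.bd
  obtain ⟨P, hP⟩ := sz_close (α := α)
  exact PT.foldl (B := fun s => sz (G s) + P.eval (B s + ℓ s + n s)) (by fun_prop) (by fun_prop)
    hG (hG.1.add (((hB.add hℓ').add hn').eval P)) fun s k =>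
      p2_fold (fun _ _ => hP _ _ _ _ _ _ (h s)) _ _
@[fun_prop] theorem pt_conv (ho : PO o) (hℓ : PT ℓ) (hℓ' : PB ℓ) (hm : PT m) (hM : PT M)
    (hM' : PB M) (hθ : PT θ) (ha : PT a) :
    PT (fun s => (o s).conv (ℓ s) (m s) (M s) (θ s) (a s)) := by
  unfold Ops.conv
  fun_prop
@[fun_prop] theorem pt_lead (ho : PO o) (hℓ : PT ℓ) (hℓ' : PB ℓ) (hθ : PT θ) (ha : PT a) :
    PT (fun s => (o s).lead (ℓ s) (θ s) (a s)) := by
  unfold Ops.lead
  fun_prop
@[fun_prop] theorem pt_nrm (ho : PO o) (hQ : PT Q) (hℓ : PT ℓ) (hℓ' : PB ℓ) (hf : PT f)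
    (hG : PT G) : PT (fun s => (o s).nrm (Q s) (ℓ s) (f s) (G s)) := by
  unfold Ops.nrm
  fun_prop
@[fun_prop] theorem pt_toK (ho : PO o) (hf : PT f) (hu : PT u) :
    PT (fun s => (o s).toK (f s) (u s)) := by
  unfold Ops.toK
  fun_prop
@[fun_prop] theorem pt_psiN (ho : PO o) (hℓ : PT ℓ) (hℓ' : PB ℓ) (hn : PT n) (hn' : PB n)
    (hf : PT f) (hζ : PT ζ) (hκ : PT κ) (ha : PT a) (hb : PT b) (hH : PT H) :
    PT (fun s => (o s).psiN (ℓ s) (n s) (f s) (ζ s) (κ s) (a s) (b s) (H s)) := by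
  unfold Ops.psiN
  fun_prop

end Vale.Agent.P319
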