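import Vale.Agent.P319.PT2

/-! Polynomial time: the division loop. -/

namespace Vale.Agent.P319

open Vale.Agent.Lib.PolyTime

variable {σ α : Type} [Enc σ] [Enc α] [Inhabited α]

section Parts

variable {o : σ → Ops α} {nz : σ → List α → Bool} {Q ℓ j : σ → ℕ} {f v : σ → List α}
  {ζ w : σ → α} {G : σ → List (List (List (List α)))} {ρ : σ → List ℕ}
  {ψ a b : σ → List (List α)}

@[fun_prop] theorem pt3_chartF (ho : PO o) (hQ : PT Q) (hf : PT f) :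
    PT (fun s => (o s).chartF (Q s) (f s)) := by
  unfold Ops.chartF; fun_prop
@[fun_prop] theorem pt3_hdiag (ho : PO o) (hQ : PT Q) (hℓ : PT ℓ) (hℓ' : PB ℓ) (hf : PT f)
    (hζ : PT ζ) (hG : PT G) : PT (fun s => (o s).hdiag (Q s) (ℓ s) (f s) (ζ s) (G s)) := by
  unfold Ops.hdiag; fun_prop
@[fun_prop] theorem pt3_dl (ho : PO o) (hnz : PT fun q : σ × List α => nz q.1 q.2) (hQ : PT Q)
    (hℓ : PT ℓ) (hℓ' : PB ℓ) (hf : PT f) (hζ : PT ζ) (hG : PT G) :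
    PT (fun s => (o s).dl (nz s) (Q s) (ℓ s) (f s) (ζ s) (G s)) := by
  unfold Ops.dl
  exact PT.length (PT.filter (PT.bnot hnz) (pt3_hdiag ho hQ hℓ hℓ' hf hζ hG))
theorem pt3_csA (ho : PO o) (hnz : PT fun q : σ × List α => nz q.1 q.2) (hQ : PT Q)
    (hℓ : PT ℓ) (hℓ' : PB ℓ) (hf : PT f) (hζ : PT ζ) (hw : PT w) (hG : PT G) :
    PT (fun s => (o s).csA (nz s) (Q s) (ℓ s) (f s) (ζ s) (w s) (G s)) := by
  have h1 := pt3_dl ho hnz hQ hℓ hℓ' hf hζ hG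
  unfold Ops.csA
  exact pt_cs (by fun_prop) hℓ hℓ' (by fun_prop) (by fun_prop) (by fun_prop) (by fun_prop)
    (by fun_prop) h1 (by fun_prop)
theorem pt3_nextG (ho : PO o) (hnz : PT fun q : σ × List α => nz q.1 q.2) (hQ : PT Q)
    (hℓ : PT ℓ) (hℓ' : PB ℓ) (hf : PT f) (hζ : PT ζ) (hw : PT w) (hG : PT G) (hρ : PT ρ) :
    PT (fun s => (o s).nextG (nz s) (Q s) (ℓ s) (f s) (ζ s) (w s) (G s) (ρ s)) := by
  have h1 := pt3_csA ho hnz hQ hℓ hℓ' hf hζ hw hG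
  unfold Ops.nextG
  exact pt_addInf (by fun_prop) hℓ hℓ' (by fun_prop) (by fun_prop) (by fun_prop) (by fun_prop)
    (by fun_prop) (pt_egen (by fun_prop) hℓ hℓ' (by fun_prop) (by fun_prop) (by fun_prop) h1
      (by fun_prop))
theorem pt3_cN (ho : PO o) (hnz : PT fun q : σ × List α => nz q.1 q.2) (hQ : PT Q)
    (hℓ : PT ℓ) (hℓ' : PB ℓ) (hf : PT f) (hζ : PT ζ) (hw : PT w) (hG : PT G) (hj : PT j) :
    PT (fun s => (o s).cN (nz s) (Q s) (ℓ s) (f s) (ζ s) (w s) (G s) (j s)) := by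
  have h1 := pt3_csA ho hnz hQ hℓ hℓ' hf hζ hw hG
  unfold Ops.cN
  exact pt_nrm ho hQ hℓ hℓ' hf (pt_conv (by fun_prop) hℓ hℓ' (by fun_prop) (by fun_prop)
    (by fun_prop) (by fun_prop) (PT.lgetD h1 hj (PT.const _)))
theorem pt3_numA (ho : PO o) (hnz : PT fun q : σ × List α => nz q.1 q.2) (hQ : PT Q)
    (hℓ : PT ℓ) (hℓ' : PB ℓ) (hf : PT f) (hζ : PT ζ) (hw : PT w) (hG : PT G) (hψ : PT ψ) :
    PT (fun s => (o s).numA (nz s) (Q s) (ℓ s) (f s) (ζ s) (w s) (G s) (ψ s)) := by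
  unfold Ops.numA
  exact pt_tmul ho hℓ hℓ' hf hψ (pt3_cN ho hnz hQ hℓ hℓ' hf hζ hw hG (PT.const 0))
theorem pt3_denA (ho : PO o) (hnz : PT fun q : σ × List α => nz q.1 q.2) (hQ : PT Q)
    (hℓ : PT ℓ) (hℓ' : PB ℓ) (hf : PT f) (hζ : PT ζ) (hw : PT w) (hG : PT G) :
    PT (fun s => (o s).denA (nz s) (Q s) (ℓ s) (f s) (ζ s) (w s) (G s)) := by
  unfold Ops.denA
  exact pt_tmul ho hℓ hℓ' hf (pt_tpow ho hℓ hℓ' hf (by fun_prop) (by fun_prop) (by fun_prop)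
    (pt3_dl ho hnz hQ hℓ hℓ' hf hζ hG)) (pt3_cN ho hnz hQ hℓ hℓ' hf hζ hw hG (PT.const 1))
theorem pt3_valA (ho : PO o) (hQ : PT Q) (hℓ : PT ℓ) (hℓ' : PB ℓ) (hf : PT f) (ha : PT a)
    (hb : PT b) : PT (fun s => (o s).valA (Q s) (ℓ s) (f s) (a s) (b s)) := by
  unfold Ops.valA; fun_prop
theorem pt3_cands (ho : PO o) (hQ : PT Q) (hℓ : PT ℓ) (hℓ' : PB ℓ) (hf : PT f) (hζ : PT ζ)
    (hw : PT w) (hv : PT v) : PT (fun s => (o s).cands (Q s) (ℓ s) (f s) (ζ s) (w s) (v s)) := by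
  unfold Ops.cands; fun_prop
theorem pt3_hN (ho : PO o) (hnz : PT fun q : σ × List α => nz q.1 q.2) (hQ : PT Q)
    (hℓ : PT ℓ) (hℓ' : PB ℓ) (hf : PT f) (hζ : PT ζ) (hG : PT G) :
    PT (fun s => (o s).hN (nz s) (Q s) (ℓ s) (f s) (ζ s) (G s)) := by
  have h1 := pt3_dl ho hnz hQ hℓ hℓ' hf hζ hG
  unfold Ops.hN
  exact PT.lgetD (pt_nrm ho hQ hℓ hℓ' hf (pt_conv (by fun_prop) (PT.const 1) (PB.const 1)
    (PT.const 0) (PT.min h1 (by fun_prop)) (pb_min (by fun_prop)) (by fun_prop) (by fun_prop)))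
    (PT.const 0) (PT.const _)
theorem pt3_nextP (ho : PO o) (hnz : PT fun q : σ × List α => nz q.1 q.2) (hQ : PT Q)
    (hℓ : PT ℓ) (hℓ' : PB ℓ) (hf : PT f) (hζ : PT ζ) (hw : PT w) (hG : PT G) (hρ : PT ρ)
    (hψ : PT ψ) :
    PT (fun s => (o s).nextP (nz s) (Q s) (ℓ s) (f s) (ζ s) (w s) (G s) (ρ s) (ψ s)) := by
  have h1 := pt3_numA ho hnz hQ hℓ hℓ' hf hζ hw hG hψ
  have h2 := pt3_denA ho hnz hQ hℓ hℓ' hf hζ hw hG
  unfold Ops.nextP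
  exact pt_psiN ho hℓ hℓ' (by fun_prop) (by fun_prop) hf hζ
    (pt_toK ho hf (pt3_valA ho hQ hℓ hℓ' hf h1 h2)) h1 h2
    (pt3_hN ho hnz hQ hℓ hℓ' hf hζ (pt3_nextG ho hnz hQ hℓ hℓ' hf hζ hw hG hρ))
theorem pt3_logA (ho : PO o) (hnz : PT fun q : σ × List α => nz q.1 q.2) (hQ : PT Q)
    (hℓ : PT ℓ) (hℓ' : PB ℓ) (hf : PT f) (hζ : PT ζ) (hw : PT w) (hG : PT G) (hρ : PT ρ)
    (hψ : PT ψ) :
    PT (fun s => (o s).logA (nz s) (Q s) (ℓ s) (f s) (ζ s) (w s) (G s) (ρ s) (ψ s)) := by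
  unfold Ops.logA
  exact PT.append (pt3_hdiag ho hQ hℓ hℓ' hf hζ (pt3_nextG ho hnz hQ hℓ hℓ' hf hζ hw hG hρ))
    (pt3_cands ho hQ hℓ hℓ' hf hζ hw (pt3_valA ho hQ hℓ hℓ' hf
      (pt3_numA ho hnz hQ hℓ hℓ' hf hζ hw hG hψ) (pt3_denA ho hnz hQ hℓ hℓ' hf hζ hw hG)))
theorem pt3_step (ho : PO o) (hnz : PT fun q : σ × List α => nz q.1 q.2) (hQ : PT Q)
    (hℓ : PT ℓ) (hℓ' : PB ℓ) (hf : PT f) (hζ : PT ζ) (hw : PT w)
    {u : σ → List (List (List (List α))) × List ℕ × List (List α) × List (List α)} (hu : PT u) :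
    PT (fun s => (o s).step (nz s) (Q s) (ℓ s) (f s) (ζ s) (w s) (u s)) := by
  unfold Ops.step
  exact PT.mk (pt3_nextG ho hnz hQ hℓ hℓ' hf hζ hw hu.fst hu.snd.fst)
    (PT.mk (pt_rhoL hℓ hℓ' (by fun_prop) hu.snd.fst)
      (PT.mk (pt3_nextP ho hnz hQ hℓ hℓ' hf hζ hw hu.fst hu.snd.fst hu.snd.snd.fst)
        (PT.append hu.snd.snd.snd
          (pt3_logA ho hnz hQ hℓ hℓ' hf hζ hw hu.fst hu.snd.fst hu.snd.snd.fst))))
theorem pt3_init (ho : PO o) (hQ : PT Q) (hℓ : PT ℓ) (hℓ' : PB ℓ) (hf : PT f) (hζ : PT ζ) :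
    PT (fun s => (o s).init (Q s) (ℓ s) (f s) (ζ s)) := by
  unfold Ops.init; fun_prop

end Parts

omit [Inhabited α] in
theorem pt3_sz_step : ∃ P : Polynomial ℕ, ∀ (o : Ops α) (B : ℕ) (nz : List α → Bool) (Q ℓ : ℕ)
    (f : List α) (ζ w : α)
    (u : List (List (List (List α))) × List ℕ × List (List α) × List (List α)), OB o B →
    sz (o.step nz Q ℓ f ζ w u) ≤
      sz u + P.eval (f.length * (2 * B + 2) + B + ℓ + 2 * f.length) := by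
  obtain ⟨P1, h1⟩ := sz_addInf (α := List α)
  obtain ⟨P2, h2⟩ := sz_egen (α := List α)
  obtain ⟨P3, h3⟩ := sz_hdiag (α := List α)
  obtain ⟨P4, h4⟩ := sz_psiN (α := α)
  refine ⟨2 * (P2 + P1) + 2 * (Polynomial.X * (2 * Polynomial.X + 2)) + 2 * P4 + P3
    + Polynomial.X * (2 * Polynomial.X + 2) + 3, fun o B nz Q ℓ f ζ w u hB => ?_⟩
  have hq := hB.quot f Q
  set N := f.length * (2 * B + 2) + B + ℓ + 2 * f.length with hN
  have m1 : f.length * (2 * B + 2) + ℓ + (f.length - 1) ≤ N := by omega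
  have a1 : sz (o.nextG nz Q ℓ f ζ w u.1 u.2.1) ≤ P2.eval N + P1.eval N :=
    (h1 _ _ _ _ _ _ _ _ hq).trans (Nat.add_le_add ((h2 _ _ _ _ _ _ _ hq).trans (eval_mono _ m1))
      (eval_mono _ m1))
  have a2 : sz (rhoL ℓ (f.length - 1) u.2.1) ≤ N * (2 * N + 2) :=
    (sz_rhoL _ _ _).trans (Nat.mul_le_mul (by omega) (by omega))
  have a3 : sz (o.nextP nz Q ℓ f ζ w u.1 u.2.1 u.2.2.1) ≤ P4.eval N :=
    (h4 _ _ _ _ _ _ _ _ _ _ hB).trans (eval_mono _ (by omega))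
  have a4 : sz (o.logA nz Q ℓ f ζ w u.1 u.2.1 u.2.2.1) ≤ P3.eval N + N * (2 * N + 2) := by
    unfold Ops.logA
    rw [sz_append]
    refine Nat.add_le_add ((h3 _ _ _ _ _ _ _ hq).trans (eval_mono _ m1)) ?_
    unfold Ops.cands
    exact (sz_map_range_le fun i => hq.add _ _).trans (Nat.mul_le_mul (by omega) (by omega))
  have a5 : sz u.2.2.2 ≤ sz u := by
    rw [sz_prod u, sz_prod u.2, sz_prod u.2.2]; omega
  unfold Ops.step
  simp only [sz_pair, sz_append, Polynomial.eval_add, Polynomial.eval_mul, Polynomial.eval_X,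
    Polynomial.eval_ofNat]
  omega

theorem pt3_step2 {τ : Type} [Enc τ] {o : σ → Ops α} {nz : σ → List α → Bool} {Q ℓ : σ → ℕ}
    {f : σ → List α} {ζ w : σ → α} (ho : PO o) (hnz : PT fun q : σ × List α => nz q.1 q.2)
    (hQ : PT Q) (hℓ : PT ℓ) (hℓ' : PB ℓ) (hf : PT f) (hζ : PT ζ) (hw : PT w) {g : τ → σ}
    (hg : PT g) {u : τ → List (List (List (List α))) × List ℕ × List (List α) × List (List α)}
    (hu : PT u) :
    PT (fun p => (o (g p)).step (nz (g p)) (Q (g p)) (ℓ (g p)) (f (g p)) (ζ (g p)) (w (g p))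
      (u p)) := by
  have h2 : PT (fun q : τ × List α => nz (g q.1) q.2) :=
    hnz.comp (f := fun q : τ × List α => (g q.1, q.2)) (PT.mk (hg.comp PT.id.fst) PT.id.snd)
  exact pt3_step (o := fun p => o (g p)) (nz := fun p => nz (g p)) (ho.comp hg) h2
    (hQ.comp hg) (hℓ.comp hg) (hℓ'.comp hg) (hf.comp hg) (hζ.comp hg) (hw.comp hg) hu

theorem pt_logs {o : σ → Ops α} {nz : σ → List α → Bool} {Q ℓ : σ → ℕ} {f : σ → List α}
    {ζ w : σ → α} (ho : PO o) (hnz : PT fun q : σ × List α => nz q.1 q.2) (hQ : PT Q)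
    (hℓ : PT ℓ) (hℓ' : PB ℓ) (hf : PT f) (hζ : PT ζ) (hw : PT w) :
    PT (fun s => (o s).logs (nz s) (Q s) (ℓ s) (f s) (ζ s) (w s)) := by
  obtain ⟨B, hB, h⟩ := ho.bd
  obtain ⟨P, hP⟩ := pt3_sz_step (α := α)
  have h2 : PT (fun s => List.range ((f s).length - 1)) := by fun_prop
  have h3 : PB (fun s => (f s).length * (2 * B s + 2) + B s + ℓ s + 2 * (f s).length) := by
    fun_prop
  have k1 : PT (fun p : σ × (List (List (List (List α))) × List ℕ × List (List α) ×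
      List (List α)) × ℕ => p.1) := by fun_prop
  have k2 : PT (fun p : σ × (List (List (List (List α))) × List ℕ × List (List α) ×
      List (List α)) × ℕ => p.2.1) := by fun_prop
  have k3 := pt3_step2 ho hnz hQ hℓ hℓ' hf hζ hw k1 k2
  have h4 := PT.foldl_add
    (f := fun s u (_ : ℕ) => (o s).step (nz s) (Q s) (ℓ s) (f s) (ζ s) (w s) u)
    k3 h2 (pt3_init ho hQ hℓ hℓ' hf hζ) (h3.eval P)
    fun s u _ _ => hP (o s) (B s) (nz s) (Q s) (ℓ s) (f s) (ζ s) (w s) u (h s)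
  exact h4.snd.snd.snd

end Vale.Agent.P319
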