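import Vale.Agent.P319.PT3
import Vale.Agent.P319.Alg2

/-! Polynomial time: the splitting routine and the routines over the prime field. -/

namespace Vale.Agent.P319

open Vale.Agent.Lib.PolyTime

theorem p4_len_prem {α : Type} (o : Ops α) (a m : List α) : (o.prem a m).length ≤ m.length := by
  cases a with
  | nil => exact Nat.zero_le _
  | cons c a => simp [Ops.prem, Ops.pdm]

theorem p4_len_pow {α : Type} (o : Ops α) (m a : List α) (e : ℕ) :
    ((o.quot0 m).pow a e).length ≤ m.length := by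
  unfold Ops.pow
  cases e.bits with
  | nil => exact p4_len_prem _ _ _
  | cons b l =>
    rw [List.foldr_cons]
    split_ifs <;> exact p4_len_prem _ _ _

theorem p4_trim_sub (p : ℕ) (l : List ℕ) : (trim p l).Sublist (l.map fun c => c % p) := by
  rw [trim, ← List.reverse_sublist, List.reverse_reverse]
  exact List.dropWhile_sublist _

theorem p4_len_trim (p : ℕ) (l : List ℕ) : (trim p l).length ≤ l.length := by
  simpa using (p4_trim_sub p l).length_le

theorem p4_sz_trim (p : ℕ) (l : List ℕ) : sz (trim p l) ≤ sz l := by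
  refine (sz_sublist (p4_trim_sub p l)).trans ?_
  induction l with
  | nil => exact le_rfl
  | cons c l ih =>
    have := sz_nat_mono (Nat.mod_le c p)
    simp only [List.map_cons, sz_cons]
    omega

theorem p4_len_mon (p : ℕ) (l : List ℕ) : (mon p l).length ≤ l.length := by
  rw [mon, Ops.psm, List.length_map]
  exact p4_len_trim p l

theorem sz_mon (p : ℕ) (l : List ℕ) :
    sz (mon p l) ≤ (mon p l).length * (2 * Nat.size p + 2) := by
  refine sz_le_of_forall fun y hy => ?_
  obtain ⟨c, -, rfl⟩ := List.mem_map.1 hy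
  exact (ob_oP p).mul _ _

theorem p4_foldl {β γ : Type} (I : β → Prop) (g : β → γ → β) (l : List γ) (x : β) (h0 : I x)
    (h1 : ∀ s y, I s → I (g s y)) : I (l.foldl g x) := by
  induction l generalizing x with
  | nil => exact h0
  | cons y l ih => exact ih _ (h1 _ _ h0)

theorem p4_len_pgcd (p : ℕ) (a b : List ℕ) : (pgcd p a b).length ≤ max a.length b.length := by
  refine (p4_len_mon _ _).trans (p4_foldl (fun s : List ℕ × List ℕ =>
    s.1.length ≤ max a.length b.length ∧ s.2.length ≤ b.length) _ _ _ ?_ ?_).1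
  · exact ⟨(p4_len_trim _ _).trans (le_max_left _ _), p4_len_trim _ _⟩
  · intro s _ hs
    split_ifs
    · exact hs
    · exact ⟨hs.2.trans (le_max_right _ _), (p4_len_trim _ _).trans
        ((p4_len_prem _ _ _).trans ((p4_len_mon _ _).trans hs.2))⟩

theorem p4_sz_pgcd (p : ℕ) (a b : List ℕ) :
    sz (pgcd p a b) ≤ (pgcd p a b).length * (2 * Nat.size p + 2) := sz_mon _ _

theorem p4_pick {γ : Type} (p : ℕ) (f : List ℕ) (l : List γ) (g g' : γ → List ℕ) :
    (pick f (l.map fun a => pgcd p (g a) (g' a))).length ≤ f.length ∧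
      sz (pick f (l.map fun a => pgcd p (g a) (g' a))) ≤
        max (sz f) (f.length * (2 * Nat.size p + 2)) := by
  unfold pick
  rcases h : List.find? _ _ with _ | u
  · exact ⟨le_rfl, le_max_left _ _⟩
  · have h1 := List.find?_some h
    obtain ⟨a, -, rfl⟩ := List.mem_map.1 (List.mem_of_find?_eq_some h)
    rw [decide_eq_true_eq] at h1
    exact ⟨h1.2.le, le_max_of_le_right ((p4_sz_pgcd _ _ _).trans
      (Nat.mul_le_mul_right _ h1.2.le))⟩

theorem sz_split (p : ℕ) (adv tab : List (List ℕ)) (f : List ℕ) :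
    (split p adv tab f).length ≤ f.length ∧
      sz (split p adv tab f) ≤ max (sz f) (f.length * (2 * Nat.size p + 2)) :=
  p4_pick p f _ _ _

theorem p4_ddf (p : ℕ) (f : List ℕ) : (ddf p f).2.length ≤ f.length + 2 ∧
    sz (ddf p f).2 ≤ max (sz f) ((f.length + 2) * (2 * Nat.size p + 2)) := by
  unfold ddf
  rcases h : List.find? _ _ with _ | u
  · exact ⟨Nat.le_add_right _ _, le_max_left _ _⟩
  · obtain ⟨a, -, rfl⟩ := List.mem_map.1 (List.mem_of_find?_eq_some h)
    have h1 : (pgcd p f ((oP p).psub (((oP p).quot0 f).pow [0, 1] (p ^ min (a + 1) f.length))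
        [0, 1])).length ≤ f.length + 2 := by
      refine (p4_len_pgcd _ _ _).trans ?_
      have := p4_len_pow (oP p) f [0, 1] (p ^ min (a + 1) f.length)
      simp only [Ops.psub, Ops.padd, Ops.pneg, List.length_map, List.length_range,
        List.length_cons, List.length_nil]
      omega
    simp only [Option.getD_some]
    exact ⟨h1, le_max_of_le_right ((p4_sz_pgcd _ _ _).trans (Nat.mul_le_mul_right _ h1))⟩

theorem p4_step {A B C : ℕ} {s s' : List ℕ} (h : s.length ≤ A ∧ sz s ≤ max B (A * C))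
    (h' : s'.length ≤ s.length ∧ sz s' ≤ max (sz s) (s.length * C)) :
    s'.length ≤ A ∧ sz s' ≤ max B (A * C) :=
  ⟨h'.1.trans h.1, h'.2.trans (max_le h.2 (le_max_of_le_right (Nat.mul_le_mul_right _ h.1)))⟩

theorem sz_irrF (p N : ℕ) (adv tab : List (List ℕ)) (f : List ℕ) :
    (irrF p N adv tab f).length ≤ f.length + 2 ∧
      sz (irrF p N adv tab f) ≤ max (sz f) ((f.length + 2) * (2 * Nat.size p + 2)) := by
  refine p4_foldl (fun s : List ℕ => s.length ≤ f.length + 2 ∧
    sz s ≤ max (sz f) ((f.length + 2) * (2 * Nat.size p + 2))) _ _ _ (p4_ddf p f) fun s _ hs => ?_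
  split_ifs
  · exact hs
  · exact p4_step hs (p4_pick p s _ _ _)

variable {σ : Type} [Enc σ] {p N d : σ → ℕ} {a b f : σ → List ℕ} {l adv tab : σ → List (List ℕ)}

@[fun_prop] theorem pt_trim (hp : PT p) (ha : PT a) : PT fun s => trim (p s) (a s) := by
  unfold trim
  fun_prop
@[fun_prop] theorem pt_mon (hp : PT p) (ha : PT a) : PT fun s => mon (p s) (a s) := by
  unfold mon
  fun_prop
@[fun_prop] theorem pt_pgcd (hp : PT p) (ha : PT a) (hb : PT b) :
    PT fun s => pgcd (p s) (a s) (b s) := by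
  have h := PT.foldl_inv (f := fun s (u : List ℕ × List ℕ) (_ : ℕ) => if u.2 = [] then u else
      (u.2, trim (p s) ((oP (p s)).prem u.1 (mon (p s) u.2))))
    (l := fun s => List.range ((b s).length + 1)) (i := fun s => (trim (p s) (a s), trim (p s) (b s)))
    (B := fun s => 3 * (sz (a s) + sz (b s) + (b s).length * (2 * Nat.size (p s) + 2)) + 1)
    (by fun_prop) (by fun_prop) (by fun_prop)
    (((ha.1.add hb.1).add (by fun_prop)).lin 3 1)
    (fun s u => sz u.1 ≤ sz (a s) + sz (b s) + (b s).length * (2 * Nat.size (p s) + 2) ∧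
      sz u.2 ≤ sz (b s) + (b s).length * (2 * Nat.size (p s) + 2) ∧ u.2.length ≤ (b s).length)
    (fun s => ⟨(p4_sz_trim _ _).trans (by omega), (p4_sz_trim _ _).trans (by omega),
      p4_len_trim _ _⟩)
    (fun s u _ _ hu => by
      split_ifs
      · exact hu
      · have h1 := (p4_len_mon (p s) u.2).trans hu.2.2
        exact ⟨hu.2.1.trans (by omega), (p4_sz_trim _ _).trans ((((ob_oP _).prem _ _).trans
          (Nat.mul_le_mul_right _ h1)).trans (Nat.le_add_left _ _)),
          (p4_len_trim _ _).trans ((p4_len_prem _ _ _).trans h1)⟩)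
    (fun s u hu => by rw [sz_prod]; omega)
  exact pt_mon hp h.fst
@[fun_prop] theorem pt_pick (hf : PT f) (hl : PT l) : PT fun s => pick (f s) (l s) := by
  unfold pick
  fun_prop

section Ext

variable {Q q ℓ : σ → ℕ} {g h : σ → List ℕ} {u : σ → List (List (List ℕ))}

@[fun_prop] theorem p4_oK (hp : PT p) (hQ : PT Q) (hg : PT g) (hh : PT h) :
    PO fun s => oK (p s) (Q s) (g s) (h s) := by
  unfold oK
  fun_prop
@[fun_prop] theorem p4_cls (hp : PT p) (hQ : PT Q) (hg : PT g) (hh : PT h) (hf : PT f)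
    (hu : PT u) : PT fun s => cls (p s) (Q s) (g s) (h s) (f s) (u s) := by
  unfold cls
  fun_prop
@[fun_prop] theorem p4_nzK (hp : PT p) (hQ : PT Q) (hg : PT g) (hh : PT h) (hf : PT f)
    (hu : PT u) : PT fun s => nzK (p s) (Q s) (g s) (h s) (f s) (u s) := by
  unfold nzK
  fun_prop
@[fun_prop] theorem p4_nonres (hp : PT p) (hQ : PT Q) (hq : PT q) (hℓ : PT ℓ) (hℓ' : PB ℓ)
    (hg : PT g) (hh : PT h) : PT fun s => nonres (p s) (Q s) (q s) (ℓ s) (g s) (h s) := by
  unfold nonres
  fun_prop
@[fun_prop] theorem p4_splitK (hp : PT p) (hQ : PT Q) (hq : PT q) (hℓ : PT ℓ) (hℓ' : PB ℓ)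
    (hg : PT g) (hh : PT h) (hf : PT f) :
    PT fun s => splitK (p s) (Q s) (q s) (ℓ s) (g s) (h s) (f s) := by
  have h1 := pt_logs (o := fun s => oK (p s) (Q s) (g s) (h s))
    (nz := fun s => nzK (p s) (Q s) (g s) (h s) (f s)) (f := fun s => (f s).map fun c => [[c]])
    (ζ := fun _ => [[], [1]]) (w := fun s => nonres (p s) (Q s) (q s) (ℓ s) (g s) (h s))
    (by fun_prop) (by fun_prop) hQ hℓ hℓ' (by fun_prop) (by fun_prop) (by fun_prop)
  exact pt_pick hf (PT.map (f := fun s a => pgcd (p s) (f s) (cls (p s) (Q s) (g s) (h s) (f s) a))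
    (by fun_prop) h1)
@[fun_prop] theorem p4_splitG (hp : PT p) (hℓ : PT ℓ) (hℓ' : PB ℓ) (hg : PT g) (hh : PT h)
    (hf : PT f) : PT fun s => splitG (p s) (ℓ s) (g s) (h s) (f s) := by
  unfold splitG
  fun_prop

end Ext

@[fun_prop] theorem p4_lpf (hf : PT f) : PT fun s => lpf (f s) := by
  unfold lpf
  fun_prop
@[fun_prop] theorem p4_lpf' (hf : PT f) : PB fun s => lpf (f s) := by
  unfold lpf
  fun_prop
@[fun_prop] theorem pt_split (hp : PT p) (h1 : PT adv) (h2 : PT tab) (hf : PT f) :
    PT fun s => split (p s) (adv s) (tab s) (f s) := by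
  unfold split
  fun_prop
@[fun_prop] theorem p4_rootF (hp : PT p) (hN : PT N) (hN' : PB N) (h1 : PT adv) (h2 : PT tab)
    (hf : PT f) : PT fun s => rootF (p s) (N s) (adv s) (tab s) (f s) := by
  have h := PT.foldl_inv (f := fun s (u : List ℕ) (_ : ℕ) =>
      if u.length ≤ 2 then u else split (p s) (adv s) (tab s) u)
    (l := fun s => List.range (f s).length) (i := f)
    (B := fun s => max (sz (f s)) ((f s).length * (2 * Nat.size (p s) + 2)))
    (by fun_prop) (by fun_prop) hf (pb_max hf.1 (by fun_prop))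
    (fun s u => u.length ≤ (f s).length ∧
      sz u ≤ max (sz (f s)) ((f s).length * (2 * Nat.size (p s) + 2)))
    (fun s => ⟨le_rfl, le_max_left _ _⟩)
    (fun s u _ _ hu => by
      split_ifs
      · exact hu
      · exact p4_step hu (sz_split _ _ _ _))
    (fun s u hu => hu.2)
  exact PT.ite (by fun_prop) (by fun_prop) (pt_oneg (by fun_prop) (h.headD (PT.const 0)))
@[fun_prop] theorem pt_minP (hp : PT p) (ha : PT a) (hb : PT b) :
    PT fun s => minP (p s) (a s) (b s) := by
  unfold minP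
  fun_prop
@[fun_prop] theorem p4_trF {j : σ → ℕ} (hp : PT p) (hd : PT d) (hf : PT f) (hj : PT j) :
    PT fun s => trF (p s) (d s) (f s) (j s) := by
  unfold trF
  fun_prop
@[fun_prop] theorem p4_edf (hp : PT p) (hN : PT N) (hN' : PB N) (h1 : PT adv) (h2 : PT tab)
    (hd : PT d) (hf : PT f) : PT fun s => edf (p s) (N s) (adv s) (tab s) (d s) (f s) := by
  unfold edf
  fun_prop
@[fun_prop] theorem pt_ddf (hp : PT p) (hf : PT f) : PT fun s => ddf (p s) (f s) := by
  unfold ddf
  fun_prop
@[fun_prop] theorem pt_irrF (hp : PT p) (hN : PT N) (hN' : PB N) (h1 : PT adv) (h2 : PT tab)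
    (hf : PT f) : PT fun s => irrF (p s) (N s) (adv s) (tab s) (f s) :=
  PT.foldl_inv (f := fun s (u : List ℕ) (_ : ℕ) =>
      if u.length ≤ (ddf (p s) (f s)).1 + 1 then u
      else edf (p s) (N s) (adv s) (tab s) (ddf (p s) (f s)).1 u)
    (l := fun s => List.range (f s).length) (i := fun s => (ddf (p s) (f s)).2)
    (B := fun s => max (sz (f s)) (((f s).length + 2) * (2 * Nat.size (p s) + 2)))
    (by fun_prop) (by fun_prop) (by fun_prop) (pb_max hf.1 (by fun_prop))
    (fun s u => u.length ≤ (f s).length + 2 ∧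
      sz u ≤ max (sz (f s)) (((f s).length + 2) * (2 * Nat.size (p s) + 2)))
    (fun s => p4_ddf _ _)
    (fun s u _ _ hu => by
      split_ifs
      · exact hu
      · exact p4_step hu (p4_pick _ u _ _ _))
    (fun s u hu => hu.2)

end Vale.Agent.P319
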