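import Vale.Agent.P319.PT4

/-! Polynomial time: the whole program. -/

namespace Vale.Agent.P319

open Vale.Agent.Lib.PolyTime

theorem pt5_pdm {α : Type} [Enc α] {o : Ops α} {B : ℕ} (h : OB o B) (a m : List α) :
    (o.pdm a m).1.length = a.length ∧ (∀ c ∈ (o.pdm a m).1, c ∈ a ∨ sz c ≤ B) ∧
      ∀ c ∈ (o.pdm a m).2, sz c ≤ B := by
  induction a with
  | nil => simp [Ops.pdm]
  | cons x a ih =>
    obtain ⟨h1, h2, h3⟩ := ih
    have e : o.pdm (x :: a) m = ((x :: (o.pdm a m).2).getD (m.length - 1) o.zero :: (o.pdm a m).1,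
        (List.range (m.length - 1)).map fun i => o.sub ((x :: (o.pdm a m).2).getD i o.zero)
          (o.mul ((x :: (o.pdm a m).2).getD (m.length - 1) o.zero) (m.getD i o.zero))) := rfl
    rw [e]
    refine ⟨by simp [h1], fun c hc => ?_, fun c hc => ?_⟩
    · rcases List.mem_cons.1 hc with rfl | hc
      · by_cases hk : m.length - 1 < (x :: (o.pdm a m).2).length
        · rw [List.getD_eq_getElem _ _ hk]
          rcases List.mem_cons.1 (List.getElem_mem hk) with h4 | h4
          · exact Or.inl (List.mem_cons.2 (Or.inl h4))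
          · exact Or.inr (h3 _ h4)
        · rw [List.getD_eq_default _ _ (by omega)]
          exact Or.inr h.zero
      · exact (h2 c hc).imp (List.mem_cons_of_mem _) id
    · obtain ⟨i, -, rfl⟩ := List.mem_map.1 hc
      exact h.add _ _

theorem pt5_trim (p : ℕ) (l : List ℕ) :
    (trim p l).length ≤ l.length ∧ ∀ c ∈ trim p l, ∃ d ∈ l, c ≤ d := by
  have h : (trim p l).Sublist (l.map fun c => c % p) := by
    unfold trim
    rw [← List.reverse_sublist, List.reverse_reverse]
    exact List.dropWhile_sublist _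
  refine ⟨by simpa using h.length_le, fun c hc => ?_⟩
  obtain ⟨d, hd, rfl⟩ := List.mem_map.1 (h.subset hc)
  exact ⟨d, hd, Nat.mod_le _ _⟩

theorem pt5_fold (p N : ℕ) (adv tab : List (List ℕ)) (n B : ℕ) (hB : Nat.size p ≤ B)
    (L : List ℕ) : ∀ s : List ℕ × List (List ℕ), s.1.length ≤ n → (∀ c ∈ s.1, sz c ≤ B) →
    sz (L.foldl (fun (s : List ℕ × List (List ℕ)) _ =>
      if s.1.length ≤ 1 then s else (trim p ((oP p).pquo s.1 (irrF p N adv tab s.1)),
        irrF p N adv tab s.1 :: s.2)) s) ≤
      2 * (n * (2 * B + 2)) + sz s.2 + 1 + L.length * (2 * ((n + 2) * (2 * B + 2)) + 2) := by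
  induction L with
  | nil =>
    intro s h1 h2
    have h3 := sz_le_of_forall h2
    have h4 : s.1.length * (2 * B + 2) ≤ n * (2 * B + 2) := Nat.mul_le_mul_right _ h1
    rw [List.foldl_nil, sz_prod]
    omega
  | cons y L ih =>
    intro s h1 h2
    rw [List.foldl_cons, List.length_cons, Nat.add_mul L.length, one_mul]
    split_ifs with hs
    · have := ih s h1 h2
      omega
    · obtain ⟨a1, a2, -⟩ := pt5_pdm (ob_oP p) s.1 (irrF p N adv tab s.1)
      obtain ⟨b1, b2⟩ := pt5_trim p ((oP p).pquo s.1 (irrF p N adv tab s.1))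
      have h5 := ih (trim p ((oP p).pquo s.1 (irrF p N adv tab s.1)),
        irrF p N adv tab s.1 :: s.2) (b1.trans (a1.le.trans h1)) (fun c hc => by
          obtain ⟨d, hd, hcd⟩ := b2 c hc
          refine (sz_nat_mono hcd).trans ?_
          rcases a2 d hd with h6 | h6
          · exact h2 d h6
          · exact h6.trans hB)
      have h3 := sz_le_of_forall h2
      have h4 : s.1.length * (2 * B + 2) ≤ (n + 2) * (2 * B + 2) :=
        Nat.mul_le_mul_right _ (by omega)
      have h6 : (s.1.length + 2) * (2 * Nat.size p + 2) ≤ (n + 2) * (2 * B + 2) :=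
        Nat.mul_le_mul (by omega) (by omega)
      have h7 := (sz_irrF p N adv tab s.1).2
      rw [sz_cons] at h5
      omega

variable {σ : Type} [Enc σ] {p N d r B : σ → ℕ} {a f : σ → List ℕ} {adv tab : σ → List (List ℕ)}

@[fun_prop] theorem pt5_auxC (hp : PT p) (hd : PT d) (hr : PT r) (hr' : PB r) :
    PT fun s => auxC (p s) (d s) (r s) := by
  unfold auxC
  fun_prop

@[fun_prop] theorem pt5_advL (hp : PT p) (hN : PT N) (hN' : PB N) (hB : PT B) (hB' : PB B) :
    PT fun s => advL (p s) (N s) (B s) := by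
  unfold advL
  fun_prop

@[fun_prop] theorem pt5_table (hp : PT p) (hN : PT N) (hN' : PB N) (h1 : PT adv) :
    PT fun s => table (p s) (N s) (adv s) := by
  unfold table
  refine PT.foldl_add (D := fun s => 2 * (4 * N s + (N s + 2) * (2 * Nat.size (p s) + 2)) + 2)
    (by fun_prop) (by fun_prop) (by fun_prop) (by fun_prop) (fun s t y _ => ?_)
  have h2 := (sz_irrF (p s) (N s) (adv s) t (List.replicate (min y (N s)) 1)).2
  have h3 : sz (List.replicate (min y (N s)) 1) ≤ _ :=
    sz_le_of_forall (b := 1) (fun z hz => by rw [List.eq_of_mem_replicate hz]; exact sz_nat_le 1)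
  rw [List.length_replicate] at h2 h3
  have h4 : (min y (N s) + 2) * (2 * Nat.size (p s) + 2) ≤ (N s + 2) * (2 * Nat.size (p s) + 2) :=
    Nat.mul_le_mul_right _ (by omega)
  rw [sz_append, sz_cons, sz_nil]
  omega

@[fun_prop] theorem pt5_facs (hp : PT p) (hN : PT N) (hN' : PB N) (h1 : PT adv) (h2 : PT tab)
    (hf : PT f) : PT fun s => facs (p s) (N s) (adv s) (tab s) (f s) := by
  unfold facs
  have hs : PB fun s => sz (f s) := hf.szb
  refine PT.snd (PT.foldl (B := fun s => 2 * ((f s).length * (2 * (Nat.size (p s) + sz (f s)) + 2))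
      + 1 + (f s).length * (2 * (((f s).length + 2) * (2 * (Nat.size (p s) + sz (f s)) + 2)) + 2))
    (by fun_prop) (by fun_prop) (by fun_prop) (by fun_prop) (fun s k => ?_))
  refine (pt5_fold (p s) (N s) (adv s) (tab s) (f s).length (Nat.size (p s) + sz (f s))
    (by omega) _ (f s, []) le_rfl (fun c hc => (sz_mem hc).trans (by simp))).trans ?_
  rw [sz_nil, add_zero]
  refine Nat.add_le_add_left (Nat.mul_le_mul_right _ ?_) _
  simp

@[fun_prop] theorem pt5_factor (hp : PT p) (h1 : PT adv) (ha : PT a) :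
    PT fun s => factor (p s) (adv s) (a s) := by
  unfold factor
  fun_prop

@[fun_prop] theorem pt5_bnd (c : ℕ) (hp : PT p) (ha : PT a) : PT fun s => bnd c (p s) (a s) := by
  unfold bnd
  fun_prop

@[fun_prop] theorem pt5_bnd' (c : ℕ) (hp : PT p) (ha : PT a) : PB fun s => bnd c (p s) (a s) := by
  unfold bnd
  exact pb_pow (by fun_prop) c

@[fun_prop] theorem pt5_flat (h1 : PT adv) : PT fun s => flat (adv s) := by
  unfold flat
  fun_prop

theorem pt_prog (c : ℕ) : PT (prog c) := by
  unfold prog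
  fun_prop

theorem exists_machine_prog (c : ℕ) :
    ∃ M : Turing.TM2ComputableInPolyTime code code (prog c), ∀ k, Finite (M.tm.Γ k) :=
  (pt_prog c).machine id id (prog c) (fun _ => rfl)

end Vale.Agent.P319
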