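import Vale.Agent.P319.Exist

/-! A shortest vector of the lattice has rank one. -/

namespace Vale.Agent.P319.Curve

open Polynomial Finset

variable {𝕜 L : Type} [Field 𝕜] [IsAlgClosed 𝕜] [Field L] [Algebra 𝕜 L] {d : Dat 𝕜}
  {T : Curve d L} {i : Fin d.n} {D E : d.Pl → ℤ} {s : 𝕜[X]} {g : L}

/-- The operator with coefficients `a`. -/
noncomputable def rk_Phi (T : Curve d L) (a : ℕ → L) (z : L) : L :=
  ∑ j ∈ range d.ℓ, a j * (T.τ ^ j) z

/-- Its eigen-coefficients. -/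
noncomputable def rk_B (d : Dat 𝕜) (a : ℕ → L) (k : ℕ) : L :=
  ∑ j ∈ range d.ℓ, d.ζ ^ ((d.ℓ - j) * k) • a j

section
omit [IsAlgClosed 𝕜]

theorem rk_mul (a : ℕ → L) {u : L} (hu : T.τ u = u) (z : L) :
    rk_Phi T a (u * z) = u * rk_Phi T a z := by
  simp only [rk_Phi, map_mul, T.τ_pow_fixed hu, mul_sum, mul_left_comm]

theorem rk_sum (a : ℕ → L) (t : Finset ℕ) (f : ℕ → L) :
    rk_Phi T a (∑ b ∈ t, f b) = ∑ b ∈ t, rk_Phi T a (f b) := by
  simp only [rk_Phi, map_sum, mul_sum]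
  exact sum_comm

theorem rk_inv (a : ℕ → L) (i : Fin d.n) (k : ℕ) :
    rk_Phi T a (T.η i ^ k)⁻¹ = (T.η i ^ k)⁻¹ * rk_B d a k := by
  rw [rk_Phi, rk_B, mul_sum]
  refine sum_congr rfl fun j hj => ?_
  have h : d.ζ ^ ((d.ℓ - j) * k) * (d.ζ ^ j) ^ k = 1 := by
    rw [pow_mul, ← mul_pow, ← pow_add, Nat.sub_add_cancel (mem_range.1 hj).le, d.prim.pow_eq_one,
      one_pow]
  rw [map_inv₀, map_pow, T.τ_pow_eigen (T.τη i), _root_.smul_pow, smul_inv₀, eq_inv_of_mul_eq_one_left h,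
    mul_smul_comm, mul_smul_comm, mul_comm]

theorem rk_idft {P : d.Pl} {a : ℕ → L} {N : ℤ} (h : ∀ k < d.ℓ, T.Ge P (rk_B d a k) N) {j : ℕ}
    (hj : j < d.ℓ) : T.Ge P (a j) N := by
  have h1 : ∑ k ∈ range d.ℓ, d.ζ ^ (j * k) • rk_B d a k = (d.ℓ : 𝕜) • a j := by
    simp only [rk_B, smul_sum, smul_smul, ← pow_add, ← add_mul]
    rw [sum_comm]
    simp only [← sum_smul, mul_comm _ _, sum_ζ]
    rw [sum_eq_single j (fun b hb hbj => ?_) fun h => (h (mem_range.2 hj)).elim,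
      if_pos (by rw [Nat.add_sub_cancel' hj.le])]
    rw [if_neg, zero_smul]
    have := mem_range.1 hb
    intro h
    rcases lt_or_gt_of_ne hbj with h' | h'
    · have := Nat.le_of_dvd (by omega) ((Nat.dvd_add_right (dvd_refl d.ℓ)).1
        (show d.ℓ ∣ d.ℓ + (j - b) by rwa [show d.ℓ + (j - b) = j + (d.ℓ - b) by omega]))
      omega
    · have := Nat.le_of_dvd (by omega) h
      omega
  have h2 := (ge_sum (range d.ℓ) _ fun k hk => (h k (mem_range.1 hk)).smul (d.ζ ^ (j * k))).smul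
    (d.ℓ : 𝕜)⁻¹
  rwa [h1, smul_smul, inv_mul_cancel₀ d.ℓ_ne, one_smul] at h2

theorem rk_rm_nonneg (P : d.Pl) : 0 ≤ d.Rm P := by
  rcases d.rm_cases P with ⟨j, rfl⟩ | h
  · rw [d.rm_ram]; exact zero_le_one
  · exact h.ge

theorem rk_rm_iter (P : d.Pl) (t : ℕ) : d.Rm (d.act^[t] P) = d.Rm P := by
  induction t with
  | zero => rfl
  | succ t ih => rw [Function.iterate_succ_apply', d.rm_act, ih]

theorem rk_orbit {P : d.Pl} (hP : d.Rm P = 0) {j j' : ℕ} (hj : j < d.ℓ) (hj' : j' < d.ℓ)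
    (h : d.act^[j] P = d.act^[j'] P) : j = j' := by
  rcases P with q | a
  · have key : ∀ t, ∃ q', d.act^[t] (.inl q) = .inl q' ∧ q'.1.2 = d.ζ ^ t * q.1.2 := by
      intro t
      induction t with
      | zero => exact ⟨q, rfl, by simp⟩
      | succ t ih =>
        obtain ⟨q', h1, h2⟩ := ih
        exact ⟨_, by rw [Function.iterate_succ_apply', h1]; rfl, by simp only [h2]; ring⟩
    obtain ⟨q1, a1, b1⟩ := key j
    obtain ⟨q2, a2, b2⟩ := key j'
    rw [a1, a2, Sum.inl.injEq] at h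
    have hq : q.1.2 ≠ 0 := fun h0 => by simp [Dat.Rm, h0] at hP
    exact d.prim.pow_inj hj hj' (mul_right_cancel₀ hq (by rw [← b1, ← b2, h]))
  · have key : ∀ t : ℕ, d.act^[t] (.inr a) = .inr (a + t) := by
      intro t
      induction t with
      | zero => simp
      | succ t ih => rw [Function.iterate_succ_apply', ih, Nat.cast_succ, ← add_assoc]; rfl
    rw [key, key, Sum.inr.injEq, add_right_inj, ZMod.natCast_eq_natCast_iff',
      Nat.mod_eq_of_lt hj, Nat.mod_eq_of_lt hj'] at h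
    exact h

theorem rk_vpp (hg : T.Dv i D E g) {P : d.Pl} (hP : P ≠ d.ram i) (j : ℕ) :
    T.v P (T.pp g j) = d.part D j P + E (d.act^[j] P) - E P := by
  rw [T.v_pp hg.1]
  unfold Dat.part
  induction j with
  | zero => simp
  | succ j ih =>
    rw [sum_range_succ, sum_range_succ, ih, Function.iterate_succ_apply']
    linarith [hg.2 _ (d.act_iter_ne hP j)]

theorem rk_one {j : Fin d.n} {u : L} {N : ℤ} (hN : 0 ≤ N) (h : T.Ge (d.ram j) (u - 1) N) (t : ℕ) :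
    T.Ge (d.ram j) (T.pp u t - 1) N := by
  have h1 : T.Ge (d.ram j) (1 : L) 0 := Or.inr v_one.ge
  induction t with
  | zero => rw [pp_zero, sub_self]; exact ge_zero _ _
  | succ t ih =>
    have h2 : T.Ge (d.ram j) ((T.τ ^ t) u - 1) N := by
      have := (T.ge_τ_pow (d.ram j) t (u - 1) N).2 (by rwa [d.act_iter_ram])
      rwa [map_sub, map_one] at this
    have h3 := (ih.mul h2).mono (k' := N) (by linarith)
    rw [pp_succ, show T.pp u t * (T.τ ^ t) u - 1 = (T.pp u t - 1) * ((T.τ ^ t) u - 1) +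
      ((T.pp u t - 1) + ((T.τ ^ t) u - 1)) by ring]
    exact h3.add (ih.add h2)

/-- terms with fixed coefficients and orders in different classes -/
theorem rk_terms {j : Fin d.n} {u e : ℕ → L} (hu : ∀ b, T.τ (u b) = u b)
    (he : ∀ b < d.ℓ, e b ≠ 0 ∧ T.v (d.ram j) (e b) ≡ b [ZMOD d.ℓ]) {N : ℤ}
    (h : T.Ge (d.ram j) (∑ b ∈ range d.ℓ, u b * e b) N) {b : ℕ} (hb : b < d.ℓ) :
    T.Ge (d.ram j) (u b) (N - T.v (d.ram j) (e b)) := by
  refine (ge_of_sum _ _ (fun a ha b hb h1 h2 h3 => ?_) h b (mem_range.2 hb)).of_mul (he b hb).1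
  have key : ∀ b ∈ range d.ℓ, u b * e b ≠ 0 → T.v (d.ram j) (u b * e b) ≡ b [ZMOD d.ℓ] := by
    intro b hb h
    rw [T.v_mul _ _ _ (left_ne_zero_of_mul h) (right_ne_zero_of_mul h)]
    simpa using ((Int.modEq_zero_iff_dvd.2 (T.dvd_v_fixed (left_ne_zero_of_mul h) (hu b) j)).add
      (he b (mem_range.1 hb)).2)
  have := (key a ha h1).symm.trans (h3 ▸ key b hb h2)
  exact Nat.ModEq.eq_of_lt_of_lt (Int.natCast_modEq_iff.1 this) (mem_range.1 ha) (mem_range.1 hb)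

theorem rk_test {p : L} (hp : T.Md i E p) {k : ℕ} (hk : k < d.ℓ) :
    T.Md i (fun P => E P - ((d.ℓ - 1 : ℕ) : ℤ) * d.Rm P) (p * (T.η i ^ k)⁻¹) := by
  intro P hP
  refine ((hp P hP).mul (ge_self P _)).mono ?_
  rw [v_inv (pow_ne_zero _ (T.η_ne i)), v_pow (T.η_ne i), T.v_η hP]
  have := mul_le_mul_of_nonneg_right (show (k : ℤ) ≤ (d.ℓ - 1 : ℕ) by omega) (rk_rm_nonneg P)
  linarith

theorem rk_close (hg : T.Dv i D E g) {j : Fin d.n}
    (hs : T.Ge (d.ram j) (aeval (T.ξ i) s * g - 1) d.ℓ) {c : ℕ → L}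
    (ha : ∀ t < d.ℓ, T.Ge (d.ram j) (c t / T.pp g t) 0) (k : ℕ) :
    T.Ge (d.ram j) (∑ t ∈ range d.ℓ, d.ζ ^ ((d.ℓ - t) * k) • (aeval (T.ξ i) s ^ t * c t) -
      rk_B d (fun t => c t / T.pp g t) k) d.ℓ := by
  rw [rk_B, ← sum_sub_distrib]
  refine ge_sum _ _ fun t ht => ?_
  have := (rk_one (Nat.cast_nonneg _) hs t).mul (ha t (mem_range.1 ht))
  rw [pp_mul, T.pp_fixed (T.τ_aeval (T.τξ i) s), sub_mul, one_mul, mul_assoc,
    mul_div_cancel₀ _ (T.pp_ne hg.1 t), add_zero] at this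
  rw [← smul_sub]
  exact this.smul _

end

theorem rk_conv (hE : d.FS E) (hE0 : ∀ j, E (d.ram j) = 0) {a : ℕ → L} {ν : ℤ}
    (h : ∀ z, z ≠ 0 → T.Md i (fun P => E P - ((d.ℓ - 1 : ℕ) : ℤ) * d.Rm P) z →
      T.Ge (d.ram i) (rk_Phi T a z) (T.v (d.ram i) z - ν)) {j : ℕ} (hj : j < d.ℓ) :
    T.Ge (d.ram i) (a j) (-ν) := by
  have : Nontrivial (Fin d.n) := Fin.nontrivial_iff_two_le.2 (d.two_le.trans d.ℓ_le_n)
  obtain ⟨j', hj'⟩ := exists_ne i
  obtain ⟨p, hp0, hp⟩ := T.exists_poly_md hE hj' (hE0 j').le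
  have h0 := (T.aeval_ξ_ne i (g := p) (by rintro rfl; simp at hp0)).1
  refine rk_idft (fun k hk => ?_) hj
  have hz := mul_ne_zero h0 (inv_ne_zero (pow_ne_zero k (T.η_ne i)))
  have := h _ hz (rk_test hp hk)
  rw [rk_mul _ (T.τ_aeval (T.τξ i) p), rk_inv, ← mul_assoc, mul_comm] at this
  exact (this.of_mul hz).mono (by linarith)

theorem rk_inj (hE : d.FS E) (hE0 : ∀ j, E (d.ram j) = 0) {a : ℕ → L}
    (h : ∀ z, T.Md i (fun P => E P - ((d.ℓ - 1 : ℕ) : ℤ) * d.Rm P) z → rk_Phi T a z = 0)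
    {j : ℕ} (hj : j < d.ℓ) : a j = 0 :=
  eq_zero_of_ge (T := T) (P := d.ram i) fun k => by
    simpa using rk_conv (ν := -k) hE hE0 (fun z _ hz => Or.inl (h z hz)) hj

theorem rk_unram (hE : d.FS E) {a : ℕ → L}
    (h : ∀ z, T.Md i (fun P => E P - ((d.ℓ - 1 : ℕ) : ℤ) * d.Rm P) z → T.Md i E (rk_Phi T a z))
    {P : d.Pl} (hP : P ≠ d.ram i) (hR : d.Rm P = 0) {j : ℕ} (hj : j < d.ℓ) :
    T.Ge P (a j) (E P - E (d.act^[j] P)) := by
  classical
  obtain ⟨S, hS⟩ : ∃ S : Finset d.Pl, S = ((range d.ℓ).erase j).image fun t => d.act^[t] P :=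
    ⟨_, rfl⟩
  obtain ⟨N, hN⟩ : ∃ N : ℤ, N = ∑ t ∈ range d.ℓ, |E P - E (d.act^[t] P) - T.v P (a t)| := ⟨_, rfl⟩
  have hN0 : 0 ≤ N := hN ▸ sum_nonneg fun _ _ => abs_nonneg _
  have hF : d.FS fun Q => if Q ∈ S then N else 0 :=
    S.finite_toSet.subset fun Q hQ => by by_contra h'; exact hQ (if_neg h')
  obtain ⟨z, hz0, hz, hv⟩ := T.att ((hE.sub (d.fs_rm.smul ((d.ℓ - 1 : ℕ) : ℤ))).add hF)
    (d.act_iter_ne hP j)
  have hj' : d.act^[j] P ∉ S := by
    rw [hS, mem_image]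
    rintro ⟨t, ht, h'⟩
    exact (mem_erase.1 ht).1 (rk_orbit hR (mem_range.1 (mem_erase.1 ht).2) hj h')
  simp only [Pi.add_apply, Pi.sub_apply, Pi.smul_apply, smul_eq_mul, if_neg hj', rk_rm_iter, hR,
    mul_zero, sub_zero, add_zero] at hv
  have h1 := h z (fun Q hQ => (hz Q hQ).mono (by
    simp only [Pi.add_apply, Pi.sub_apply, Pi.smul_apply, smul_eq_mul]
    split_ifs <;> linarith)) P hP
  have h2 : T.Ge P (∑ t ∈ (range d.ℓ).erase j, a t * (T.τ ^ t) z) (E P) := by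
    refine ge_sum _ _ fun t ht => ((ge_self P (a t)).mul
      ((T.ge_τ_pow P t z _).2 (hz _ (d.act_iter_ne hP t)))).mono ?_
    have a1 : d.act^[t] P ∈ S := hS ▸ mem_image_of_mem _ ht
    have a2 := single_le_sum (f := fun t => |E P - E (d.act^[t] P) - T.v P (a t)|)
      (fun _ _ => abs_nonneg _) (mem_erase.1 ht).2
    simp only [Pi.add_apply, Pi.sub_apply, Pi.smul_apply, smul_eq_mul, if_pos a1, rk_rm_iter, hR,
      mul_zero, sub_zero]
    linarith [le_abs_self (E P - E (d.act^[t] P) - T.v P (a t))]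
  have h3 := h1.sub h2
  rw [rk_Phi, ← add_sum_erase _ _ (mem_range.2 hj), add_sub_cancel_right] at h3
  have h4 := h3.of_mul ((_root_.map_ne_zero _).2 hz0)
  rwa [T.v_τ_pow, hv] at h4

/-- The lattice consists of the operators that map one ideal to the other. -/
theorem lam_iff (hD : d.Eff D) (hE : d.FS E) (hE0 : ∀ j, E (d.ram j) = 0) (hg : T.Dv i D E g)
    (hs : ∀ j, j ≠ i → T.Ge (d.ram j) (aeval (T.ξ i) s * g - 1) d.ℓ) (c : ℕ → L) :
    T.Lam i D s c ↔ ∀ z, T.Md i (fun P => E P - ((d.ℓ - 1 : ℕ) : ℤ) * d.Rm P) z →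
      T.Md i E (∑ j ∈ range d.ℓ, c j / T.pp g j * (T.τ ^ j) z) := by
  have hne := T.pp_ne hg.1
  have hc : ∀ j, c j = c j / T.pp g j * T.pp g j := fun j => (div_mul_cancel₀ _ (hne j)).symm
  have hη := T.η_ne i
  refine ⟨fun h z hz P hP => ?_, fun h => ?_⟩
  · have ha : ∀ j < d.ℓ, T.Ge P (c j / T.pp g j) (E P - E (d.act^[j] P)) := fun j hj =>
      (Ge.of_mul (hne j) (hc j ▸ h.1 j hj P hP)).mono (by rw [rk_vpp hg hP]; linarith)
    rcases d.rm_cases P with ⟨j', rfl⟩ | hR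
    · simp only [d.act_iter_ram, sub_self] at ha
      have hj' : j' ≠ i := fun h => hP (h ▸ rfl)
      have hv := T.v_η hP
      have hz' := (hz _ hP).mul (ge_self (d.ram j') (T.η i ^ (d.ℓ - 1)))
      rw [d.rm_ram] at hv
      obtain ⟨u, hu, hzu⟩ := T.exists_decomp hη (T.τη i) (z * T.η i ^ (d.ℓ - 1))
      simp only [v_pow hη, hv, hE0, d.rm_ram, zero_sub, neg_add_cancel] at hz'
      have hz2 : z = ∑ b ∈ range d.ℓ, u b * (T.η i ^ (d.ℓ - 1 - b))⁻¹ := by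
        rw [← mul_left_inj' (pow_ne_zero (d.ℓ - 1) hη), hzu, sum_mul]
        refine sum_congr rfl fun b hb => ?_
        rw [mul_assoc, ← pow_sub_mul_pow (T.η i)
          (show b ≤ d.ℓ - 1 by have := mem_range.1 hb; omega), inv_mul_cancel_left₀
          (pow_ne_zero _ hη)]
      rw [hzu] at hz'
      change T.Ge _ (rk_Phi T (fun j => c j / T.pp g j) z) _
      rw [hz2, rk_sum, hE0]
      refine ge_sum _ _ fun b hb => ?_
      replace hb := mem_range.1 hb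
      have a1 := rk_terms hu (e := fun b => T.η i ^ b)
        (fun b _ => ⟨pow_ne_zero _ hη, by rw [v_pow hη, hv, mul_one]⟩) hz' hb
      have a2 : T.Ge (d.ram j') (u b) 0 := by
        rcases eq_or_ne (u b) 0 with h0 | h0
        · exact Or.inl h0
        · rw [ge_iff h0, v_pow hη, hv] at a1
          obtain ⟨w, hw⟩ := T.dvd_v_fixed h0 (hu b) j'
          refine Or.inr ?_
          rw [hw] at a1 ⊢
          have : (b : ℤ) < d.ℓ := by exact_mod_cast hb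
          exact mul_nonneg (Nat.cast_nonneg _) (by by_contra h'; nlinarith)
      have a3 := h.2 (d.ℓ - 1 - b) (by omega) _ hP
      simp only [d.rm_ram, mul_one] at a3
      have a4 := a3.sub ((rk_close hg (hs j' hj') ha (d.ℓ - 1 - b)).mono (by omega))
      rw [sub_sub_cancel] at a4
      rw [rk_mul _ (hu b), rk_inv]
      refine (a2.mul ((ge_self _ _).mul a4)).mono ?_
      rw [v_inv (pow_ne_zero _ hη), v_pow hη, hv]
      linarith
    · refine ge_sum _ _ fun j hj => ((ha j (mem_range.1 hj)).mul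
        ((T.ge_τ_pow P j z _).2 (hz _ (d.act_iter_ne hP j)))).mono ?_
      simp only [rk_rm_iter, hR]
      linarith
  · have hB : ∀ j', j' ≠ i → ∀ k < d.ℓ,
        T.Ge (d.ram j') (rk_B d (fun j => c j / T.pp g j) k) k := by
      intro j' hj' k hk
      have hP : d.ram j' ≠ d.ram i := d.ram_inj.ne hj'
      obtain ⟨p, hp0, hp⟩ := T.exists_poly_md hE hj' (hE0 j').le
      obtain ⟨h0, hv⟩ := ((T.val_ξ_ram hj').aeval p).v_eq hp0
      have hk0 := inv_ne_zero (pow_ne_zero k hη)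
      have : T.Ge _ (rk_Phi T (fun j => c j / T.pp g j) _) _ := h _ (rk_test hp hk) _ hP
      rw [rk_mul _ (T.τ_aeval (T.τξ i) p), rk_inv, ← mul_assoc, mul_comm] at this
      refine (this.of_mul (mul_ne_zero h0 hk0)).mono ?_
      rw [T.v_mul _ _ _ h0 hk0, hv, v_inv (pow_ne_zero _ hη), v_pow hη, T.v_η hP, d.rm_ram, hE0]
      linarith
    have ha : ∀ P, P ≠ d.ram i → ∀ j < d.ℓ, T.Ge P (c j / T.pp g j) (E P - E (d.act^[j] P)) := by
      intro P hP j hj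
      rcases d.rm_cases P with ⟨j', rfl⟩ | hR
      · rw [d.act_iter_ram, sub_self]
        exact rk_idft (a := fun j => c j / T.pp g j) (fun k hk =>
          (hB j' (fun h => hP (h ▸ rfl)) k hk).mono (Nat.cast_nonneg k)) hj
      · exact rk_unram (a := fun j => c j / T.pp g j) hE h hP hR hj
    have h1 : ∀ j < d.ℓ, T.Md i (d.part D j) (c j) := fun j hj P hP => by
      rw [hc j]
      exact ((ha P hP j hj).mul (ge_self _ _)).mono (by rw [rk_vpp hg hP]; linarith)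
    refine ⟨h1, fun k hk P hP => ?_⟩
    rcases d.rm_cases P with ⟨j', rfl⟩ | hR
    · have hj' : j' ≠ i := fun h => hP (h ▸ rfl)
      have := ((rk_close hg (hs j' hj') (fun t ht => by
        simpa only [d.act_iter_ram, sub_self] using ha _ hP t ht) k).mono
        (show (k : ℤ) ≤ d.ℓ by omega)).add (hB j' hj' k hk)
      rw [sub_add_cancel] at this
      simpa only [d.rm_ram, mul_one] using this
    · refine ge_sum _ _ fun j hj => ((((T.md_aeval i s P hP).pow j).mul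
        (h1 j (mem_range.1 hj) P hP)).mono ?_).smul _
      simpa [hR] using (hD.part j).2.1 P

omit [IsAlgClosed 𝕜] in
theorem rk_triv (T : Curve d L) (i : Fin d.n) (D : d.Pl → ℤ) (s : 𝕜[X]) (δ : ℕ) :
    T.Lam i D s (fun j => if j = 0 then T.η i ^ (d.ℓ - 1) else 0) ∧
      T.Nle i δ (fun j => if j = 0 then T.η i ^ (d.ℓ - 1) else 0)
        ((d.ℓ - 1) * (d.n - 1) : ℕ) := by
  have hη := T.η_ne i
  have hl := d.two_le
  refine ⟨⟨fun j _ P hP => ?_, fun k hk P hP => ?_⟩, fun j _ => ?_⟩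
  · by_cases h : j = 0
    · subst h
      refine Or.inr ?_
      simp only [if_true, v_pow hη, T.v_η hP, Dat.part, sum_range_zero]
      exact mul_nonneg (Nat.cast_nonneg _) (rk_rm_nonneg P)
    · exact Or.inl (if_neg h)
  · rw [sum_eq_single 0 (fun b _ hb => by simp [hb]) fun h => (h (mem_range.2 (by omega))).elim]
    refine Ge.smul (Or.inr ?_) _
    simp only [if_true, pow_zero, one_mul, v_pow hη, T.v_η hP]
    exact mul_le_mul_of_nonneg_right (by omega) (rk_rm_nonneg P)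
  · by_cases h : j = 0
    · subst h
      refine Or.inr ?_
      simp only [if_true, v_pow hη, T.v_η_self]
      push_cast
      linarith
    · exact Or.inl (if_neg h)

/-- The coordinate functional of a basis is a trace form. -/
theorem rk_dual (hE : d.FS E) (hE0 : ∀ j, E (d.ram j) = 0) {e : ℕ → L}
    (he : ∀ z, T.Md i (fun P => E P - ((d.ℓ - 1 : ℕ) : ℤ) * d.Rm P) z →
      ∃ c : ℕ → 𝕜[X], z = ∑ ρ ∈ range d.ℓ, aeval (T.ξ i) (c ρ) * e ρ) {ρ₀ : ℕ} (h0 : ρ₀ < d.ℓ) :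
    ∃ b, ∀ ρ < d.ℓ, rk_Phi T (fun j => (T.τ ^ j) b) (e ρ) = if ρ = ρ₀ then 1 else 0 := by
  let A : Matrix (Fin d.ℓ) (Fin d.ℓ) L := Matrix.of fun ρ j => (T.τ ^ (j : ℕ)) (e ρ)
  have hA : ∀ (a : Fin d.ℓ → L) (ρ : Fin d.ℓ), A.mulVecLin a ρ =
      rk_Phi T (fun j => if h : j < d.ℓ then a ⟨j, h⟩ else 0) (e ρ) := fun a ρ => by
    simp [rk_Phi, sum_range, A, Matrix.mulVec, dotProduct, mul_comm]
  have hinj : Function.Injective A.mulVecLin := by
    refine (injective_iff_map_eq_zero _).2 fun a ha => funext fun j => ?_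
    have := rk_inj (T := T) (i := i) hE hE0 (a := fun j => if h : j < d.ℓ then a ⟨j, h⟩ else 0)
      (fun z hz => by
        obtain ⟨c, rfl⟩ := he z hz
        rw [rk_sum]
        refine sum_eq_zero fun ρ hρ => ?_
        rw [rk_mul _ (T.τ_aeval (T.τξ i) _), ← hA a ⟨ρ, mem_range.1 hρ⟩, ha, Pi.zero_apply,
          mul_zero]) j.2
    simpa using this
  obtain ⟨a', ha'⟩ := LinearMap.injective_iff_surjective.1 hinj (Pi.single ⟨ρ₀, h0⟩ 1)
  obtain ⟨a, ha⟩ : ∃ a : ℕ → L, ∀ ρ < d.ℓ, rk_Phi T a (e ρ) = if ρ = ρ₀ then 1 else 0 :=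
    ⟨_, fun ρ hρ => by rw [← hA a' ⟨ρ, hρ⟩, ha', Pi.single_apply]; simp only [Fin.mk.injEq]⟩
  obtain ⟨l, hl⟩ : ∃ l, d.ℓ = l + 1 := ⟨d.ℓ - 1, by have := d.two_le; omega⟩
  have h1 : ∀ z, rk_Phi T (fun j => T.τ (a (if j = 0 then l else j - 1)) - a j) z =
      T.τ (rk_Phi T a z) - rk_Phi T a z := fun z => by
    have := T.τ_pow_ℓ z
    simp only [rk_Phi, sub_mul, sum_sub_distrib, map_sum, map_mul, ← τ_pow_succ]
    rw [hl] at this ⊢
    rw [sum_range_succ', sum_range_succ (fun j => T.τ (a j) * (T.τ ^ (j + 1)) z) l, this]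
    simp
  have h2 := fun j => rk_inj (T := T) (i := i) hE hE0 (j := j) (fun z hz => (h1 z).trans (by
    obtain ⟨c, rfl⟩ := he z hz
    rw [rk_sum, map_sum, sub_eq_zero]
    refine sum_congr rfl fun ρ hρ => ?_
    rw [rk_mul _ (T.τ_aeval (T.τξ i) _), ha ρ (mem_range.1 hρ), map_mul, T.τ_aeval (T.τξ i)]
    split_ifs <;> simp))
  have h3 : ∀ j < d.ℓ, (T.τ ^ j) (a 0) = a j := by
    intro j hj
    induction j with
    | zero => rfl
    | succ j ih =>
      have := h2 (j + 1) hj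
      rw [τ_pow_succ, ih (by omega)]
      simpa [sub_eq_zero] using this
  refine ⟨a 0, fun ρ hρ => (ha ρ hρ).symm ▸ ?_⟩
  exact sum_congr rfl fun j hj => by simp only [h3 j (mem_range.1 hj)]

theorem rank_one {h : 𝕜[X]} (hD : d.Eff D) (hh : T.Nrm i D h) {κ : 𝕜} (hκ : κ ≠ 0)
    (hs : ∀ j, j ≠ i → s.eval (d.rt i j) ^ d.ℓ * (κ * h.eval (d.rt i j)) = 1) {c : ℕ → L}
    (h1 : T.Lam i D s c) (h2 : ∃ j < d.ℓ, c j ≠ 0)
    (hmin : ∀ (ν : ℤ) (c' : ℕ → L), ν ≤ ((d.ℓ - 1) * (d.n - 1) : ℕ) → T.Lam i D s c' →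
      (∃ j < d.ℓ, c' j ≠ 0) → T.Nle i h.natDegree c' ν → T.Nle i h.natDegree c ν) :
    T.Rk i D h c := by
  obtain ⟨g, E, hE, hE0, hg, hgl, hs'⟩ := exists_div hD hh hκ hs
  have hne := T.pp_ne hg.1
  have hl := d.two_le
  have hvg : ∀ j, T.v (d.ram i) (T.pp g j) = -(j * h.natDegree) := by
    have a1 : ∀ j, T.v (d.ram i) (T.pp g j) = j * T.v (d.ram i) g := fun j => by
      simp [T.v_pp hg.1, Dat.part, d.act_iter_ram]
    have a2 := a1 d.ℓ
    obtain ⟨a3, a4⟩ := T.aeval_ξ_ne i hh.1.ne_zero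
    rw [hgl, v_smul hκ a3, a4, neg_mul, ← mul_neg] at a2
    intro j
    rw [a1, ← mul_left_cancel₀ (show (d.ℓ : ℤ) ≠ 0 by omega) a2, mul_neg]
  obtain ⟨e, he, hsp⟩ := T.red_basis i (hE.sub (d.fs_rm.smul ((d.ℓ - 1 : ℕ) : ℤ)))
  obtain ⟨M, ⟨e', he0, he1, rfl⟩, hM⟩ := Int.exists_greatest_of_bdd
    (P := fun k => ∃ z, z ≠ 0 ∧ T.Md i E z ∧ T.v (d.ram i) z = k)
    ((T.bdd_deg i hE).imp fun B hB k ⟨z, h0, h1, h2⟩ => h2 ▸ hB z h0 h1)
    (by
      obtain ⟨z, h0, h1, -⟩ := T.att (i := i) hE (P := .inr 0) Sum.inr_ne_inl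
      exact ⟨_, z, h0, h1, rfl⟩)
  obtain ⟨ρ₀, h0, hρ⟩ := exists_min_image (range d.ℓ) (fun ρ => T.v (d.ram i) (e ρ))
    ⟨0, mem_range.2 (by omega)⟩
  replace h0 := mem_range.1 h0
  obtain ⟨b, hb⟩ := rk_dual hE hE0 hsp h0
  have hlam : ∀ (y : L) (p : ℕ → 𝕜[X]), rk_Phi T (fun j => y * (T.τ ^ j) b)
      (∑ ρ ∈ range d.ℓ, aeval (T.ξ i) (p ρ) * e ρ) = y * aeval (T.ξ i) (p ρ₀) := fun y p => by
    have : ∀ z, rk_Phi T (fun j => y * (T.τ ^ j) b) z = y * rk_Phi T (fun j => (T.τ ^ j) b) z :=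
      fun z => by simp only [rk_Phi, mul_sum, mul_assoc]
    rw [this, rk_sum, sum_congr rfl fun ρ hρ => by
      rw [rk_mul _ (T.τ_aeval (T.τξ i) _), hb ρ (mem_range.1 hρ)]]
    simp [h0]
  have hb0 : b ≠ 0 := by
    rintro rfl
    simpa [rk_Phi] using hb ρ₀ h0
  have hN := hmin _ _ le_rfl (rk_triv T i D s 0).1
    ⟨0, by omega, by simpa using fun h => (T.η_ne i h).elim⟩ (rk_triv T i D s _).2
  have hN0 : T.Nle i h.natDegree c (T.v (d.ram i) (e ρ₀) - T.v (d.ram i) e') := by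
    rcases le_total (T.v (d.ram i) (e ρ₀) - T.v (d.ram i) e') ((d.ℓ - 1) * (d.n - 1) : ℕ)
      with hle | hle
    · refine hmin _ (fun j => e' * (T.τ ^ j) b * T.pp g j) hle
        ((lam_iff hD hE hE0 hg hs' _).2 fun z hz => ?_)
        ⟨0, by omega, mul_ne_zero (mul_ne_zero he0 ((_root_.map_ne_zero _).2 hb0)) (hne 0)⟩
        fun j hj => ?_
      · obtain ⟨p, rfl⟩ := hsp z hz
        simp only [mul_div_cancel_right₀ _ (hne _)]
        change T.Md i E (rk_Phi T (fun j => e' * (T.τ ^ j) b) _)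
        rw [hlam]
        exact fun P hP => ((he1 P hP).mul (T.md_aeval i _ P hP)).mono (by simp)
      · refine ((rk_conv (a := fun j => e' * (T.τ ^ j) b)
          (ν := T.v (d.ram i) (e ρ₀) - T.v (d.ram i) e') hE hE0 (fun z _ hz => ?_) hj).mul
          (ge_self _ _)).mono (by rw [hvg]; linarith)
        obtain ⟨p, hp⟩ := hsp z hz
        have := rk_terms (fun ρ => T.τ_aeval (T.τξ i) (p ρ))
          (fun ρ hρ => ⟨(he ρ hρ).1, (he ρ hρ).2.2.1⟩) (N := T.v (d.ram i) z)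
          (by rw [← hp]; exact ge_self _ _) h0
        rw [hp, hlam, ← hp]
        exact ((ge_self _ _).mul this).mono (by linarith)
    · exact fun j hj => (hN j hj).mono (by linarith)
  have hz : ∀ ρ < d.ℓ, ρ ≠ ρ₀ → rk_Phi T (fun j => c j / T.pp g j) (e ρ) = 0 := by
    intro ρ hρ' hne'
    by_contra hc
    have a1 := hM _ ⟨_, hc, (lam_iff hD hE hE0 hg hs' _).1 h1 _ (he ρ hρ').2.1, rfl⟩
    have a2 : T.Ge (d.ram i) (rk_Phi T (fun j => c j / T.pp g j) (e ρ))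
        (T.v (d.ram i) (e ρ) - (T.v (d.ram i) (e ρ₀) - T.v (d.ram i) e')) := by
      refine ge_sum _ _ fun j hj => ((Ge.of_mul (hne j) ((div_mul_cancel₀ (c j) (hne j)).symm ▸
        hN0 j (mem_range.1 hj))).mul (ge_self _ _)).mono ?_
      rw [hvg, T.v_τ_pow, d.act_iter_ram]
      linarith
    rw [ge_iff hc] at a2
    have a3 := hρ ρ (mem_range.2 hρ')
    have a4 : T.v (d.ram i) (e ρ) = T.v (d.ram i) (e ρ₀) := by linarith
    exact hne' (Nat.ModEq.eq_of_lt_of_lt (Int.natCast_modEq_iff.1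
      ((he ρ hρ').2.2.1.symm.trans (a4 ▸ (he ρ₀ h0).2.2.1))) hρ' h0)
  obtain ⟨y, hy⟩ : ∃ y, y = rk_Phi T (fun j => c j / T.pp g j) (e ρ₀) := ⟨_, rfl⟩
  have hc : ∀ j < d.ℓ, c j = y * (T.τ ^ j) b * T.pp g j := by
    intro j hj
    rw [← div_eq_iff (hne j), ← sub_eq_zero]
    refine rk_inj (T := T) (i := i) (a := fun j => c j / T.pp g j - y * (T.τ ^ j) b) hE hE0
      (fun z hz' => ?_) hj
    obtain ⟨p, rfl⟩ := hsp z hz'
    have : ∀ z, rk_Phi T (fun j => c j / T.pp g j - y * (T.τ ^ j) b) z =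
        rk_Phi T (fun j => c j / T.pp g j) z - rk_Phi T (fun j => y * (T.τ ^ j) b) z :=
      fun z => by simp only [rk_Phi, sub_mul, sum_sub_distrib]
    rw [this, hlam, rk_sum, sum_eq_single ρ₀ (fun ρ hρ' hne' => by
      rw [rk_mul _ (T.τ_aeval (T.τξ i) _), hz ρ (mem_range.1 hρ') hne', mul_zero])
      fun h => (h (mem_range.2 h0)).elim, rk_mul _ (T.τ_aeval (T.τξ i) _), ← hy, mul_comm, sub_self]
  have hy0 : y ≠ 0 := by
    rintro rfl
    obtain ⟨j, hj, h⟩ := h2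
    exact h (by rw [hc j hj, zero_mul, zero_mul])
  have c0 : c 0 = y * b := by rw [hc 0 (by omega), pp_zero, mul_one]; rfl
  have c1 : c 1 = y * T.τ b * g := by
    rw [hc 1 (by omega), pp_succ, pp_zero, one_mul, pow_one]; rfl
  have hq : ∀ j, T.pp (c 1 / c 0) j = (T.τ ^ j) b / b * T.pp g j := fun j => by
    rw [c0, c1, mul_div_right_comm, mul_div_mul_left _ _ hy0, pp_mul, T.pp_τ_div hb0]
  refine ⟨c0 ▸ mul_ne_zero hy0 hb0, c1 ▸ mul_ne_zero (mul_ne_zero hy0 ((_root_.map_ne_zero _).2 hb0)) hg.1,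
    h1.1, hN, fun j hj => ?_, κ, hκ, ?_⟩
  · rw [hq, hc j hj, c0]
    field_simp
  · rw [hq, τ_pow_ℓ, div_self hb0, one_mul, hgl]

/-- The lattice contains a nonzero vector of small norm. -/
theorem lam_triv (T : Curve d L) (i : Fin d.n) (hD : d.Eff D) (s : 𝕜[X]) (δ : ℕ) :
    T.Lam i D s (fun j => if j = 0 then T.η i ^ (d.ℓ - 1) else 0) ∧
      T.Nle i δ (fun j => if j = 0 then T.η i ^ (d.ℓ - 1) else 0)
        ((d.ℓ - 1) * (d.n - 1) : ℕ) :=
  rk_triv T i D s δ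

end Vale.Agent.P319.Curve
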