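import Vale.Agent.P319.TSpec
import Vale.Agent.P319.Ideal2

/-! Products of ideals and the norm generator. -/

namespace Vale.Agent.P319

open Polynomial Finset

variable {𝕜 L α : Type} [Field 𝕜] [IsAlgClosed 𝕜] [Field L] [Algebra 𝕜 L] {d : Dat 𝕜}
  {T : Curve d L} {i : Fin d.n} {o : Ops α} {φ : α → 𝕜} {F : List α} {ζ : α}
  {D D' : d.Pl → ℤ} {G G' : List (List (List α))} {h : 𝕜[X]}

theorem sa_span_lin {R M : Type} [Field R] [CommRing M] [Algebra R M] {φ : α → R} {X Y : M}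
    {ℓ : ℕ} (hφ : Hom o φ) (rows : List (List α)) (us : List (List (List α))) (z : M) :
    z ∈ Submodule.span R {g | g ∈ (rows.map fun c => o.lin ℓ c us).map (sem φ X Y ℓ)} ↔
      ∃ c ∈ Submodule.span R {w | w ∈ rows.map (vec φ)},
        ∑ t ∈ range us.length, c t • sem φ X Y ℓ (us.getD t []) = z := by
  let Λ : (ℕ → R) →ₗ[R] M :=
    { toFun := fun c => ∑ t ∈ range us.length, c t • sem φ X Y ℓ (us.getD t [])
      map_add' := fun a b => by simp [add_smul, sum_add_distrib]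
      map_smul' := fun r a => by simp [smul_sum, mul_smul] }
  have e : {g | g ∈ (rows.map fun c => o.lin ℓ c us).map (sem φ X Y ℓ)}
      = Λ '' {w | w ∈ rows.map (vec φ)} := by
    ext g
    simp only [List.map_map, List.mem_map, Function.comp, hφ.lin, Set.mem_ofPred_eq,
      Set.mem_image, exists_exists_and_eq_and]
    rfl
  rw [e, Submodule.span_image, Submodule.mem_map]
  rfl

theorem sa_solve {R M : Type} [Field R] [CommRing M] [Algebra R M] {φ : α → R} {X Y : M}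
    {ℓ : ℕ} (hφ : FHom o φ) (hI : Indep R X Y ℓ) (us Gs : List (List (List α))) (c : ℕ → R) :
    c ∈ Submodule.span R {w | w ∈ (o.solve ℓ (us.map fun u => [u]) [Gs]).map (vec φ)} ↔
      (∀ t, us.length ≤ t → c t = 0) ∧
        ∑ t ∈ range us.length, c t • sem φ X Y ℓ (us.getD t []) ∈
          Submodule.span R {g | g ∈ Gs.map (sem φ X Y ℓ)} := by
  have e : ∀ t, ((us.map fun u => [u]).getD t []).getD 0 [] = us.getD t [] := by
    intro t
    simp only [List.getD_eq_getElem?_getD, List.getElem?_map]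
    cases us[t]? <;> rfl
  rw [(hφ.solve hI _ _).2.2.2 c]
  simp only [List.length_map, List.length_singleton, Nat.lt_one_iff, forall_eq, e,
    List.getD_cons_zero]

theorem sa_md_mon (T : Curve d L) (i : Fin d.n) (a : ℕ) {b : ℕ} (hb : b < d.ℓ) :
    T.Md i 0 (T.ξ i ^ a * T.η i ^ b) :=
  ((T.mem_span_chart i _ _).1 (Submodule.subset_span ⟨a, b, hb, le_rfl, rfl⟩)).1

omit [IsAlgClosed 𝕜] in
theorem sa_num (d : Dat 𝕜) : d.n ≤ wW d.n ∧
    d.ℓ * (3 * (d.n * d.n)) + (d.ℓ - 1) * (d.n - 1) ≤ wW d.n := by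
  have h1 := d.ℓ_le_n
  have h2 := d.two_le
  have h3 : d.n ≤ d.n * d.n := Nat.le_mul_self _
  have h4 : d.n * d.n ≤ d.n * d.n * d.n := Nat.le_mul_of_pos_right _ (by omega)
  have h5 : (d.ℓ - 1) * (d.n - 1) ≤ d.n * d.n := Nat.mul_le_mul (by omega) (by omega)
  have h6 : d.ℓ * (3 * (d.n * d.n)) ≤ d.n * (3 * (d.n * d.n)) := Nat.mul_le_mul_right _ h1
  unfold wW
  constructor
  · omega
  · nlinarith

omit [IsAlgClosed 𝕜] in
theorem sa_dle_aeval (T : Curve d L) (i : Fin d.n) {q : 𝕜[X]} {N : ℕ} (hq : q.natDegree ≤ N) :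
    T.Dle i (aeval (T.ξ i) q) (d.ℓ * N : ℕ) := by
  by_cases h0 : q = 0
  · subst h0
    exact Or.inl (map_zero _)
  refine Or.inr ?_
  rw [(T.aeval_ξ_ne i h0).2]
  have := Nat.mul_le_mul_left d.ℓ hq
  push_cast
  linarith [(Int.ofNat_le.2 this : ((d.ℓ * q.natDegree : ℕ) : ℤ) ≤ (d.ℓ * N : ℕ)),
    Nat.cast_mul (α := ℤ) d.ℓ N, Nat.cast_mul (α := ℤ) d.ℓ q.natDegree]

theorem monT_spec (hφ : FHom o φ) (T : Curve d L) (i : Fin d.n) (W : ℕ) :
    T.Spans i ((o.monT d.ℓ d.n W).map (sem φ (T.ξ i) (T.η i) d.ℓ)) 0 W := by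
  intro z
  have hl : 0 < d.ℓ := d.prime.pos
  rw [← T.mem_span_chart i W z]
  have e : {g | g ∈ (o.monT d.ℓ d.n W).map (sem φ (T.ξ i) (T.η i) d.ℓ)}
      = {w | ∃ a b : ℕ, b < d.ℓ ∧ d.ℓ * a + (d.n - 1) * b ≤ W ∧ w = T.ξ i ^ a * T.η i ^ b} := by
    have h1 : ∀ a b : ℕ, d.ℓ * a + (d.n - 1) * b ≤ W → a < W + 1 := fun a b h => by
      have : a ≤ d.ℓ * a := Nat.le_mul_of_pos_left _ hl
      omega
    ext g
    simp only [Ops.monT, List.map_map, List.mem_map, Function.comp, Set.mem_ofPred_eq,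
      mem_mons hl]
    constructor
    · rintro ⟨q, ⟨h2, h3⟩, rfl⟩
      exact ⟨q.1, q.2, h2, h3, hφ.tmon (h1 _ _ h3) h2⟩
    · rintro ⟨a, b, h2, h3, rfl⟩
      exact ⟨(a, b), ⟨h2, h3⟩, hφ.tmon (h1 _ _ h3) h2⟩
  rw [e]

theorem close_spec (hφ : FHom o φ) (hF : tp φ F = d.F i) (h0 : ∀ P, 0 ≤ D P)
    (hG : T.Gen i (G.map (sem φ (T.ξ i) (T.η i) d.ℓ)) D)
    (hd : ∀ g ∈ G, T.Dle i (sem φ (T.ξ i) (T.η i) d.ℓ g) (2 * wW d.n : ℕ)) :
    T.Spans i ((o.close d.ℓ d.n F G).map (sem φ (T.ξ i) (T.η i) d.ℓ)) D (wW d.n) := by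
  intro z
  have hY : T.η i ^ d.ℓ = aeval (T.ξ i) (tp φ F) := by rw [hF, T.η_pow]
  have e : {g | g ∈ ((List.range (5 * wW d.n + 1)).flatMap fun a => (List.range d.ℓ).flatMap
        fun b => G.map (o.tmul d.ℓ F (o.tmon d.ℓ (5 * wW d.n + 1) (a, b)))).map
        (sem φ (T.ξ i) (T.η i) d.ℓ)}
      = {w | ∃ a ≤ 5 * wW d.n, ∃ b < d.ℓ, ∃ g ∈ G.map (sem φ (T.ξ i) (T.η i) d.ℓ),
        w = T.ξ i ^ a * T.η i ^ b * g} := by
    ext w
    simp only [List.mem_map, List.mem_flatMap, List.mem_range, Set.mem_ofPred_eq]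
    constructor
    · rintro ⟨_, ⟨a, ha, b, hb, g, hg, rfl⟩, rfl⟩
      exact ⟨a, by omega, b, hb, _, ⟨g, hg, rfl⟩, by rw [hφ.tmul hY, hφ.tmon ha hb]⟩
    · rintro ⟨a, ha, b, hb, _, ⟨g, hg, rfl⟩, rfl⟩
      exact ⟨_, ⟨a, by omega, b, hb, g, hg, rfl⟩, by
        rw [hφ.tmul hY, hφ.tmon (by omega : a < 5 * wW d.n + 1) hb]⟩
  unfold Ops.close
  rw [sa_span_lin hφ.toHom]
  simp only [sa_solve hφ (T.indep_ξη i), e]
  constructor
  · rintro ⟨c, ⟨-, h2⟩, rfl⟩
    refine ⟨fun P hP => Curve.ge_span ?_ h2, ((monT_spec hφ T i _ _).1 ?_).2⟩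
    · rintro _ ⟨a, -, b, hb, g, hg, rfl⟩
      simpa using (sa_md_mon T i a hb P hP).mul (hG.1 g hg P hP)
    · refine Submodule.sum_mem _ fun t ht => Submodule.smul_mem _ _ (Submodule.subset_span ?_)
      rw [List.getD_eq_getElem _ _ (mem_range.1 ht)]
      exact List.mem_map_of_mem (List.getElem_mem _)
  · rintro ⟨h1, h2⟩
    have h3 := (monT_spec hφ T i _ z).2 ⟨fun P hP => (h1 P hP).mono (h0 P), h2⟩
    obtain ⟨c, hc, hz⟩ := exists_coef (R := 𝕜) (o.monT d.ℓ d.n (wW d.n)) []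
      (sem φ (T.ξ i) (T.η i) d.ℓ) (fun _ => True) z (by
        refine Submodule.span_mono ?_ h3
        intro w hw
        obtain ⟨q, hq, rfl⟩ := List.mem_map.1 hw
        exact ⟨q, hq, trivial, rfl⟩)
    refine ⟨c, ⟨fun t ht => ?_, ?_⟩, hz.symm⟩
    · by_contra h4
      exact absurd (hc t h4).1 (by omega)
    · rw [← hz]
      refine hG.span h0 (sa_num d).1 (fun g hg => ?_) h1 h2
      obtain ⟨g, hg', rfl⟩ := List.mem_map.1 hg
      exact hd g hg'

theorem mulI_spec (hφ : FHom o φ) (hF : tp φ F = d.F i) (h0 : ∀ P, 0 ≤ D P) (h0' : ∀ P, 0 ≤ D' P)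
    (hG : T.Gen i (G.map (sem φ (T.ξ i) (T.η i) d.ℓ)) D)
    (hG' : T.Gen i (G'.map (sem φ (T.ξ i) (T.η i) d.ℓ)) D')
    (hd : ∀ g ∈ G, T.Dle i (sem φ (T.ξ i) (T.η i) d.ℓ g) (wW d.n))
    (hd' : ∀ g ∈ G', T.Dle i (sem φ (T.ξ i) (T.η i) d.ℓ g) (wW d.n)) :
    T.Spans i ((o.mulI d.ℓ d.n F G G').map (sem φ (T.ξ i) (T.η i) d.ℓ)) (D + D') (wW d.n) := by
  have hY : T.η i ^ d.ℓ = aeval (T.ξ i) (tp φ F) := by rw [hF, T.η_pow]
  refine close_spec hφ hF (fun P => add_nonneg (h0 P) (h0' P)) ?_ fun g hg => ?_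
  · have e : (G.flatMap fun g => G'.map (o.tmul d.ℓ F g)).map (sem φ (T.ξ i) (T.η i) d.ℓ)
        = (G.map (sem φ (T.ξ i) (T.η i) d.ℓ)).flatMap
          fun g => (G'.map (sem φ (T.ξ i) (T.η i) d.ℓ)).map fun g' => g * g' := by
      simp only [List.map_flatMap, List.flatMap_map, List.map_map, Function.comp_def, hφ.tmul hY]
    rw [e]
    exact hG.mul hG'
  · obtain ⟨a, ha, hg⟩ := List.mem_flatMap.1 hg
    obtain ⟨b, hb, rfl⟩ := List.mem_map.1 hg
    rw [hφ.tmul hY]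
    exact ((hd a ha).mul (hd' b hb)).mono (le_of_eq (by push_cast; ring))

theorem parts_spec (hφ : FHom o φ) (hF : tp φ F = d.F i) (hζ : φ ζ = d.ζ) (hD : d.Eff D)
    (hh : T.Nrm i D h) (hδ : h.natDegree ≤ 3 * (d.n * d.n))
    (hG : T.Gen i (G.map (sem φ (T.ξ i) (T.η i) d.ℓ)) D)
    (hd : ∀ g ∈ G, T.Dle i (sem φ (T.ξ i) (T.η i) d.ℓ g) (wW d.n)) {j : ℕ} (hj : j ≤ d.ℓ) :
    T.Spans i (((o.parts d.ℓ d.n F ζ G).getD j []).map (sem φ (T.ξ i) (T.η i) d.ℓ))
      (d.part D j) (wW d.n) := by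
  have key : ∀ k ≤ d.ℓ, ∀ Lk, Lk = (List.range k).foldl (fun L j =>
      L ++ [o.mulI d.ℓ d.n F (L.getLastD []) (G.map (o.ttau d.ℓ (o.pow ζ j)))])
        [o.monT d.ℓ d.n (wW d.n)] → Lk.length = k + 1 ∧ ∀ j ≤ k,
      T.Spans i ((Lk.getD j []).map (sem φ (T.ξ i) (T.η i) d.ℓ)) (d.part D j) (wW d.n) := by
    intro k
    induction k with
    | zero =>
      rintro - _ rfl
      refine ⟨rfl, fun j hj => ?_⟩
      obtain rfl : j = 0 := by omega
      exact monT_spec hφ T i _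
    | succ k ih =>
      rintro hk _ rfl
      obtain ⟨h1, h2⟩ := ih (by omega) _ rfl
      rw [List.range_succ, List.foldl_append, List.foldl_cons, List.foldl_nil]
      generalize List.foldl _ _ (List.range k) = Lk at h1 h2 ⊢
      refine ⟨by simp [h1], fun j hj => ?_⟩
      rcases Nat.lt_or_ge j (k + 1) with h3 | h3
      · rw [List.getD_append _ _ _ _ (by omega)]
        exact h2 j (by omega)
      obtain rfl : j = k + 1 := by omega
      rw [List.getD_append_right _ _ _ _ h1.le, h1, Nat.sub_self, List.getD_cons_zero]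
      have e1 : Lk.getLastD [] = Lk.getD k [] := by
        rw [List.getLastD_eq_getLast?, List.getLast?_eq_getElem?, h1,
          List.getD_eq_getElem?_getD]
        rfl
      have e2 : d.part D (k + 1) = d.part D k + fun P => D (d.act^[k] P) := by
        funext P
        exact sum_range_succ _ _
      have e3 : ∀ g, sem φ (T.ξ i) (T.η i) d.ℓ (o.ttau d.ℓ (o.pow ζ k) g)
          = (T.τ ^ k) (sem φ (T.ξ i) (T.η i) d.ℓ g) := fun g =>
        hφ.ttau (T.τ ^ k).toAlgHom _ (T.τ_pow_fixed (T.τξ i) k)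
          (by rw [hφ.pow, hζ]; exact T.τ_pow_eigen (T.τη i) k) g
      rw [e1, e2]
      refine mulI_spec hφ hF (hD.part k).2.1 (fun P => hD.2.1 _) ?_ ?_ (fun g hg => ?_)
        fun g hg => ?_
      · refine Curve.gen_of_spans (hD.part k).1 (T.aeval_ξ_ne i hh.1.ne_zero).1
          (hh.md hD.2.1 (by omega)) (sa_dle_aeval T i hδ) (h2 k le_rfl) ?_
        exact_mod_cast (sa_num d).2
      · have := hG.tau k
        rw [List.map_map] at this ⊢
        simpa only [Function.comp_def, e3] using this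
      · exact ((h2 k le_rfl _).1 (Submodule.subset_span (List.mem_map_of_mem hg))).2
      · obtain ⟨g, hg', rfl⟩ := List.mem_map.1 hg
        rw [e3, Curve.Dle, T.ge_τ_pow, d.act_iter_ram]
        exact hd g hg'
  exact (key _ le_rfl _ rfl).2 j hj

theorem hpol_spec (hφ : FHom o φ) (hF : tp φ F = d.F i) (hζ : φ ζ = d.ζ) (hD : d.Eff D)
    (hh : T.Nrm i D h) (hδ : h.natDegree ≤ 3 * (d.n * d.n))
    (hG : T.Gen i (G.map (sem φ (T.ξ i) (T.η i) d.ℓ)) D)
    (hd : ∀ g ∈ G, T.Dle i (sem φ (T.ξ i) (T.η i) d.ℓ g) (wW d.n)) :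
    tp φ (o.hpol d.ℓ d.n F ζ G) = h ∧
      (o.diag (o.hrows d.ℓ d.n F ζ G)).length = 3 * (d.n * d.n) + 1 ∧
      ∀ t ≤ 3 * (d.n * d.n), vec φ (o.diag (o.hrows d.ℓ d.n F ζ G)) t =
        if h.natDegree ≤ 3 * (d.n * d.n) - t then 1 else 0 := by
  obtain ⟨M, hM⟩ : ∃ M, M = 3 * (d.n * d.n) := ⟨_, rfl⟩
  have hsp := parts_spec hφ hF hζ hD hh hδ hG hd le_rfl
  have e0 : o.hrows d.ℓ d.n F ζ G = o.solve d.ℓ (((List.range (M + 1)).map fun t =>
      o.tmon d.ℓ (M + 1) (M - t, 0)).map fun u => [u]) [(o.parts d.ℓ d.n F ζ G).getD d.ℓ []] := by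
    rw [List.map_map, hM]
    rfl
  obtain ⟨pc, hpc⟩ : ∃ pc : (ℕ → 𝕜) → 𝕜[X],
      ∀ c, pc c = ∑ t ∈ range (M + 1), C (c t) * X ^ (M - t) := ⟨_, fun _ => rfl⟩
  have hco : ∀ c j, (pc c).coeff j = if j ≤ M then c (M - j) else 0 := by
    intro c j
    rw [hpc, finsetSum_coeff]
    simp only [coeff_C_mul, coeff_X_pow, mul_ite, mul_one, mul_zero]
    split_ifs with h1
    · rw [sum_eq_single (M - j) (fun t ht h2 => if_neg (by have := mem_range.1 ht; omega))
        (fun h2 => absurd (mem_range.2 (by omega)) h2), if_pos (by omega)]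
    · exact sum_eq_zero fun t _ => if_neg (by omega)
  have hdeg : ∀ (c : ℕ → 𝕜) t, (∀ j < t, c j = 0) → (pc c).natDegree ≤ M - t := by
    intro c t hc
    refine natDegree_le_iff_coeff_eq_zero.2 fun j hj => ?_
    rw [hco]
    split_ifs with h1
    · exact hc _ (by omega)
    · rfl
  have hmem : ∀ c : ℕ → 𝕜,
      c ∈ Submodule.span 𝕜 {w | w ∈ (o.hrows d.ℓ d.n F ζ G).map (vec φ)} ↔
        (∀ t, M + 1 ≤ t → c t = 0) ∧ h ∣ pc c := by
    intro c
    rw [e0, sa_solve hφ (T.indep_ξη i), List.length_map, List.length_range, hsp,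
      ← hh.dvd_iff]
    have e : ∑ t ∈ range (M + 1), c t • sem φ (T.ξ i) (T.η i) d.ℓ
        (((List.range (M + 1)).map fun t => o.tmon d.ℓ (M + 1) (M - t, 0)).getD t [])
        = aeval (T.ξ i) (pc c) := by
      rw [hpc, map_sum]
      refine sum_congr rfl fun t ht => ?_
      rw [List.getD_eq_getElem _ _ (by simpa using ht), List.getElem_map, List.getElem_range,
        hφ.tmon (by simp only; omega) d.prime.pos]
      simp [Algebra.smul_def]
    rw [e]
    refine and_congr_right fun _ => and_iff_left ?_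
    refine (sa_dle_aeval T i (hdeg c 0 (by simp))).mono (neg_le_neg ?_)
    have := (sa_num d).2
    rw [← hM] at this
    exact_mod_cast (by simp only [Nat.sub_zero]; omega : d.ℓ * (M - 0) ≤ wW d.n)
  have hvec : ∀ q : 𝕜[X], q.natDegree ≤ M → h ∣ q →
      (fun t => if t ≤ M then q.coeff (M - t) else 0) ∈
        Submodule.span 𝕜 {w | w ∈ (o.hrows d.ℓ d.n F ζ G).map (vec φ)} := by
    intro q hq hdv
    rw [hmem]
    refine ⟨fun t ht => if_neg (by omega), hdv.trans (dvd_of_eq ?_)⟩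
    ext j
    rw [hco]
    split_ifs with h1 h2
    · congr 1
      omega
    · omega
    · exact coeff_eq_zero_of_natDegree_lt (by omega)
  obtain ⟨hl, hw, he, -⟩ := hφ.solve (T.indep_ξη i) (((List.range (M + 1)).map fun t =>
      o.tmon d.ℓ (M + 1) (M - t, 0)).map fun u => [u]) [(o.parts d.ℓ d.n F ζ G).getD d.ℓ []]
  rw [← e0, List.length_map, List.length_map, List.length_range] at hl hw he
  rw [← hM] at hδ ⊢
  rw [← hl] at hw he
  refine ⟨?_, by rw [length_diag, hl], fun t ht => ?_⟩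
  · obtain ⟨a1, a2⟩ := hφ.last _ hw he
    obtain ⟨k, hk, b1, b2, j, hj, b3⟩ := a2 _ (hvec h hδ dvd_rfl) fun h0 => by
      have := congrFun h0 (M - h.natDegree)
      simp only [Nat.sub_le, if_true, Nat.sub_sub_self hδ, Pi.zero_apply] at this
      exact one_ne_zero (hh.1.coeff_natDegree.symm.trans this)
    have e1 : tp φ (o.hpol d.ℓ d.n F ζ G) = pc (vec φ (o.last (o.hrows d.ℓ d.n F ζ G))) := by
      rw [Ops.hpol, hφ.prev_eq, hpc, ← hM]
      rfl
    rw [e1]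
    have b4 : M - j ≤ h.natDegree := by
      refine le_natDegree_of_ne_zero fun h0 => b3 ?_
      simp only [h0, ite_self]
    refine eq_of_monic_of_dvd_of_natDegree_le hh.1
      (monic_of_natDegree_le_of_coeff_eq_one (M - k) (hdeg _ k b2) ?_) ((hmem _).1 a1).2
      ((hdeg _ k b2).trans (by omega))
    rw [hco, if_pos (Nat.sub_le _ _), Nat.sub_sub_self (by omega), b1]
  · rcases hφ.diag _ hw he t (by omega) with ⟨a1, c, hc, a2, a3⟩ | ⟨a1, a2⟩
    · rw [a1, if_pos]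
      refine (natDegree_le_of_dvd ((hmem c).1 hc).2 fun h0 => a2 ?_).trans (hdeg c t a3)
      have := hco c (M - t)
      rwa [h0, if_pos (Nat.sub_le _ _), Nat.sub_sub_self ht, coeff_zero, eq_comm] at this
    · rw [a1, if_neg]
      intro h1
      have b1 : (X ^ (M - t - h.natDegree) * h).Monic := (monic_X_pow _).mul hh.1
      have b2 : (X ^ (M - t - h.natDegree) * h).natDegree = M - t := by
        rw [(monic_X_pow _).natDegree_mul hh.1, natDegree_X_pow]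
        omega
      refine a2 ⟨_, hvec _ (b2.trans_le (Nat.sub_le _ _)) (dvd_mul_left _ _), ?_, fun j hj => ?_⟩
      · simp only [if_pos ht]
        have b3 := b1.coeff_natDegree
        rw [b2] at b3
        rw [b3]
        exact one_ne_zero
      · simp only [if_pos (by omega : j ≤ M)]
        exact coeff_eq_zero_of_natDegree_lt (by omega)

end Vale.Agent.P319
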