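import Vale.Agent.P319.StepA
import Vale.Agent.P319.RootSpec
import Vale.Agent.P319.Rank

/-! The roots and the shortest vector. -/

namespace Vale.Agent.P319

open Polynomial Finset

theorem sb_getD_range {β : Type} (k : ℕ) (g : ℕ → β) (x : β) (j : ℕ) :
    ((List.range k).map g).getD j x = if j < k then g j else x := by
  split_ifs with h
  · simp [List.getD_eq_getElem?_getD, h]
  · simp [List.getD_eq_getElem?_getD, h]

theorem sb_getD_map {β γ : Type} (l : List γ) (g : γ → β) (x : β) (y : γ) {t : ℕ}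
    (ht : t < l.length) : (l.map g).getD t x = g (l.getD t y) := by
  simp [List.getD_eq_getElem?_getD, ht]

theorem sb_getD_mem {β : Type} (l : List β) (x : β) {t : ℕ} (ht : t < l.length) :
    l.getD t x ∈ l := by
  rw [List.getD_eq_getElem _ _ ht]
  exact List.getElem_mem ht

/-- The weight by which the unknowns are sorted. -/
def sbKey (ℓ n δ : ℕ) (t : ℕ × ℕ × ℕ) : ℕ := ℓ * t.2.1 + (n - 1) * t.2.2 + (ℓ - t.1) * δ

theorem sb_bound {ℓ n δ : ℕ} (h2 : ℓ ≤ n) (hδ : δ ≤ 3 * (n * n)) :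
    ℓ * δ + (ℓ - 1) * (n - 1) ≤ wW n ∧ ℓ * (ℓ * (n - 1)) ≤ wW n := by
  have a1 : ℓ * δ ≤ n * (3 * (n * n)) := Nat.mul_le_mul h2 hδ
  have a2 : (ℓ - 1) * (n - 1) ≤ n * (n - 1) := Nat.mul_le_mul_right _ (by omega)
  have a3 : ℓ * (ℓ * (n - 1)) ≤ n * (n * n) :=
    Nat.mul_le_mul h2 (Nat.mul_le_mul h2 (Nat.sub_le n 1))
  have a4 : n * (n - 1) ≤ n * (n * n) :=
    Nat.mul_le_mul_left _ ((Nat.sub_le n 1).trans (Nat.le_mul_self n))
  unfold wW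
  constructor <;> nlinarith

theorem sb_mem_lidx {ℓ n δ : ℕ} (h1 : 0 < ℓ) (h2 : ℓ ≤ n) (hδ : δ ≤ 3 * (n * n))
    (t : ℕ × ℕ × ℕ) : t ∈ lidx ℓ n δ ↔ t.1 < ℓ ∧ t.2.2 < ℓ ∧
      ℓ * t.2.1 + (n - 1) * t.2.2 ≤ t.1 * δ + (ℓ - 1) * (n - 1) := by
  simp only [lidx, List.mem_flatMap, List.mem_reverse, List.mem_range, List.mem_map,
    List.mem_filter, decide_eq_true_eq, mem_mons h1]
  constructor
  · rintro ⟨k, -, j, hj, q, ⟨⟨hq, -⟩, -, h⟩, rfl⟩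
    exact ⟨hj, hq, h⟩
  · rintro ⟨hj, hq, h⟩
    have a1 := (sb_bound h2 hδ).1
    have a2 : t.1 * δ + (ℓ - t.1) * δ = ℓ * δ := by rw [← add_mul, Nat.add_sub_cancel' hj.le]
    exact ⟨_, by omega, t.1, hj, t.2, ⟨⟨hq, by omega⟩, rfl, h⟩, rfl⟩

theorem sb_sorted (ℓ n δ : ℕ) :
    (lidx ℓ n δ).Pairwise fun t t' => sbKey ℓ n δ t' ≤ sbKey ℓ n δ t ∧ t ≠ t' := by
  have key : ∀ k, ∀ t ∈ (List.range ℓ).flatMap fun j =>
      ((mons ℓ (n - 1) ℓ (wW n)).filter fun q =>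
        decide (ℓ * q.1 + (n - 1) * q.2 + (ℓ - j) * δ = k ∧
          ℓ * q.1 + (n - 1) * q.2 ≤ j * δ + (ℓ - 1) * (n - 1))).map fun q => (j, q),
      sbKey ℓ n δ t = k := by
    intro k t ht
    simp only [List.mem_flatMap, List.mem_map, List.mem_filter, decide_eq_true_eq] at ht
    obtain ⟨j, -, q, ⟨-, h, -⟩, rfl⟩ := ht
    exact h
  rw [lidx, List.pairwise_flatMap]
  refine ⟨fun k _ => ?_, ?_⟩
  · refine List.Pairwise.imp_of_mem (R := (· ≠ ·))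
      (fun ha hb h => ⟨by rw [key k _ ha, key k _ hb], h⟩) ?_
    rw [List.pairwise_flatMap]
    refine ⟨fun j _ => ?_, ?_⟩
    · exact ((nodup_mons _ _ _ _).filter _).map fun _ _ h => (Prod.ext_iff.1 h).2
    · refine List.nodup_range.imp fun {a b} hab x hx y hy h => hab ?_
      obtain ⟨q, -, rfl⟩ := List.mem_map.1 hx
      obtain ⟨q', -, rfl⟩ := List.mem_map.1 hy
      exact (Prod.ext_iff.1 h).1
  · rw [List.pairwise_reverse]
    refine List.pairwise_lt_range.imp fun {a b} hab x hx y hy => ?_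
    have h1 := key _ _ hx
    have h2 := key _ _ hy
    refine ⟨by omega, fun h => ?_⟩
    rw [h] at h1
    omega

theorem sb_sorted' (ℓ n δ : ℕ) {t t' : ℕ} (h : t < t') (ht : t' < (lidx ℓ n δ).length) :
    sbKey ℓ n δ ((lidx ℓ n δ).getD t' (0, 0, 0)) ≤ sbKey ℓ n δ ((lidx ℓ n δ).getD t (0, 0, 0)) ∧
      (lidx ℓ n δ).getD t (0, 0, 0) ≠ (lidx ℓ n δ).getD t' (0, 0, 0) := by
  rw [List.getD_eq_getElem _ _ ht, List.getD_eq_getElem _ _ (h.trans ht)]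
  exact List.pairwise_iff_getElem.1 (sb_sorted ℓ n δ) t t' _ _ h

theorem sb_indep {R L : Type} [CommRing R] [CommRing L] [Algebra R L] {X Y : L} {ℓ : ℕ}
    (hI : Indep R X Y ℓ) (s : Finset ℕ) (e : ℕ → ℕ × ℕ) (he : ∀ t ∈ s, (e t).2 < ℓ)
    (hinj : ∀ t ∈ s, ∀ t' ∈ s, e t = e t' → t = t') (c : ℕ → R)
    (h : ∑ t ∈ s, c t • (X ^ (e t).1 * Y ^ (e t).2) = 0) : ∀ t ∈ s, c t = 0 := by
  intro t ht
  have h1 := hI (fun b => ∑ t ∈ s with (e t).2 = b, monomial (e t).1 (c t)) (by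
    rw [← h, ← sum_fiberwise_of_maps_to (s := s) (t := range ℓ) (g := fun t => (e t).2)
      fun t ht => mem_range.2 (he t ht)]
    refine sum_congr rfl fun b _ => ?_
    rw [map_sum, sum_mul]
    refine sum_congr rfl fun t ht => ?_
    rw [aeval_monomial, (mem_filter.1 ht).2, Algebra.smul_def, mul_assoc]) _ (he t ht)
  have h2 := congrArg (fun q => coeff q (e t).1) h1
  simp only [finsetSum_coeff, coeff_monomial, coeff_zero] at h2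
  rw [sum_eq_single t] at h2
  · simpa using h2
  · intro t' ht' hne
    obtain ⟨a, b⟩ := mem_filter.1 ht'
    exact if_neg fun h => hne (hinj _ a _ ht (Prod.ext h b))
  · intro h
    exact (h (mem_filter.2 ⟨ht, rfl⟩)).elim

variable {𝕜 L α : Type} [Field 𝕜] [IsAlgClosed 𝕜] [Field L] [Algebra 𝕜 L] {d : Dat 𝕜}
  {T : Curve d L} {i : Fin d.n} {o : Ops α} {φ : α → 𝕜} {F : List α} {ζ : α}
  {D : d.Pl → ℤ} {h : 𝕜[X]}

omit [IsAlgClosed 𝕜] in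
theorem sroot_spec {Q : ℕ} (hφ : KHom o φ Q) (hF : tp φ F = d.F i) (hl : F.length = d.n)
    (hQ : d.ℓ ∣ Q - 1) {w : α} (h0 : φ w ≠ 0) (h1 : φ w ^ ((Q - 1) / d.ℓ) ≠ 1)
    (hr : ∀ j, d.rt i j ^ Q = d.rt i j) (a : List α)
    (ha : ∀ j, j ≠ i → (tp φ a).eval (d.rt i j) ≠ 0)
    (hz : ∀ j j', j ≠ i → j' ≠ i → ∃ z : 𝕜, z ≠ 0 ∧ z ^ Q = z ∧
      (tp φ a).eval (d.rt i j) = z ^ d.ℓ * (tp φ a).eval (d.rt i j')) :
    (o.sroot d.ℓ Q F w a).length ≤ d.n ∧ ∃ κ : 𝕜, κ ≠ 0 ∧ ∀ j, j ≠ i →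
      (tp φ (o.sroot d.ℓ Q F w a)).eval (d.rt i j) ^ d.ℓ * (κ * (tp φ a).eval (d.rt i j)) = 1 := by
  have hn : 2 ≤ d.n := d.two_le.trans d.ℓ_le_n
  set m := o.psm (o.inv (F.getLastD o.zero)) F with hm
  have hml : m.length = d.n := by rw [hm, Ops.psm, List.length_map, hl]
  have htp : tp φ m = C (φ (F.getLastD o.zero))⁻¹ * d.F i := by
    rw [hm, hφ.toHom.psm, hφ.inv, hF]
  have hlast : φ (F.getLastD o.zero) = (d.F i).leadingCoeff := by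
    rw [leadingCoeff, (d.F_natDegree i).2, ← hF, coeff_tp, hφ.toHom.vec_eq, ← hl,
      List.getLastD_eq_getLast?, List.getLast?_eq_getElem?, List.getD_eq_getElem?_getD]
  have hmon : IsMon φ m := by
    refine ⟨fun h => ?_, ?_⟩
    · rw [h, List.length_nil] at hml
      omega
    · rw [← coeff_tp, htp, coeff_C_mul, hml, ← (d.F_natDegree i).2, hlast]
      exact inv_mul_cancel₀ (leadingCoeff_ne_zero.2 (d.F_natDegree i).1)
  refine ⟨(length_root_le m Q d.ℓ _ _).trans (by omega), ?_⟩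
  by_cases hex : ∃ j, j ≠ i
  swap
  · exact ⟨1, one_ne_zero, fun j hj => absurd ⟨j, hj⟩ hex⟩
  obtain ⟨j0, hj0⟩ := hex
  refine ⟨(tw (φ w) ((Q - 1) / d.ℓ) (((tp φ a).eval (d.rt i j0))⁻¹ ^ ((Q - 1) / d.ℓ)))⁻¹,
    inv_ne_zero (tw_ne_zero h0 _ _), fun j hj => ?_⟩
  have hK := hφ.quot hmon (x := d.rt i j) (by rw [htp, eval_mul, d.F_rt hj, mul_zero]) (hr j)
  have hw : eval (d.rt i j) (tp φ [w]) = φ w := by rw [tp_single, eval_C]
  have hi := hK.inv a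
  have hroot := hK.root d.prime hQ (w := [w]) (by rwa [hw]) (by rwa [hw])
    (a := (o.quot m Q).inv a) (by rw [hi]; exact inv_ne_zero (ha j hj))
  obtain ⟨z, hz0, hz1, hz2⟩ := hz j j0 hj hj0
  have hz3 : (z ^ d.ℓ) ^ ((Q - 1) / d.ℓ) = 1 := by
    rw [← pow_mul, Nat.mul_div_cancel' hQ]
    apply mul_right_cancel₀ hz0
    rw [← pow_succ, Nat.sub_add_cancel (by have := hφ.two; omega), hz1, one_mul]
  have e : ((tp φ a).eval (d.rt i j))⁻¹ ^ ((Q - 1) / d.ℓ)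
      = ((tp φ a).eval (d.rt i j0))⁻¹ ^ ((Q - 1) / d.ℓ) := by
    rw [hz2, inv_pow, mul_pow, hz3, one_mul, inv_pow]
  rw [hi, hw, e] at hroot
  rw [Ops.sroot, ← hm, hroot]
  have b1 := tw_ne_zero h0 ((Q - 1) / d.ℓ) (((tp φ a).eval (d.rt i j0))⁻¹ ^ ((Q - 1) / d.ℓ))
  rw [mul_assoc, mul_inv_cancel_left₀ b1, inv_mul_cancel₀ (ha j hj)]

/-- The lattice vector with given coefficients. -/
noncomputable def sbPhi (T : Curve d L) (i : Fin d.n) (δ : ℕ) (c : ℕ → 𝕜) (j : ℕ) : L :=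
  ∑ t ∈ range (lidx d.ℓ d.n δ).length, c t •
    (if j = ((lidx d.ℓ d.n δ).getD t (0, 0, 0)).1 then
      T.ξ i ^ ((lidx d.ℓ d.n δ).getD t (0, 0, 0)).2.1 *
        T.η i ^ ((lidx d.ℓ d.n δ).getD t (0, 0, 0)).2.2 else 0)

omit [IsAlgClosed 𝕜] in
theorem sb_idx {δ : ℕ} (hδ : δ ≤ 3 * (d.n * d.n)) {t : ℕ} (ht : t < (lidx d.ℓ d.n δ).length) :
    ((lidx d.ℓ d.n δ).getD t (0, 0, 0)).1 < d.ℓ ∧ ((lidx d.ℓ d.n δ).getD t (0, 0, 0)).2.2 < d.ℓ ∧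
      ((lidx d.ℓ d.n δ).getD t (0, 0, 0)).2.1 < wW d.n + 1 ∧
      sbKey d.ℓ d.n δ ((lidx d.ℓ d.n δ).getD t (0, 0, 0)) ≤ (d.ℓ - 1) * (d.n - 1) + d.ℓ * δ := by
  obtain ⟨a1, a2, a3⟩ := (sb_mem_lidx d.prime.pos d.ℓ_le_n hδ _).1 (sb_getD_mem _ (0, 0, 0) ht)
  generalize (lidx d.ℓ d.n δ).getD t (0, 0, 0) = q at a1 a2 a3 ⊢
  have b1 := (sb_bound d.ℓ_le_n hδ).1
  have b2 : q.1 * δ + (d.ℓ - q.1) * δ = d.ℓ * δ := by rw [← add_mul, Nat.add_sub_cancel' a1.le]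
  have b3 : q.2.1 ≤ d.ℓ * q.2.1 := Nat.le_mul_of_pos_left _ d.prime.pos
  unfold sbKey
  exact ⟨a1, a2, by omega, by omega⟩

omit [IsAlgClosed 𝕜] in
theorem sb_dle_mon (T : Curve d L) (i : Fin d.n) (a b : ℕ) :
    T.Dle i (T.ξ i ^ a * T.η i ^ b) (d.ℓ * a + (d.n - 1) * b : ℕ) := by
  refine Or.inr (le_of_eq ?_)
  rw [T.v_mul _ _ _ (pow_ne_zero _ (T.ξ_ne i)) (pow_ne_zero _ (T.η_ne i)),
    Curve.v_pow (T.ξ_ne i), Curve.v_pow (T.η_ne i), T.v_ξ_self, T.v_η_self]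
  push_cast
  ring

omit [IsAlgClosed 𝕜] in
theorem sb_nle {δ : ℕ} {c : ℕ → 𝕜} {ν : ℤ} (hc : ∀ t < (lidx d.ℓ d.n δ).length, c t ≠ 0 →
    (sbKey d.ℓ d.n δ ((lidx d.ℓ d.n δ).getD t (0, 0, 0)) : ℤ) ≤ ν + d.ℓ * δ) :
    T.Nle i δ (sbPhi T i δ c) ν := by
  intro j hj
  refine Curve.ge_sum _ _ fun t ht => ?_
  by_cases h0 : c t = 0
  · rw [h0, zero_smul]
    exact Curve.ge_zero _ _
  refine Curve.Ge.smul ?_ _
  have h1 := hc t (mem_range.1 ht) h0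
  generalize (lidx d.ℓ d.n δ).getD t (0, 0, 0) = q at h1 ⊢
  split_ifs with h2
  · refine Curve.Ge.mono (sb_dle_mon T i _ _) ?_
    rw [sbKey, ← h2, Nat.cast_add _ (_ * δ), Nat.cast_mul _ δ, Nat.cast_sub hj.le] at h1
    linarith
  · exact Curve.ge_zero _ _

omit [IsAlgClosed 𝕜] in
theorem sb_dle {δ : ℕ} (hδ : δ ≤ 3 * (d.n * d.n)) (c : ℕ → 𝕜) {j : ℕ} (hj : j < d.ℓ) :
    T.Dle i (sbPhi T i δ c j) (wW d.n) := by
  have h1 := sb_nle (T := T) (i := i) (c := c) (ν := ((d.ℓ - 1) * (d.n - 1) : ℕ))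
    (fun t ht _ => by exact_mod_cast (sb_idx hδ ht).2.2.2) j hj
  refine Curve.Ge.mono h1 (neg_le_neg ?_)
  have b1 := (sb_bound d.ℓ_le_n hδ).1
  have b2 : j * δ ≤ d.ℓ * δ := Nat.mul_le_mul_right _ hj.le
  exact_mod_cast (by omega : j * δ + (d.ℓ - 1) * (d.n - 1) ≤ wW d.n)

theorem sb_coef {δ : ℕ} (hδ : δ ≤ 3 * (d.n * d.n)) {c' : ℕ → L} {ν : ℤ}
    (hν : ν ≤ ((d.ℓ - 1) * (d.n - 1) : ℕ)) (h0 : ∀ j < d.ℓ, T.Md i 0 (c' j))
    (h1 : T.Nle i δ c' ν) : ∃ c : ℕ → 𝕜, (∀ t, c t ≠ 0 → t < (lidx d.ℓ d.n δ).length ∧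
      (sbKey d.ℓ d.n δ ((lidx d.ℓ d.n δ).getD t (0, 0, 0)) : ℤ) ≤ ν + d.ℓ * δ) ∧
      ∀ j < d.ℓ, sbPhi T i δ c j = c' j := by
  have key : ∀ j, ∃ c : ℕ → 𝕜, (∀ t, c t ≠ 0 → t < (lidx d.ℓ d.n δ).length ∧
      ((lidx d.ℓ d.n δ).getD t (0, 0, 0)).1 = j ∧
      (sbKey d.ℓ d.n δ ((lidx d.ℓ d.n δ).getD t (0, 0, 0)) : ℤ) ≤ ν + d.ℓ * δ) ∧
      (j < d.ℓ → c' j = ∑ t ∈ range (lidx d.ℓ d.n δ).length, c t •
        (T.ξ i ^ ((lidx d.ℓ d.n δ).getD t (0, 0, 0)).2.1 *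
          T.η i ^ ((lidx d.ℓ d.n δ).getD t (0, 0, 0)).2.2)) := by
    intro j
    by_cases hj : j < d.ℓ
    swap
    · exact ⟨0, fun t ht => absurd rfl ht, fun h => absurd h hj⟩
    obtain ⟨c, hc, hc'⟩ := exists_coef (R := 𝕜) (lidx d.ℓ d.n δ) (0, 0, 0)
      (fun q => T.ξ i ^ q.2.1 * T.η i ^ q.2.2)
      (fun q => q.1 = j ∧ (sbKey d.ℓ d.n δ q : ℤ) ≤ ν + d.ℓ * δ) (c' j) (by
        rcases lt_or_ge ((j : ℤ) * δ + ν) 0 with hn | hn
        · rw [T.eq_zero_of_dle i (h0 j hj) hn (h1 j hj)]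
          exact zero_mem _
        obtain ⟨W, hW⟩ := Int.eq_ofNat_of_zero_le hn
        refine Submodule.span_mono ?_
          ((T.mem_span_chart i W (c' j)).2 ⟨h0 j hj, hW ▸ h1 j hj⟩)
        rintro _ ⟨a, b, hb, hab, rfl⟩
        have e1 : ((d.ℓ * a + (d.n - 1) * b : ℕ) : ℤ) ≤ j * δ + ν := by
          rw [hW]
          exact_mod_cast hab
        refine ⟨(j, a, b), (sb_mem_lidx d.prime.pos d.ℓ_le_n hδ _).2 ⟨hj, hb, ?_⟩, ⟨rfl, ?_⟩, rfl⟩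
        · have : ((d.ℓ * a + (d.n - 1) * b : ℕ) : ℤ) ≤ (j * δ + (d.ℓ - 1) * (d.n - 1) : ℕ) := by
            rw [Nat.cast_add (j * δ), Nat.cast_mul j]
            linarith
          exact_mod_cast this
        · rw [sbKey, Nat.cast_add _ (_ * δ), Nat.cast_mul _ δ, Nat.cast_sub hj.le]
          linarith)
    exact ⟨c, hc, fun _ => hc'⟩
  choose c hc hc' using key
  refine ⟨fun t => c ((lidx d.ℓ d.n δ).getD t (0, 0, 0)).1 t,
    fun t ht => ⟨(hc _ t ht).1, (hc _ t ht).2.2⟩, fun j hj => ?_⟩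
  rw [hc' j hj]
  refine sum_congr rfl fun t _ => ?_
  split_ifs with h
  · beta_reduce
    rw [← h]
  · have : c j t = 0 := by
      by_contra h2
      exact h (hc j t h2).2.1.symm
    rw [this, smul_zero, zero_smul]

theorem sb_inj {δ : ℕ} (hδ : δ ≤ 3 * (d.n * d.n)) {c : ℕ → 𝕜}
    (h : ∀ j < d.ℓ, sbPhi T i δ c j = 0) {t : ℕ} (ht : t < (lidx d.ℓ d.n δ).length) : c t = 0 := by
  have h1 := h _ (sb_idx hδ ht).1
  simp only [sbPhi, smul_ite, smul_zero] at h1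
  rw [← sum_filter] at h1
  refine sb_indep (T.indep_ξη i) _ (fun t => ((lidx d.ℓ d.n δ).getD t (0, 0, 0)).2)
    (fun t ht => (sb_idx hδ (mem_range.1 (mem_filter.1 ht).1)).2.1) ?_ c h1 t
    (mem_filter.2 ⟨mem_range.2 ht, rfl⟩)
  intro a ha b hb hab
  obtain ⟨a1, a2⟩ := mem_filter.1 ha
  obtain ⟨b1, b2⟩ := mem_filter.1 hb
  have e := Prod.ext (a2.symm.trans b2) hab
  rcases lt_trichotomy a b with h | h | h
  · exact absurd e (sb_sorted' _ _ _ h (mem_range.1 b1)).2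
  · exact h
  · exact absurd e.symm (sb_sorted' _ _ _ h (mem_range.1 a1)).2

theorem sb_span_eta (hφ : FHom o φ) (hF : tp φ F = d.F i) {k : ℕ} (hk : k < d.ℓ) {W : ℕ} {z : L}
    (hz : T.Dle i z W) :
    z ∈ Submodule.span 𝕜 {g | g ∈ ((o.monT d.ℓ d.n W).map
      (o.tmul d.ℓ F (o.tmon d.ℓ 1 (0, k)))).map (sem φ (T.ξ i) (T.η i) d.ℓ)} ↔
      T.Md i (fun P => k * d.Rm P) z := by
  have hη : T.η i ^ k ≠ 0 := pow_ne_zero _ (T.η_ne i)
  have e : {g | g ∈ ((o.monT d.ℓ d.n W).map (o.tmul d.ℓ F (o.tmon d.ℓ 1 (0, k)))).map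
      (sem φ (T.ξ i) (T.η i) d.ℓ)} = LinearMap.mulLeft 𝕜 (T.η i ^ k) ''
        {g | g ∈ (o.monT d.ℓ d.n W).map (sem φ (T.ξ i) (T.η i) d.ℓ)} := by
    ext g
    simp only [List.map_map, List.mem_map, Function.comp, Set.mem_ofPred_eq, Set.mem_image,
      LinearMap.mulLeft_apply, hφ.toHom.tmul (hF ▸ T.η_pow i),
      hφ.toHom.tmon (A := 1) (q := (0, k)) Nat.one_pos hk, pow_zero, one_mul]
    constructor
    · rintro ⟨a, ha, rfl⟩
      exact ⟨_, ⟨a, ha, rfl⟩, rfl⟩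
    · rintro ⟨_, ⟨a, ha, rfl⟩, rfl⟩
      exact ⟨a, ha, rfl⟩
  rw [e, Submodule.span_image, Submodule.mem_map]
  constructor
  · rintro ⟨y, hy, rfl⟩ P hP
    have h1 := ((monT_spec hφ T i W y).1 hy).1 P hP
    have h2 := (Curve.ge_self (T := T) P (T.η i ^ k)).mul h1
    rw [Curve.v_pow (T.η_ne i), T.v_η hP] at h2
    simpa using h2
  · intro h
    have e2 : z / T.η i ^ k * T.η i ^ k = z := div_mul_cancel₀ _ hη
    refine ⟨z / T.η i ^ k, (monT_spec hφ T i W _).2 ⟨fun P hP => ?_, ?_⟩, by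
      rw [LinearMap.mulLeft_apply, mul_comm, e2]⟩
    · have h1 := Curve.Ge.of_mul hη (e2.symm ▸ h P hP)
      rw [Curve.v_pow (T.η_ne i), T.v_η hP] at h1
      simpa using h1
    · have h1 := Curve.Ge.of_mul (P := d.ram i) (k := -W) hη (e2.symm ▸ hz)
      rw [Curve.v_pow (T.η_ne i), T.v_η_self] at h1
      refine h1.mono ?_
      have : (0 : ℤ) ≤ k * ((d.n - 1 : ℕ) : ℤ) := by positivity
      linarith

omit [IsAlgClosed 𝕜] in
theorem sb_dle_pow {s : List α} (hl : s.length ≤ d.n) {j : ℕ} (hj : j < d.ℓ) :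
    T.Dle i (aeval (T.ξ i) (tp φ s) ^ j) (d.ℓ * (d.ℓ * (d.n - 1)) : ℕ) := by
  have h1 : T.Ge (d.ram i) (aeval (T.ξ i) (tp φ s)) (-(d.ℓ * (d.n - 1) : ℕ)) := by
    by_cases h0 : tp φ s = 0
    · rw [h0, map_zero]
      exact Curve.ge_zero _ _
    · refine Or.inr ?_
      rw [(T.aeval_ξ_ne i h0).2, neg_mul, neg_le_neg_iff]
      exact_mod_cast Nat.mul_le_mul_left _ ((natDegree_tp_le s).trans (by omega))
  refine (h1.pow j).mono ?_
  rw [mul_neg, neg_le_neg_iff]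
  exact_mod_cast Nat.mul_le_mul_right _ hj.le

theorem sb_rows (hφ : FHom o φ) (hF : tp φ F = d.F i) (hζ : φ ζ = d.ζ) {δ : ℕ}
    (hδ : δ ≤ 3 * (d.n * d.n)) {Ds : List (List (List (List α)))}
    (hDs : ∀ j < d.ℓ, T.Spans i ((Ds.getD j []).map (sem φ (T.ξ i) (T.η i) d.ℓ)) (d.part D j)
      (wW d.n)) {s : List α} (hl : s.length ≤ d.n) (c : ℕ → 𝕜) :
    c ∈ Submodule.span 𝕜 {w | w ∈ (o.solve d.ℓ ((lidx d.ℓ d.n δ).map (o.litem d.ℓ d.n F ζ s))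
      (o.lgen d.ℓ d.n F Ds)).map (vec φ)} ↔
      (∀ t, (lidx d.ℓ d.n δ).length ≤ t → c t = 0) ∧ T.Lam i D (tp φ s) (sbPhi T i δ c) := by
  rw [(hφ.solve (T.indep_ξη i) _ _).2.2.2 c, List.length_map]
  refine and_congr_right fun _ => ?_
  have hlen : (o.lgen d.ℓ d.n F Ds).length = d.ℓ + d.ℓ := by simp [Ops.lgen]
  have hY : T.η i ^ d.ℓ = aeval (T.ξ i) (tp φ F) := hF ▸ T.η_pow i
  have a1 : ∀ j < d.ℓ, (∑ t ∈ range (lidx d.ℓ d.n δ).length, c t • sem φ (T.ξ i) (T.η i) d.ℓ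
      ((((lidx d.ℓ d.n δ).map (o.litem d.ℓ d.n F ζ s)).getD t []).getD j []) ∈
      Submodule.span 𝕜 {g | g ∈ ((o.lgen d.ℓ d.n F Ds).getD j []).map
        (sem φ (T.ξ i) (T.η i) d.ℓ)} ↔ T.Md i (d.part D j) (sbPhi T i δ c j)) := by
    intro j hj
    have e : ∑ t ∈ range (lidx d.ℓ d.n δ).length, c t • sem φ (T.ξ i) (T.η i) d.ℓ
        ((((lidx d.ℓ d.n δ).map (o.litem d.ℓ d.n F ζ s)).getD t []).getD j [])
        = sbPhi T i δ c j := by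
      refine sum_congr rfl fun t ht => ?_
      have ht' := mem_range.1 ht
      rw [sb_getD_map _ _ _ (0, 0, 0) ht', Ops.litem, List.getD_append _ _ _ _ (by simpa using hj),
        sb_getD_range, if_pos hj]
      split_ifs
      · rw [hφ.toHom.tmon (sb_idx hδ ht').2.2.1 (sb_idx hδ ht').2.1]
      · rw [sem_nil]
    rw [e, Ops.lgen, List.getD_append _ _ _ _ (by simpa using hj), sb_getD_range, if_pos hj,
      hDs j hj]
    exact and_iff_left (sb_dle hδ c hj)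
  have a2 : ∀ k < d.ℓ, (∑ t ∈ range (lidx d.ℓ d.n δ).length, c t • sem φ (T.ξ i) (T.η i) d.ℓ
      ((((lidx d.ℓ d.n δ).map (o.litem d.ℓ d.n F ζ s)).getD t []).getD (d.ℓ + k) []) ∈
      Submodule.span 𝕜 {g | g ∈ ((o.lgen d.ℓ d.n F Ds).getD (d.ℓ + k) []).map
        (sem φ (T.ξ i) (T.η i) d.ℓ)} ↔ T.Md i (fun P => k * d.Rm P) (∑ j ∈ range d.ℓ,
          d.ζ ^ ((d.ℓ - j) * k) • (aeval (T.ξ i) (tp φ s) ^ j * sbPhi T i δ c j))) := by
    intro k hk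
    have e : ∑ t ∈ range (lidx d.ℓ d.n δ).length, c t • sem φ (T.ξ i) (T.η i) d.ℓ
        ((((lidx d.ℓ d.n δ).map (o.litem d.ℓ d.n F ζ s)).getD t []).getD (d.ℓ + k) [])
        = ∑ j ∈ range d.ℓ,
          d.ζ ^ ((d.ℓ - j) * k) • (aeval (T.ξ i) (tp φ s) ^ j * sbPhi T i δ c j) := by
      simp only [sbPhi, mul_sum, smul_sum]
      rw [sum_comm]
      refine sum_congr rfl fun t ht => ?_
      have ht' := mem_range.1 ht
      obtain ⟨b1, b2, b3, -⟩ := sb_idx hδ ht'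
      rw [sb_getD_map _ _ _ (0, 0, 0) ht', Ops.litem,
        List.getD_append_right _ _ _ _ (by simp), List.length_map, List.length_range,
        Nat.add_sub_cancel_left, sb_getD_range, if_pos hk, hφ.toHom.tsm, hφ.toHom.pow, hζ,
        hφ.toHom.tmul hY, hφ.toHom.tpow d.prime.pos hY b1.le, sem_single d.prime.pos,
        hφ.toHom.tmon b3 b2, sum_eq_single_of_mem _ (mem_range.2 b1), if_pos rfl, mul_smul_comm,
        smul_comm]
      intro j _ hj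
      rw [if_neg hj, smul_zero, mul_zero, smul_zero]
    rw [e, Ops.lgen, List.getD_append_right _ _ _ _ (by simp), List.length_map, List.length_range,
      Nat.add_sub_cancel_left, sb_getD_range, if_pos hk]
    refine sb_span_eta hφ hF hk (Curve.ge_sum _ _ fun j hj => Curve.Ge.smul ?_ _)
    refine ((sb_dle_pow hl (mem_range.1 hj)).mul (sb_dle hδ c (mem_range.1 hj))).mono ?_
    have := (sb_bound d.ℓ_le_n hδ).2
    omega
  rw [hlen]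
  constructor
  · intro h
    exact ⟨fun j hj => (a1 j hj).1 (h j (by omega)), fun k hk => (a2 k hk).1 (h _ (by omega))⟩
  · rintro ⟨h1, h2⟩ j hj
    rcases lt_or_ge j d.ℓ with h | h
    · exact (a1 j h).2 (h1 j h)
    · obtain ⟨k, rfl⟩ := Nat.exists_eq_add_of_le h
      exact (a2 k (by omega)).2 (h2 k (by omega))

theorem cs_spec (hφ : FHom o φ) (hF : tp φ F = d.F i) (hζ : φ ζ = d.ζ) (hD : d.Eff D)
    (hh : T.Nrm i D h) (hδ : h.natDegree ≤ 3 * (d.n * d.n)) {Ds : List (List (List (List α)))}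
    (hDs : ∀ j < d.ℓ, T.Spans i ((Ds.getD j []).map (sem φ (T.ξ i) (T.η i) d.ℓ)) (d.part D j)
      (wW d.n)) {s : List α} (hl : s.length ≤ d.n) {κ : 𝕜} (hκ : κ ≠ 0)
    (hs : ∀ j, j ≠ i → (tp φ s).eval (d.rt i j) ^ d.ℓ * (κ * h.eval (d.rt i j)) = 1) :
    T.Rk i D h (fun j => sem φ (T.ξ i) (T.η i) d.ℓ
      ((o.cs d.ℓ d.n F ζ s h.natDegree Ds).getD j [])) ∧
      ∀ j b, (((o.cs d.ℓ d.n F ζ s h.natDegree Ds).getD j []).getD b []).length ≤ wW d.n + 1 := by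
  refine ⟨?_, fun j b => ?_⟩
  swap
  · rw [Ops.cs, sb_getD_range]
    split_ifs
    swap
    · simp
    rw [List.getD_eq_getElem?_getD]
    rcases hb : (o.lin d.ℓ _ _)[b]? with _ | q
    · simp
    refine length_lin_le _ _ (fun u hu => ?_) q (List.mem_of_getElem? hb)
    obtain ⟨t, -, rfl⟩ := List.mem_map.1 hu
    split_ifs
    · exact length_tmon_le _ _
    · simp
  have hrows := sb_rows hφ hF hζ hδ hDs hl
  obtain ⟨r1, r2, r3, -⟩ := hφ.solve (T.indep_ξη i)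
    ((lidx d.ℓ d.n h.natDegree).map (o.litem d.ℓ d.n F ζ s)) (o.lgen d.ℓ d.n F Ds)
  set rows := o.solve d.ℓ ((lidx d.ℓ d.n h.natDegree).map (o.litem d.ℓ d.n F ζ s))
    (o.lgen d.ℓ d.n F Ds) with hr
  obtain ⟨l1, l2⟩ := hφ.last rows (r1 ▸ r2) (r1 ▸ r3)
  rw [List.length_map] at r1
  have e : (fun j => sem φ (T.ξ i) (T.η i) d.ℓ ((o.cs d.ℓ d.n F ζ s h.natDegree Ds).getD j []))
      = sbPhi T i h.natDegree (vec φ (o.last rows)) := by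
    funext j
    rw [Ops.cs, sb_getD_range, ← hr]
    split_ifs with hj
    · rw [hφ.toHom.lin, List.length_map]
      refine sum_congr rfl fun t ht => ?_
      have ht' := mem_range.1 ht
      rw [sb_getD_map _ _ _ (0, 0, 0) ht']
      split_ifs
      · rw [hφ.toHom.tmon (sb_idx hδ ht').2.2.1 (sb_idx hδ ht').2.1]
      · rw [sem_nil]
    · rw [sem_nil]
      refine (sum_eq_zero fun t ht => ?_).symm
      rw [if_neg fun h' : j = _ => hj (h' ▸ (sb_idx hδ (mem_range.1 ht)).1), smul_zero]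
  have key : ∀ (ν : ℤ) (c' : ℕ → L), ν ≤ ((d.ℓ - 1) * (d.n - 1) : ℕ) → T.Lam i D (tp φ s) c' →
      (∃ j < d.ℓ, c' j ≠ 0) → T.Nle i h.natDegree c' ν →
      (∃ j < d.ℓ, sbPhi T i h.natDegree (vec φ (o.last rows)) j ≠ 0) ∧
        T.Nle i h.natDegree (sbPhi T i h.natDegree (vec φ (o.last rows))) ν := by
    rintro ν c' hν hL ⟨j, hj, hj'⟩ hN
    obtain ⟨c, hc, hc'⟩ := sb_coef hδ hν
      (fun j hj P hP => (hL.1 j hj P hP).mono ((hD.part j).2.1 P)) hN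
    have hmem := (hrows c).2 ⟨fun t ht => by_contra fun h0 => absurd (hc t h0).1 ht.not_gt,
      fun j hj => hc' j hj ▸ hL.1 j hj, fun k hk => by
        rw [sum_congr rfl fun j hj => by rw [hc' j (mem_range.1 hj)]]
        exact hL.2 k hk⟩
    obtain ⟨t0, ht0, a1, a2, t1, ht1, a3⟩ := l2 c hmem (by
      rintro rfl
      exact hj' ((hc' j hj).symm.trans (by simp [sbPhi])))
    rw [r1] at ht0
    refine ⟨?_, sb_nle fun t ht h0 => le_trans ?_ (hc t1 a3).2⟩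
    · by_contra hcon
      push Not at hcon
      exact one_ne_zero (a1.symm.trans (sb_inj hδ hcon ht0))
    · have h1 : t0 ≤ t := not_lt.1 fun h => h0 (a2 t h)
      rcases (ht1.trans h1).eq_or_lt with rfl | h2
      · exact le_rfl
      · exact_mod_cast (sb_sorted' _ _ _ h2 ht).1
  rw [e]
  obtain ⟨t1, t2⟩ := Curve.lam_triv T i hD (tp φ s) h.natDegree
  exact Curve.rank_one hD hh hκ hs ((hrows _).1 l1).2
    (key _ _ le_rfl t1 ⟨0, d.prime.pos, by simpa using pow_ne_zero _ (T.η_ne i)⟩ t2).1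
    fun ν c' a1 a2 a3 a4 => (key ν c' a1 a2 a3 a4).2

end Vale.Agent.P319
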