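import Vale.Agent.P319.Curve

/-! Elementary properties of the valuations, at one place. -/

namespace Vale.Agent.P319.Curve

open Polynomial Finset

variable {𝕜 L : Type} [Field 𝕜] [Field L] [Algebra 𝕜 L] {d : Dat 𝕜} {T : Curve d L} {P : d.Pl}
  {a b z : L} {k k' : ℤ} {c c' : 𝕜}

theorem v_one : T.v P 1 = 0 := by
  have h := T.v_const P 1 one_ne_zero
  rwa [map_one] at h
theorem v_neg (a : L) : T.v P (-a) = T.v P a := by
  rcases eq_or_ne a 0 with rfl | ha
  · rw [neg_zero]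
  · have h := T.v_const P (-1) (neg_ne_zero.2 one_ne_zero)
    rw [map_neg, map_one] at h
    rw [← neg_one_mul, T.v_mul P _ _ (neg_ne_zero.2 one_ne_zero) ha, h, zero_add]
theorem v_inv (ha : a ≠ 0) : T.v P a⁻¹ = -T.v P a := by
  have h := T.v_mul P a a⁻¹ ha (inv_ne_zero ha)
  rw [mul_inv_cancel₀ ha, v_one] at h
  omega
theorem v_div (ha : a ≠ 0) (hb : b ≠ 0) : T.v P (a / b) = T.v P a - T.v P b := by
  rw [div_eq_mul_inv, T.v_mul P _ _ ha (inv_ne_zero hb), v_inv hb, sub_eq_add_neg]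
theorem v_pow (ha : a ≠ 0) (e : ℕ) : T.v P (a ^ e) = e * T.v P a := by
  induction e with
  | zero => rw [pow_zero, v_one, Nat.cast_zero, zero_mul]
  | succ e ih =>
    rw [pow_succ, T.v_mul P _ _ (pow_ne_zero e ha) ha, ih]
    push_cast
    ring
theorem v_zpow (ha : a ≠ 0) (e : ℤ) : T.v P (a ^ e) = e * T.v P a := by
  obtain ⟨n, rfl | rfl⟩ := e.eq_nat_or_neg
  · rw [zpow_natCast, v_pow ha]
  · rw [zpow_neg, zpow_natCast, v_inv (pow_ne_zero n ha), v_pow ha, neg_mul]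
theorem v_smul (hc : c ≠ 0) (ha : a ≠ 0) : T.v P (c • a) = T.v P a := by
  rw [Algebra.smul_def, T.v_mul P _ _ ((_root_.map_ne_zero _).2 hc) ha, T.v_const P c hc, zero_add]
theorem v_prod {ι : Type} (s : Finset ι) (g : ι → L) (h : ∀ i ∈ s, g i ≠ 0) :
    T.v P (∏ i ∈ s, g i) = ∑ i ∈ s, T.v P (g i) := by
  classical
  induction s using Finset.induction_on with
  | empty => rw [prod_empty, sum_empty, v_one]
  | insert j s hj ih =>
    have h' : ∀ i ∈ s, g i ≠ 0 := fun i hi => h i (mem_insert_of_mem hi)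
    rw [prod_insert hj, sum_insert hj,
      T.v_mul P _ _ (h j (mem_insert_self j s)) (prod_ne_zero_iff.2 h'), ih h']

theorem ge_zero (P : d.Pl) (k : ℤ) : T.Ge P 0 k := Or.inl rfl
theorem ge_self (P : d.Pl) (z : L) : T.Ge P z (T.v P z) := Or.inr le_rfl
theorem ge_iff (hz : z ≠ 0) : T.Ge P z k ↔ k ≤ T.v P z :=
  ⟨fun h => h.resolve_left hz, Or.inr⟩
theorem Ge.mono (h : T.Ge P z k) (hk : k' ≤ k) : T.Ge P z k' :=
  h.imp id hk.trans
theorem Ge.add (ha : T.Ge P a k) (hb : T.Ge P b k) : T.Ge P (a + b) k := by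
  rcases eq_or_ne a 0 with rfl | ha0
  · rwa [zero_add]
  rcases eq_or_ne b 0 with rfl | hb0
  · rwa [add_zero]
  rcases eq_or_ne (a + b) 0 with h | h
  · exact Or.inl h
  · exact Or.inr ((le_min ((ge_iff ha0).1 ha) ((ge_iff hb0).1 hb)).trans
      (T.v_add P a b ha0 hb0 h))
theorem Ge.neg (ha : T.Ge P a k) : T.Ge P (-a) k :=
  ha.imp neg_eq_zero.2 fun h => by rwa [v_neg]
theorem Ge.sub (ha : T.Ge P a k) (hb : T.Ge P b k) : T.Ge P (a - b) k := by
  rw [sub_eq_add_neg]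
  exact ha.add hb.neg
theorem Ge.mul (ha : T.Ge P a k) (hb : T.Ge P b k') : T.Ge P (a * b) (k + k') := by
  rcases eq_or_ne a 0 with rfl | ha0
  · exact Or.inl (zero_mul b)
  rcases eq_or_ne b 0 with rfl | hb0
  · exact Or.inl (mul_zero a)
  refine Or.inr ?_
  rw [T.v_mul P a b ha0 hb0]
  exact add_le_add ((ge_iff ha0).1 ha) ((ge_iff hb0).1 hb)
theorem Ge.smul (ha : T.Ge P a k) (c : 𝕜) : T.Ge P (c • a) k := by
  rcases eq_or_ne c 0 with rfl | hc
  · exact Or.inl (zero_smul _ a)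
  rcases eq_or_ne a 0 with rfl | ha0
  · exact Or.inl (smul_zero c)
  refine Or.inr ?_
  rw [v_smul hc ha0]
  exact (ge_iff ha0).1 ha
theorem Ge.pow (ha : T.Ge P a k) (e : ℕ) : T.Ge P (a ^ e) (e * k) := by
  induction e with
  | zero => exact Or.inr (by rw [pow_zero, v_one, Nat.cast_zero, zero_mul])
  | succ e ih =>
    rw [pow_succ, Nat.cast_succ, add_one_mul]
    exact ih.mul ha
theorem Ge.of_mul (hb : b ≠ 0) (h : T.Ge P (a * b) k) : T.Ge P a (k - T.v P b) := by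
  rcases eq_or_ne a 0 with rfl | ha0
  · exact Or.inl rfl
  have h1 := (ge_iff (mul_ne_zero ha0 hb)).1 h
  rw [T.v_mul P a b ha0 hb] at h1
  exact Or.inr (by omega)
theorem ge_const (P : d.Pl) (c : 𝕜) : T.Ge P (algebraMap 𝕜 L c) 0 := by
  rcases eq_or_ne c 0 with rfl | hc
  · exact Or.inl (map_zero _)
  · exact Or.inr (T.v_const P c hc).ge
theorem ge_sum {ι : Type} (s : Finset ι) (g : ι → L) (h : ∀ i ∈ s, T.Ge P (g i) k) :
    T.Ge P (∑ i ∈ s, g i) k :=
  sum_induction g (fun z => T.Ge P z k) (fun _ _ => Ge.add) (ge_zero P k) h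
theorem ge_prod {ι : Type} (s : Finset ι) (g : ι → L) (e : ι → ℤ)
    (h : ∀ i ∈ s, T.Ge P (g i) (e i)) : T.Ge P (∏ i ∈ s, g i) (∑ i ∈ s, e i) := by
  classical
  induction s using Finset.induction_on with
  | empty => exact Or.inr (by rw [prod_empty, sum_empty, v_one])
  | insert j s hj ih =>
    rw [prod_insert hj, sum_insert hj]
    exact (h j (mem_insert_self j s)).mul (ih fun i hi => h i (mem_insert_of_mem hi))
theorem ge_span {S : Set L} (h : ∀ g ∈ S, T.Ge P g k) (hz : z ∈ Submodule.span 𝕜 S) :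
    T.Ge P z k := by
  induction hz using Submodule.span_induction with
  | mem x hx => exact h x hx
  | zero => exact ge_zero P k
  | add x y _ _ hx hy => exact hx.add hy
  | smul c x _ hx => exact hx.smul c
theorem eq_zero_of_ge (h : ∀ k, T.Ge P z k) : z = 0 :=
  (h (T.v P z + 1)).resolve_right (by omega)
theorem v_add_of_ge (ha : a ≠ 0) (hb : T.Ge P b (T.v P a + 1)) :
    a + b ≠ 0 ∧ T.v P (a + b) = T.v P a := by
  have h1 : ¬ T.Ge P (a + b) (T.v P a + 1) := fun h => by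
    have h2 := h.sub hb
    rw [add_sub_cancel_right, ge_iff ha] at h2
    omega
  have h0 : a + b ≠ 0 := fun h => h1 (Or.inl h)
  have h2 := (ge_iff h0).1 ((ge_self P a).add (hb.mono (by omega)))
  rw [ge_iff h0] at h1
  exact ⟨h0, by omega⟩
theorem ge_of_sum {ι : Type} (s : Finset ι) (g : ι → L)
    (h : ∀ i ∈ s, ∀ j ∈ s, g i ≠ 0 → g j ≠ 0 → T.v P (g i) = T.v P (g j) → i = j)
    (hk : T.Ge P (∑ i ∈ s, g i) k) : ∀ i ∈ s, T.Ge P (g i) k := by
  classical
  intro i hi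
  rcases eq_or_ne (g i) 0 with h0 | h0
  · exact Or.inl h0
  obtain ⟨j, hj, hmin⟩ := exists_min_image (s.filter fun i => g i ≠ 0) (fun i => T.v P (g i))
    ⟨i, mem_filter.2 ⟨hi, h0⟩⟩
  obtain ⟨hj, hj0⟩ := mem_filter.1 hj
  have h1 : T.Ge P (∑ t ∈ s.erase j, g t) (T.v P (g j) + 1) := by
    refine ge_sum _ _ fun t ht => ?_
    rcases eq_or_ne (g t) 0 with h2 | h2
    · exact Or.inl h2
    have h3 := hmin t (mem_filter.2 ⟨mem_of_mem_erase ht, h2⟩)
    have h4 : T.v P (g t) ≠ T.v P (g j) := fun e =>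
      ne_of_mem_erase ht (h t (mem_of_mem_erase ht) j hj h2 hj0 e)
    exact Or.inr (by omega)
  obtain ⟨h2, h3⟩ := v_add_of_ge hj0 h1
  rw [add_sum_erase s g hj] at h2 h3
  rw [ge_iff h2, h3] at hk
  exact Or.inr (hk.trans (hmin i (mem_filter.2 ⟨hi, h0⟩)))

theorem Ge.exists_val (h : T.Ge P z 0) : ∃ c, T.Val P z c := by
  rcases eq_or_ne z 0 with rfl | hz
  · exact ⟨0, Or.inl (by rw [map_zero, sub_zero])⟩
  rcases ((ge_iff hz).1 h).eq_or_lt with h1 | h1
  · obtain ⟨c, hc⟩ := T.v_res P z hz h1.symm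
    exact ⟨c, hc.imp sub_eq_zero.2 id⟩
  · exact ⟨0, Or.inr (by rw [map_zero, sub_zero]; omega)⟩
theorem Val.unique (h : T.Val P z c) (h' : T.Val P z c') : c = c' := by
  by_contra hne
  have h1 := Ge.sub h' h
  have h2 := sub_ne_zero.2 hne
  rw [sub_sub_sub_cancel_left, ← map_sub, ge_iff ((_root_.map_ne_zero _).2 h2),
    T.v_const P _ h2] at h1
  omega
theorem Val.ge (h : T.Val P z c) : T.Ge P z 0 := by
  have h1 := (Ge.mono h zero_le_one).add (ge_const P c)
  rwa [sub_add_cancel] at h1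
theorem val_zero_iff : T.Val P z 0 ↔ T.Ge P z 1 := by
  rw [Val, map_zero, sub_zero]
theorem Val.v_eq (h : T.Val P z c) (hc : c ≠ 0) : z ≠ 0 ∧ T.v P z = 0 := by
  have h1 := v_add_of_ge (T := T) (P := P) ((_root_.map_ne_zero (algebraMap 𝕜 L)).2 hc)
    (b := z - algebraMap 𝕜 L c) (by rw [T.v_const P c hc]; exact h)
  rwa [add_sub_cancel, T.v_const P c hc] at h1
theorem Val.ne_zero (h : T.Val P z c) (hz : z ≠ 0) (hv : T.v P z = 0) : c ≠ 0 := by
  rintro rfl
  rw [val_zero_iff, ge_iff hz] at h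
  omega
theorem exists_cancel (ha : a ≠ 0) (hb : b ≠ 0) (h : T.v P a = T.v P b) :
    ∃ c : 𝕜, c ≠ 0 ∧ T.Ge P (a - c • b) (T.v P b + 1) := by
  have h0 : T.v P (a / b) = 0 := by rw [v_div ha hb, h, sub_self]
  obtain ⟨c, hc⟩ := Ge.exists_val (T := T) (P := P) (z := a / b) (Or.inr h0.ge)
  refine ⟨c, hc.ne_zero (div_ne_zero ha hb) h0, ?_⟩
  have h1 := Ge.mul hc (ge_self P b)
  rwa [sub_mul, div_mul_cancel₀ a hb, ← Algebra.smul_def, add_comm] at h1
theorem val_const (P : d.Pl) (c : 𝕜) : T.Val P (algebraMap 𝕜 L c) c :=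
  Or.inl (sub_self _)
theorem val_one (P : d.Pl) : T.Val P 1 1 :=
  Or.inl (by rw [map_one, sub_self])
theorem Val.add (ha : T.Val P a c) (hb : T.Val P b c') : T.Val P (a + b) (c + c') := by
  rw [Val, map_add, add_sub_add_comm]
  exact Ge.add ha hb
theorem Val.sub (ha : T.Val P a c) (hb : T.Val P b c') : T.Val P (a - b) (c - c') := by
  rw [Val, map_sub, sub_sub_sub_comm]
  exact Ge.sub ha hb
theorem Val.mul (ha : T.Val P a c) (hb : T.Val P b c') : T.Val P (a * b) (c * c') := by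
  have h1 := (Ge.mul ha hb.ge).add (Ge.mul hb (ge_const P c))
  have e : (a - algebraMap 𝕜 L c) * b + (b - algebraMap 𝕜 L c') * algebraMap 𝕜 L c =
      a * b - algebraMap 𝕜 L (c * c') := by
    rw [map_mul]
    ring
  rwa [e] at h1
theorem Val.smul (ha : T.Val P a c) (c' : 𝕜) : T.Val P (c' • a) (c' * c) := by
  rw [Algebra.smul_def]
  exact (val_const P c').mul ha
theorem Val.pow (ha : T.Val P a c) (e : ℕ) : T.Val P (a ^ e) (c ^ e) := by
  induction e with
  | zero =>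
    rw [pow_zero, pow_zero]
    exact val_one P
  | succ e ih =>
    rw [pow_succ, pow_succ]
    exact ih.mul ha
theorem Val.inv (ha : T.Val P a c) (hc : c ≠ 0) : T.Val P a⁻¹ c⁻¹ := by
  obtain ⟨h0, h1⟩ := ha.v_eq hc
  have h2 : T.Ge P a⁻¹ 0 := Or.inr (by rw [v_inv h0, h1, neg_zero])
  obtain ⟨e, he⟩ := h2.exists_val
  have h3 := ha.mul he
  rw [mul_inv_cancel₀ h0] at h3
  rwa [← eq_inv_of_mul_eq_one_right (h3.unique (val_one P))]
theorem Val.div (ha : T.Val P a c) (hb : T.Val P b c') (hc : c' ≠ 0) :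
    T.Val P (a / b) (c / c') := by
  rw [div_eq_mul_inv, div_eq_mul_inv]
  exact ha.mul (hb.inv hc)
theorem val_sum {ι : Type} (s : Finset ι) (g : ι → L) (e : ι → 𝕜)
    (h : ∀ i ∈ s, T.Val P (g i) (e i)) : T.Val P (∑ i ∈ s, g i) (∑ i ∈ s, e i) := by
  rw [Val, map_sum, ← sum_sub_distrib]
  exact ge_sum s _ h
theorem val_prod {ι : Type} (s : Finset ι) (g : ι → L) (e : ι → 𝕜)
    (h : ∀ i ∈ s, T.Val P (g i) (e i)) : T.Val P (∏ i ∈ s, g i) (∏ i ∈ s, e i) := by
  classical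
  induction s using Finset.induction_on with
  | empty =>
    rw [prod_empty, prod_empty]
    exact val_one P
  | insert j s hj ih =>
    rw [prod_insert hj, prod_insert hj]
    exact (h j (mem_insert_self j s)).mul (ih fun i hi => h i (mem_insert_of_mem hi))
theorem Val.aeval (h : T.Val P z c) (g : 𝕜[X]) : T.Val P (aeval z g) (g.eval c) := by
  induction g using Polynomial.induction_on' with
  | add p q hp hq =>
    rw [map_add, eval_add]
    exact hp.add hq
  | monomial n a =>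
    rw [aeval_monomial, eval_monomial]
    exact (val_const P a).mul (h.pow n)
/-- Order of a polynomial in a function with a known value. -/
theorem v_aeval_of_val {e : ℤ} (he : 0 < e) (h0 : z - algebraMap 𝕜 L c ≠ 0)
    (h : T.v P (z - algebraMap 𝕜 L c) = e) {g : 𝕜[X]} (hg : g ≠ 0) :
    aeval z g ≠ 0 ∧ T.v P (aeval z g) = e * g.rootMultiplicity c := by
  obtain ⟨q, hq, hnd⟩ := exists_eq_pow_rootMultiplicity_mul_and_not_dvd g hg c
  have hv : T.Val P z c := Or.inr (by omega)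
  obtain ⟨h1, h2⟩ := (hv.aeval q).v_eq fun h3 => hnd (dvd_iff_isRoot.2 h3)
  have e1 : aeval z g = (z - algebraMap 𝕜 L c) ^ g.rootMultiplicity c * aeval z q := by
    conv_lhs => rw [hq]
    rw [map_mul, map_pow, map_sub, aeval_X, aeval_C]
  rw [e1, T.v_mul P _ _ (pow_ne_zero _ h0) h1, v_pow h0, h, h2, add_zero, mul_comm e]
  exact ⟨mul_ne_zero (pow_ne_zero _ h0) h1, rfl⟩
/-- Order of a polynomial in a function with a pole. -/
theorem v_aeval_of_pole {e : ℤ} (he : 0 < e) (h0 : z ≠ 0) (h : T.v P z = -e) {g : 𝕜[X]}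
    (hg : g ≠ 0) : aeval z g ≠ 0 ∧ T.v P (aeval z g) = -e * g.natDegree := by
  have hc : g.coeff g.natDegree ≠ 0 := leadingCoeff_ne_zero.2 hg
  have h1 : T.v P (g.coeff g.natDegree • z ^ g.natDegree) = -e * g.natDegree := by
    rw [v_smul hc (pow_ne_zero _ h0), v_pow h0, h, mul_comm]
  have h2 : T.Ge P (∑ i ∈ range g.natDegree, g.coeff i • z ^ i)
      (T.v P (g.coeff g.natDegree • z ^ g.natDegree) + 1) := by
    refine ge_sum _ _ fun i hi => (((ge_self P z).pow i).smul _).mono ?_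
    have h3 : (i : ℤ) + 1 ≤ g.natDegree := by exact_mod_cast mem_range.1 hi
    rw [h1, h]
    nlinarith
  have h3 := v_add_of_ge (smul_ne_zero hc (pow_ne_zero _ h0)) h2
  rwa [h1, add_comm, ← sum_range_succ (fun i => g.coeff i • z ^ i), ← aeval_eq_sum_range] at h3

end Vale.Agent.P319.Curve
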