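import Vale.Agent.P319.Val1

/-! The coordinates, the two automorphisms and the places. -/

namespace Vale.Agent.P319

open Polynomial Finset

namespace Dat

variable {𝕜 : Type} [Field 𝕜] (d : Dat 𝕜)

theorem two_le : 2 ≤ d.ℓ := d.prime.two_le
theorem ℓ_le_n : d.ℓ ≤ d.n := by
  rw [d.hn]
  exact Nat.le_mul_of_pos_right _ d.mpos
theorem ℓ_ne : (d.ℓ : 𝕜) ≠ 0 := by
  have : NeZero d.ℓ := ⟨d.prime.ne_zero⟩
  exact d.prim.neZero'.out
theorem f_monic : d.f.Monic ∧ d.f.natDegree = d.n := by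
  refine ⟨monic_prod_of_monic _ _ fun i _ => monic_X_sub_C _, ?_⟩
  rw [f, natDegree_prod_of_monic _ _ fun i _ => monic_X_sub_C _]
  simp
theorem F_natDegree (i : Fin d.n) : d.F i ≠ 0 ∧ (d.F i).natDegree = d.n - 1 := by
  have h : ∀ j ∈ univ.erase i, (1 + C (d.r i - d.r j) * X : 𝕜[X]).natDegree = 1 := by
    intro j hj
    have hne : d.r i - d.r j ≠ 0 := sub_ne_zero.2 fun e => (mem_erase.1 hj).1 (d.inj e).symm
    rw [add_comm, ← C_1]
    exact natDegree_linear hne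
  have h0 : ∀ j ∈ univ.erase i, (1 + C (d.r i - d.r j) * X : 𝕜[X]) ≠ 0 := by
    intro j hj e
    have := h j hj
    rw [e] at this
    simp at this
  refine ⟨prod_ne_zero_iff.2 h0, ?_⟩
  rw [F, natDegree_prod _ _ h0, sum_congr rfl h]
  simp
theorem F_rt {i j : Fin d.n} (h : j ≠ i) : (d.F i).eval (d.rt i j) = 0 := by
  rw [F, eval_prod]
  refine prod_eq_zero (mem_erase.2 ⟨h, mem_univ j⟩) ?_
  have hne : d.r j - d.r i ≠ 0 := sub_ne_zero.2 fun e => h (d.inj e)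
  simp only [eval_add, eval_one, eval_mul, eval_C, eval_X, rt]
  field_simp
  ring
theorem ram_inj : Function.Injective d.ram := by
  intro i j h
  have h1 := congrArg (fun q => q.1.1) (Sum.inl_injective h)
  exact d.inj h1
theorem rm_ram (i : Fin d.n) : d.Rm (d.ram i) = 1 := by
  simp [Rm, ram]
theorem v2_eq_ram {q} (h : q.1.2 = 0) : ∃ j, (Sum.inl q : d.Pl) = d.ram j := by
  have h1 : q.1.2 ^ d.ℓ = (∏ i, (X - C (d.r i))).eval q.1.1 := q.2
  rw [h, zero_pow d.prime.ne_zero, eval_prod, eq_comm, prod_eq_zero_iff] at h1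
  obtain ⟨j, -, hj⟩ := h1
  refine ⟨j, congrArg Sum.inl (Subtype.ext (Prod.ext ?_ h))⟩
  simpa [sub_eq_zero] using hj
theorem rm_cases (P : d.Pl) : (∃ j, P = d.ram j) ∨ d.Rm P = 0 := by
  rcases P with q | a
  · by_cases h : q.1.2 = 0
    · exact Or.inl (d.v2_eq_ram h)
    · exact Or.inr (by simp [Rm, h])
  · exact Or.inr rfl
theorem eq_ram {q} (h : q.1.2 = 0) : ∃ j, (Sum.inl q : d.Pl) = d.ram j := by
  exact d.v2_eq_ram h
theorem act_ram (i : Fin d.n) : d.act (d.ram i) = d.ram i := by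
  simp [act, ram]
theorem act_inj : Function.Injective d.act := by
  rintro (q | a) (q' | a') h
  · have h1 := Sum.inl_injective h
    have h2 := congrArg (fun q => q.1.1) h1
    have h3 := congrArg (fun q => q.1.2) h1
    exact congrArg Sum.inl (Subtype.ext (Prod.ext h2
      (mul_left_cancel₀ (d.prim.ne_zero d.prime.ne_zero) h3)))
  · cases h
  · cases h
  · exact congrArg Sum.inr (add_right_cancel (Sum.inr_injective h))
theorem v2_iter_inl (q : {q : 𝕜 × 𝕜 // q.2 ^ d.ℓ = d.f.eval q.1}) (t : ℕ) :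
    ∃ q', d.act^[t] (.inl q) = .inl q' ∧ q'.1.1 = q.1.1 ∧ q'.1.2 = d.ζ ^ t * q.1.2 := by
  induction t with
  | zero => exact ⟨q, rfl, rfl, by simp⟩
  | succ t ih =>
    obtain ⟨q', h1, h2, h3⟩ := ih
    rw [Function.iterate_succ_apply', h1]
    refine ⟨_, rfl, h2, ?_⟩
    show d.ζ * q'.1.2 = _
    rw [h3]
    ring
theorem v2_iter_inr (a : ZMod d.ℓ) (t : ℕ) : d.act^[t] (.inr a) = .inr (a + t) := by
  induction t with
  | zero => simp
  | succ t ih =>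
    rw [Function.iterate_succ_apply', ih, Nat.cast_succ, ← add_assoc]
    rfl
theorem act_iter (P : d.Pl) : d.act^[d.ℓ] P = P := by
  rcases P with q | a
  · obtain ⟨q', h1, h2, h3⟩ := d.v2_iter_inl q d.ℓ
    rw [h1]
    rw [d.prim.pow_eq_one, one_mul] at h3
    exact congrArg Sum.inl (Subtype.ext (Prod.ext h2 h3))
  · rw [d.v2_iter_inr]
    simp
theorem act_iter_ram (i : Fin d.n) (t : ℕ) : d.act^[t] (d.ram i) = d.ram i := by
  exact Function.iterate_fixed (d.act_ram i) t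
theorem act_iter_ne {P : d.Pl} {i : Fin d.n} (h : P ≠ d.ram i) (t : ℕ) :
    d.act^[t] P ≠ d.ram i := by
  intro e
  rw [← d.act_iter_ram i t] at e
  exact h (d.act_inj.iterate t e)
theorem rm_act (P : d.Pl) : d.Rm (d.act P) = d.Rm P := by
  rcases P with q | a
  · have h := d.prim.ne_zero d.prime.ne_zero
    by_cases h0 : q.1.2 = 0
    · exact (if_pos (mul_eq_zero_of_right _ h0)).trans (if_pos h0).symm
    · exact (if_neg (mul_ne_zero h h0)).trans (if_neg h0).symm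
  · rfl
theorem inf_act (c : ℕ → ℤ) (P : d.Pl) :
    d.Inf c (d.act P) = d.Inf (fun a => c ((a + 1) % d.ℓ)) P := by
  rcases P with q | a
  · rfl
  · have : Fact d.ℓ.Prime := ⟨d.prime⟩
    show c (a + 1).val = c ((a.val + 1) % d.ℓ)
    rw [ZMod.val_add, ZMod.val_one]
theorem v2_sum_zmod [NeZero d.ℓ] (g : ZMod d.ℓ → ℤ) :
    ∑ t ∈ range d.ℓ, g (t : ZMod d.ℓ) = ∑ z, g z := by
  refine sum_bij' (fun t _ => (t : ZMod d.ℓ)) (fun z _ => z.val) (fun _ _ => mem_univ _)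
    (fun z _ => mem_range.2 (ZMod.val_lt z)) (fun t ht => ZMod.val_cast_of_lt (mem_range.1 ht))
    (fun z _ => ZMod.natCast_zmod_val z) fun _ _ => rfl
theorem part_inf (c : ℕ → ℤ) (P : d.Pl) :
    d.part (d.Inf c) d.ℓ P = (∑ a ∈ range d.ℓ, c a) * d.Inf (fun _ => 1) P := by
  rcases P with q | a
  · have h : ∀ t ∈ range d.ℓ, d.Inf c (d.act^[t] (.inl q)) = 0 := by
      intro t _
      obtain ⟨q', h1, -⟩ := d.v2_iter_inl q t
      rw [h1]
      rfl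
    rw [part, sum_eq_zero h]
    simp [Inf]
  · have : NeZero d.ℓ := ⟨d.prime.ne_zero⟩
    have h : ∀ t ∈ range d.ℓ, d.Inf c (d.act^[t] (.inr a)) = c (a + (t : ZMod d.ℓ)).val := by
      intro t _
      rw [d.v2_iter_inr]
      rfl
    have h2 : ∀ t ∈ range d.ℓ, c t = c (t : ZMod d.ℓ).val := by
      intro t ht
      rw [ZMod.val_cast_of_lt (mem_range.1 ht)]
    rw [part, sum_congr rfl h, sum_congr rfl h2, d.v2_sum_zmod fun z => c (a + z).val,
      d.v2_sum_zmod fun z => c z.val]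
    show _ = _ * 1
    rw [mul_one]
    exact Fintype.sum_equiv (Equiv.addLeft a) _ _ fun z => rfl
theorem part_act (D : d.Pl → ℤ) (P : d.Pl) : d.part D d.ℓ (d.act P) = d.part D d.ℓ P := by
  have h1 := sum_range_succ (fun t => D (d.act^[t] P)) d.ℓ
  have h2 := sum_range_succ' (fun t => D (d.act^[t] P)) d.ℓ
  rw [d.act_iter] at h1
  simp only [Function.iterate_succ_apply, Function.iterate_zero_apply] at h2
  unfold part
  linarith
theorem part_succ (D : d.Pl → ℤ) (j : ℕ) (P : d.Pl) :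
    d.part D (j + 1) P = D P + d.part D j (d.act P) := by
  unfold part
  rw [sum_range_succ', add_comm]
  rfl
theorem sact_ram (i : Fin d.n) : d.sact (d.ram i) = d.ram i := by
  refine congrArg Sum.inl (Subtype.ext (Prod.ext ?_ (map_zero _)))
  exact d.s.symm_apply_eq.2 (d.sr i).symm
theorem sact_inj : Function.Injective d.sact := by
  rintro (q | a) (q' | a') h
  · have h1 := Sum.inl_injective h
    have h2 := congrArg (fun q => q.1.1) h1
    have h3 := congrArg (fun q => q.1.2) h1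
    exact congrArg Sum.inl (Subtype.ext (Prod.ext (d.s.symm.injective h2) (d.s.symm.injective h3)))
  · cases h
  · cases h
  · exact h
theorem sact_act (P : d.Pl) : d.sact (d.act P) = d.act (d.sact P) := by
  rcases P with q | a
  · refine congrArg Sum.inl (Subtype.ext (Prod.ext rfl ?_))
    show d.s.symm (d.ζ * q.1.2) = d.ζ * d.s.symm q.1.2
    rw [map_mul, d.s.symm_apply_eq.2 d.sζ.symm]
  · rfl
theorem exists_place [IsAlgClosed 𝕜] (c : 𝕜) :
    ∃ q : {q : 𝕜 × 𝕜 // q.2 ^ d.ℓ = d.f.eval q.1}, q.1.1 = c := by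
  obtain ⟨b, hb⟩ := IsAlgClosed.exists_pow_nat_eq (d.f.eval c) d.prime.pos
  exact ⟨⟨(c, b), hb⟩, rfl⟩
theorem fibre {q q' : {q : 𝕜 × 𝕜 // q.2 ^ d.ℓ = d.f.eval q.1}} (h : q.1.1 = q'.1.1) :
    ∃ t < d.ℓ, d.act^[t] (.inl q) = .inl q' := by
  have : NeZero d.ℓ := ⟨d.prime.ne_zero⟩
  have hp : q'.1.2 ^ d.ℓ = q.1.2 ^ d.ℓ := by rw [q.2, q'.2, h]
  by_cases h0 : q.1.2 = 0
  · refine ⟨0, d.prime.pos, congrArg Sum.inl (Subtype.ext (Prod.ext h ?_))⟩
    rw [h0, zero_pow d.prime.ne_zero] at hp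
    rw [h0, pow_eq_zero_iff d.prime.ne_zero |>.1 hp]
  · have h1 : (q'.1.2 / q.1.2) ^ d.ℓ = 1 := by
      rw [div_pow, hp, div_self (pow_ne_zero _ h0)]
    obtain ⟨t, ht, e⟩ := d.prim.eq_pow_of_pow_eq_one h1
    obtain ⟨q'', h2, h3, h4⟩ := d.v2_iter_inl q t
    refine ⟨t, ht, h2.trans (congrArg Sum.inl (Subtype.ext (Prod.ext (h3.trans h) ?_)))⟩
    rw [h4, e, div_mul_cancel₀ _ h0]
theorem fibre_inf (a b : ZMod d.ℓ) : ∃ t < d.ℓ, d.act^[t] (.inr a) = .inr b := by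
  have : NeZero d.ℓ := ⟨d.prime.ne_zero⟩
  refine ⟨(b - a).val, ZMod.val_lt _, ?_⟩
  rw [d.v2_iter_inr, ZMod.natCast_zmod_val, add_sub_cancel]
theorem finite_fibre (c : 𝕜) :
    {q : {q : 𝕜 × 𝕜 // q.2 ^ d.ℓ = d.f.eval q.1} | q.1.1 = c}.Finite := by
  classical
  refine Set.Finite.of_finite_image (f := fun q => q.1.2)
    ((nthRoots d.ℓ (d.f.eval c)).toFinset.finite_toSet.subset ?_) ?_
  · rintro _ ⟨q, hq, rfl⟩
    rw [mem_coe, Multiset.mem_toFinset, mem_nthRoots d.prime.pos, q.2, hq]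
  · intro q hq q' hq' e
    exact Subtype.ext (Prod.ext (hq.trans hq'.symm) e)
theorem fs_inf (c : ℕ → ℤ) : d.FS (d.Inf c) := by
  have : NeZero d.ℓ := ⟨d.prime.ne_zero⟩
  refine (Set.finite_range (Sum.inr : ZMod d.ℓ → d.Pl)).subset ?_
  rintro (q | a) h
  · exact (h rfl).elim
  · exact ⟨a, rfl⟩
theorem fs_rm : d.FS d.Rm := by
  refine (Set.finite_range d.ram).subset fun P h => ?_
  rcases d.rm_cases P with ⟨j, e⟩ | e
  · exact ⟨j, e.symm⟩
  · exact (h e).elim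
variable {d}
theorem FS.add {D E : d.Pl → ℤ} (h : d.FS D) (h' : d.FS E) : d.FS (D + E) := by
  exact (Set.Finite.union h h').subset (Function.support_add D E)
theorem FS.sub {D E : d.Pl → ℤ} (h : d.FS D) (h' : d.FS E) : d.FS (D - E) := by
  exact (Set.Finite.union h h').subset (Function.support_sub D E)
theorem FS.smul {D : d.Pl → ℤ} (h : d.FS D) (k : ℤ) : d.FS (k • D) := by
  refine Set.Finite.subset h fun P hP e => hP ?_
  simp [e]
theorem FS.act {D : d.Pl → ℤ} (h : d.FS D) (t : ℕ) : d.FS fun P => D (d.act^[t] P) := by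
  exact Set.Finite.preimage (d.act_inj.iterate t).injOn h
theorem FS.sact {D : d.Pl → ℤ} (h : d.FS D) : d.FS fun P => D (d.sact P) := by
  exact Set.Finite.preimage d.sact_inj.injOn h
theorem FS.part {D : d.Pl → ℤ} (h : d.FS D) (j : ℕ) : d.FS (d.part D j) := by
  refine ((range j).finite_toSet.biUnion fun t _ => h.act t).subset fun P hP => ?_
  obtain ⟨t, ht, e⟩ := exists_ne_zero_of_sum_ne_zero hP
  exact Set.mem_biUnion ht e
theorem Eff.part {D : d.Pl → ℤ} (h : d.Eff D) (j : ℕ) : d.Eff (d.part D j) := by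
  refine ⟨h.1.part j, fun P => sum_nonneg fun t _ => h.2.1 _, fun i => sum_eq_zero fun t _ => ?_⟩
  rw [d.act_iter_ram, h.2.2]
theorem Eff.add_inf {D : d.Pl → ℤ} (h : d.Eff D) {c : ℕ → ℤ} (hc : ∀ a, 0 ≤ c a) :
    d.Eff (D + d.Inf c) := by
  refine ⟨h.1.add (d.fs_inf c), fun P => add_nonneg (h.2.1 P) ?_, fun i => ?_⟩
  · rcases P with q | a
    · exact le_rfl
    · exact hc _
  · show D (d.ram i) + 0 = 0
    rw [h.2.2, add_zero]

end Dat

namespace Curve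

variable {𝕜 L : Type} [Field 𝕜] [Field L] [Algebra 𝕜 L] {d : Dat 𝕜} (T : Curve d L)

theorem x_sub_ne (c : 𝕜) : T.x - algebraMap 𝕜 L c ≠ 0 := by
  simpa using T.trans _ (X_sub_C_ne_zero c)
theorem y_ne : T.y ≠ 0 := by
  intro h
  have h1 := T.hy
  rw [h, zero_pow d.prime.ne_zero] at h1
  exact T.trans _ d.f_monic.1.ne_zero h1.symm
theorem ξ_ne (i : Fin d.n) : T.ξ i ≠ 0 := by
  exact inv_ne_zero (T.x_sub_ne _)
theorem η_ne (i : Fin d.n) : T.η i ≠ 0 := by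
  exact mul_ne_zero T.y_ne (pow_ne_zero _ (T.ξ_ne i))
theorem η_pow (i : Fin d.n) : T.η i ^ d.ℓ = aeval (T.ξ i) (d.F i) := by
  have h0 : (T.x - algebraMap 𝕜 L (d.r i)) * T.ξ i = 1 := mul_inv_cancel₀ (T.x_sub_ne _)
  have h1 : (T.ξ i ^ d.m) ^ d.ℓ = ∏ _j : Fin d.n, T.ξ i := by
    rw [prod_const, card_univ, Fintype.card_fin, ← pow_mul, mul_comm, ← d.hn]
  rw [η, mul_pow, T.hy, h1, Dat.f, Dat.F, map_prod, map_prod, ← prod_mul_distrib,
    ← mul_prod_erase _ _ (mem_univ i)]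
  simp only [map_sub, aeval_X, aeval_C, map_add, map_one, map_mul]
  rw [h0, one_mul]
  refine prod_congr rfl fun j _ => ?_
  linear_combination h0
theorem val_x (q) : T.Val (.inl q) T.x q.1.1 := by
  refine Or.inr ?_
  rw [T.v_x]
  have := d.two_le
  split_ifs <;> omega
theorem val_y (q) : T.Val (.inl q) T.y q.1.2 := by
  exact Or.inr (T.v_y q)
open Classical in
theorem v_aeval_fin (q) {g : 𝕜[X]} (hg : g ≠ 0) : T.v (.inl q) (aeval T.x g) =
    (if q.1.2 = 0 then (d.ℓ : ℤ) else 1) * g.rootMultiplicity q.1.1 := by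
  refine (v_aeval_of_val ?_ (T.x_sub_ne _) (T.v_x q) hg).2
  have := d.two_le
  split_ifs <;> omega
theorem v_aeval_inf (a : ZMod d.ℓ) {g : 𝕜[X]} (hg : g ≠ 0) :
    T.v (.inr a) (aeval T.x g) = -g.natDegree := by
  have h0 : T.x ≠ 0 := by simpa using T.x_sub_ne 0
  rw [(v_aeval_of_pole one_pos h0 (T.v_xi a) hg).2]
  ring
theorem v2_x_sub (q) {c : 𝕜} (h : q.1.1 ≠ c) :
    T.v (.inl q) (T.x - algebraMap 𝕜 L c) = 0 :=
  (((T.val_x q).sub (val_const _ c)).v_eq (sub_ne_zero.2 h)).2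
theorem v2_x_ram (i : Fin d.n) : T.v (d.ram i) (T.x - algebraMap 𝕜 L (d.r i)) = d.ℓ :=
  (T.v_x _).trans (if_pos rfl)
theorem v2_ne {i : Fin d.n} {q} (h : (Sum.inl q : d.Pl) ≠ d.ram i) : q.1.1 ≠ d.r i := by
  intro e
  refine h (congrArg Sum.inl (Subtype.ext (Prod.ext e ?_)))
  have h1 : q.1.2 ^ d.ℓ = (∏ i, (X - C (d.r i))).eval q.1.1 := q.2
  rw [e, eval_prod, prod_eq_zero (mem_univ i) (by simp)] at h1
  exact pow_eq_zero_iff d.prime.ne_zero |>.1 h1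
theorem v_y_eq (P : d.Pl) : T.v P T.y = d.Rm P - d.m * d.Inf (fun _ => 1) P := by
  have hl : (d.ℓ : ℤ) ≠ 0 := by exact_mod_cast d.prime.ne_zero
  have h1 : (d.ℓ : ℤ) * T.v P T.y = T.v P (aeval T.x d.f) := by
    rw [← T.hy, v_pow T.y_ne]
  rcases P with q | a
  · by_cases h : q.1.2 = 0
    · obtain ⟨j, e⟩ := d.eq_ram h
      rw [e] at h1 ⊢
      have h2 : ∀ j' ∈ univ.erase j,
          T.v (d.ram j) (T.x - algebraMap 𝕜 L (d.r j')) = 0 := fun j' hj' =>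
        T.v2_x_sub _ fun e' => (mem_erase.1 hj').1 (d.inj e').symm
      rw [Dat.f, map_prod] at h1
      simp only [map_sub, aeval_X, aeval_C] at h1
      rw [v_prod _ _ fun j' _ => T.x_sub_ne _, ← add_sum_erase _ _ (mem_univ j), sum_eq_zero h2,
        T.v2_x_ram] at h1
      rw [d.rm_ram]
      show _ = 1 - _ * 0
      refine mul_left_cancel₀ hl ?_
      rw [h1]
      ring
    · rw [((T.val_y q).v_eq h).2]
      simp [Dat.Rm, Dat.Inf, h]
  · rw [T.v_aeval_inf a d.f_monic.1.ne_zero, d.f_monic.2] at h1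
    show _ = 0 - _ * 1
    refine mul_left_cancel₀ hl ?_
    have h2 : (d.n : ℤ) = d.ℓ * d.m := by exact_mod_cast d.hn
    rw [h1, h2]
    ring
theorem v_x_ram (i : Fin d.n) : T.v (d.ram i) (T.x - algebraMap 𝕜 L (d.r i)) = d.ℓ := by
  exact T.v2_x_ram i
theorem v_ξ_self (i : Fin d.n) : T.v (d.ram i) (T.ξ i) = -d.ℓ := by
  rw [ξ, v_inv (T.x_sub_ne _), T.v_x_ram]
theorem v_ξ {i : Fin d.n} {P : d.Pl} (h : P ≠ d.ram i) :
    T.v P (T.ξ i) = d.Inf (fun _ => 1) P := by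
  rw [ξ, v_inv (T.x_sub_ne _)]
  rcases P with q | a
  · rw [T.v2_x_sub q (v2_ne h)]
    rfl
  · have h1 := T.v_aeval_inf a (X_sub_C_ne_zero (d.r i))
    simp only [map_sub, aeval_X, aeval_C, natDegree_X_sub_C] at h1
    rw [h1]
    rfl
theorem v_η_self (i : Fin d.n) : T.v (d.ram i) (T.η i) = -((d.n - 1 : ℕ) : ℤ) := by
  rw [η, T.v_mul _ _ _ T.y_ne (pow_ne_zero _ (T.ξ_ne i)), v_pow (T.ξ_ne i), T.v_y_eq,
    T.v_ξ_self, d.rm_ram]
  have h2 : (d.n : ℤ) = d.ℓ * d.m := by exact_mod_cast d.hn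
  have h3 : 1 ≤ d.n := le_trans d.prime.pos d.ℓ_le_n
  rw [Nat.cast_sub h3, h2]
  show 1 - _ * 0 + _ = _
  push_cast
  ring
theorem v_η {i : Fin d.n} {P : d.Pl} (h : P ≠ d.ram i) : T.v P (T.η i) = d.Rm P := by
  rw [η, T.v_mul _ _ _ T.y_ne (pow_ne_zero _ (T.ξ_ne i)), v_pow (T.ξ_ne i), T.v_y_eq, T.v_ξ h]
  ring
theorem val_ξ_ram {i j : Fin d.n} (h : j ≠ i) : T.Val (d.ram j) (T.ξ i) (d.rt i j) := by
  exact ((T.val_x _).sub (val_const _ (d.r i))).inv (sub_ne_zero.2 fun e => h (d.inj e))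
theorem v_ξ_ram {i j : Fin d.n} (h : j ≠ i) : T.ξ i - algebraMap 𝕜 L (d.rt i j) ≠ 0 ∧
    T.v (d.ram j) (T.ξ i - algebraMap 𝕜 L (d.rt i j)) = d.ℓ := by
  have hne : d.r j - d.r i ≠ 0 := sub_ne_zero.2 fun e => h (d.inj e)
  have h0 : (T.x - algebraMap 𝕜 L (d.r i)) * T.ξ i = 1 := mul_inv_cancel₀ (T.x_sub_ne _)
  have h1 : (algebraMap 𝕜 L (d.r j) - algebraMap 𝕜 L (d.r i)) * algebraMap 𝕜 L (d.rt i j) = 1 := by
    rw [← map_sub, ← map_mul, Dat.rt, mul_inv_cancel₀ hne, map_one]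
  have h2 : T.ξ i - algebraMap 𝕜 L (d.rt i j) =
      (-d.rt i j) • ((T.x - algebraMap 𝕜 L (d.r j)) * T.ξ i) := by
    rw [Algebra.smul_def, map_neg]
    linear_combination algebraMap 𝕜 L (d.rt i j) * h0 - T.ξ i * h1
  have h3 : -d.rt i j ≠ 0 := neg_ne_zero.2 (inv_ne_zero hne)
  have h4 := mul_ne_zero (T.x_sub_ne (d.r j)) (T.ξ_ne i)
  rw [h2]
  refine ⟨smul_ne_zero h3 h4, ?_⟩
  rw [v_smul h3 h4, T.v_mul _ _ _ (T.x_sub_ne _) (T.ξ_ne i), T.v_x_ram,
    T.v_ξ fun e => h (d.ram_inj e)]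
  exact add_zero _
theorem val_η_inf (i : Fin d.n) (a : ZMod d.ℓ) : T.Val (.inr a) (T.η i) (d.ζ ^ a.val) := by
  have hx : T.x ≠ 0 := by simpa using T.x_sub_ne 0
  have h0 : (T.x - algebraMap 𝕜 L (d.r i)) * T.ξ i = 1 := mul_inv_cancel₀ (T.x_sub_ne _)
  have h1 : T.Val (.inr a) (T.y / T.x ^ d.m) (d.ζ ^ a.val) := Or.inr (T.v_yi a)
  have h2 : T.Ge (.inr a) (T.ξ i) 1 := Or.inr (T.v_ξ (by simp [Dat.ram])).ge
  have h3 : T.Val (.inr a) (T.x * T.ξ i) 1 := by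
    have e : T.x * T.ξ i - algebraMap 𝕜 L 1 = d.r i • T.ξ i := by
      rw [Algebra.smul_def, map_one]
      linear_combination h0
    rw [Val, e]
    exact h2.smul _
  have h4 := h1.mul (h3.pow d.m)
  have e : T.y / T.x ^ d.m * (T.x * T.ξ i) ^ d.m = T.η i := by
    rw [η, mul_pow]
    field_simp
  rwa [e, one_pow, mul_one] at h4
theorem aeval_ξ_ne (i : Fin d.n) {g : 𝕜[X]} (hg : g ≠ 0) : aeval (T.ξ i) g ≠ 0 ∧
    T.v (d.ram i) (aeval (T.ξ i) g) = -(d.ℓ : ℤ) * g.natDegree := by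
  exact v_aeval_of_pole (by exact_mod_cast d.prime.pos) (T.ξ_ne i) (T.v_ξ_self i) hg
/-- The value of the first coordinate of a chart at a place. -/
noncomputable def v2_xv (i : Fin d.n) : d.Pl → 𝕜
  | .inl q => (q.1.1 - d.r i)⁻¹
  | .inr _ => 0
/-- The value of the second coordinate of a chart at a place. -/
noncomputable def v2_yv (i : Fin d.n) : d.Pl → 𝕜
  | .inl q => q.1.2 * (q.1.1 - d.r i)⁻¹ ^ d.m
  | .inr a => d.ζ ^ a.val
theorem v2_val {i : Fin d.n} {P : d.Pl} (h : P ≠ d.ram i) :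
    T.Val P (T.ξ i) (v2_xv i P) ∧ T.Val P (T.η i) (v2_yv i P) := by
  rcases P with q | a
  · have h1 : T.Val (.inl q) (T.ξ i) (q.1.1 - d.r i)⁻¹ :=
      ((T.val_x _).sub (val_const _ (d.r i))).inv (sub_ne_zero.2 (v2_ne h))
    exact ⟨h1, (T.val_y q).mul (h1.pow _)⟩
  · exact ⟨val_zero_iff.2 (Or.inr (T.v_ξ h).ge), T.val_η_inf i a⟩
theorem v2_inj {i : Fin d.n} {P P' : d.Pl} (h : P ≠ d.ram i) (h' : P' ≠ d.ram i)
    (hx : v2_xv i P = v2_xv i P') (hy : v2_yv i P = v2_yv i P') : P = P' := by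
  rcases P with q | a <;> rcases P' with q' | a'
  · have h1 : q.1.1 = q'.1.1 := sub_left_injective (inv_injective hx)
    refine congrArg Sum.inl (Subtype.ext (Prod.ext h1 ?_))
    have h2 : q.1.2 * (q.1.1 - d.r i)⁻¹ ^ d.m = q'.1.2 * (q'.1.1 - d.r i)⁻¹ ^ d.m := hy
    rw [← h1] at h2
    exact mul_right_cancel₀ (pow_ne_zero _ (inv_ne_zero (sub_ne_zero.2 (v2_ne h)))) h2
  · exact (inv_ne_zero (sub_ne_zero.2 (v2_ne h)) hx).elim
  · exact (inv_ne_zero (sub_ne_zero.2 (v2_ne h')) hx.symm).elim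
  · have : NeZero d.ℓ := ⟨d.prime.ne_zero⟩
    exact congrArg Sum.inr (ZMod.val_injective _
      (d.prim.pow_inj (ZMod.val_lt a) (ZMod.val_lt a') hy))
theorem md_aeval (i : Fin d.n) (g : 𝕜[X]) : T.Md i 0 (aeval (T.ξ i) g) := by
  intro P hP
  exact ((T.v2_val hP).1.aeval g).ge
theorem ge_aeval_ram {i j : Fin d.n} (h : j ≠ i) {g : 𝕜[X]} (hg : g.eval (d.rt i j) = 0) :
    T.Ge (d.ram j) (aeval (T.ξ i) g) d.ℓ := by
  by_cases h0 : g = 0
  · rw [h0, map_zero]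
    exact ge_zero _ _
  · have hl : (0 : ℤ) < d.ℓ := by exact_mod_cast d.prime.pos
    have h1 := v_aeval_of_val hl (T.v_ξ_ram h).1 (T.v_ξ_ram h).2 h0
    have h2 : (1 : ℤ) ≤ g.rootMultiplicity (d.rt i j) := by
      exact_mod_cast (rootMultiplicity_pos h0).2 hg
    refine Or.inr ?_
    rw [h1.2]
    nlinarith
/-- Two places other than the point at infinity of the chart are separated by the chart ring. -/
theorem exists_sep {i : Fin d.n} {P P' : d.Pl} (h : P ≠ d.ram i) (h' : P' ≠ d.ram i)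
    (hne : P ≠ P') : ∃ t, t ≠ 0 ∧ T.Md i 0 t ∧ T.v P t = 0 ∧ 1 ≤ T.v P' t := by
  have key : ∀ (u : L) (w : d.Pl → 𝕜), (∀ Q, Q ≠ d.ram i → T.Val Q u (w Q)) → w P ≠ w P' →
      ∃ t, t ≠ 0 ∧ T.Md i 0 t ∧ T.v P t = 0 ∧ 1 ≤ T.v P' t := by
    intro u w hw hn
    have h1 := ((hw P h).sub (val_const P (w P'))).v_eq (sub_ne_zero.2 hn)
    exact ⟨u - algebraMap 𝕜 L (w P'), h1.1, fun Q hQ => ((hw Q hQ).sub (val_const Q _)).ge, h1.2,
      (ge_iff h1.1).1 (hw P' h')⟩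
  by_cases hx : v2_xv i P = v2_xv i P'
  · exact key _ _ (fun Q hQ => (T.v2_val hQ).2) fun hy => hne (v2_inj h h' hx hy)
  · exact key _ _ (fun Q hQ => (T.v2_val hQ).1) hx
theorem exists_unif (P : d.Pl) : ∃ t, t ≠ 0 ∧ T.v P t = 1 := by
  rcases P with q | a
  · by_cases h : q.1.2 = 0
    · refine ⟨T.y, T.y_ne, ?_⟩
      rw [T.v_y_eq]
      simp [Dat.Rm, Dat.Inf, h]
    · exact ⟨_, T.x_sub_ne q.1.1, (T.v_x q).trans (if_neg h)⟩
  · have hx : T.x ≠ 0 := by simpa using T.x_sub_ne 0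
    refine ⟨T.x⁻¹, inv_ne_zero hx, ?_⟩
    rw [v_inv hx, T.v_xi, neg_neg]
theorem v2_fin {z : L} (hz : z ≠ 0) : {P | T.v P z < 0}.Finite := by
  classical
  have : NeZero d.ℓ := ⟨d.prime.ne_zero⟩
  obtain ⟨g, c, hg, e⟩ := T.span z
  refine ((Set.finite_range (Sum.inr : ZMod d.ℓ → d.Pl)).union
    ((g.roots.toFinset.finite_toSet.biUnion fun a _ => d.finite_fibre a).image
      (Sum.inl : _ → d.Pl))).subset ?_
  rintro (q | a) hP
  · refine Or.inr ⟨q, ?_, rfl⟩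
    refine Set.mem_biUnion (x := q.1.1) ?_ rfl
    rw [mem_coe, Multiset.mem_toFinset, mem_roots hg]
    by_contra hr
    have h1 := ((T.val_x q).aeval g).v_eq hr
    have h2 : T.Ge (.inl q) (z * aeval T.x g) 0 := by
      rw [mul_comm, e]
      refine ge_sum _ _ fun b _ => ?_
      exact (((T.val_x q).aeval (c b)).mul ((T.val_y q).pow b)).ge
    have h3 := (ge_iff hz).1 (h2.of_mul h1.1)
    have h4 : T.v (.inl q) z < 0 := hP
    rw [h1.2] at h3
    omega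
  · exact Or.inl ⟨a, rfl⟩
theorem fs_v {z : L} (hz : z ≠ 0) : d.FS fun P => T.v P z := by
  refine ((T.v2_fin hz).union (T.v2_fin (inv_ne_zero hz))).subset fun P hP => ?_
  have h1 : T.v P z ≠ 0 := hP
  rcases lt_or_gt_of_ne h1 with h2 | h2
  · exact Or.inl h2
  · refine Or.inr ?_
    show T.v P z⁻¹ < 0
    rw [v_inv hz]
    omega

end Curve

end Vale.Agent.P319
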