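import Vale.Agent.P319.Val2

/-! The action of the automorphisms on functions. -/

namespace Vale.Agent.P319.Curve

open Polynomial Finset

variable {𝕜 L : Type} [Field 𝕜] [Field L] [Algebra 𝕜 L] {d : Dat 𝕜} (T : Curve d L)

theorem v3_ext (φ ψ : L →+* L) (hc : ∀ c, φ (algebraMap 𝕜 L c) = ψ (algebraMap 𝕜 L c))
    (hx : φ T.x = ψ T.x) (hy : φ T.y = ψ T.y) (z : L) : φ z = ψ z := by
  have h1 : ∀ q : 𝕜[X], φ (aeval T.x q) = ψ (aeval T.x q) := fun q => by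
    induction q using Polynomial.induction_on' with
    | add p q hp hq => rw [map_add, map_add, map_add, hp, hq]
    | monomial n a => rw [aeval_monomial, map_mul, map_mul, map_pow, map_pow, hc, hx]
  obtain ⟨q, c, hq, h⟩ := T.span z
  apply mul_left_cancel₀ ((_root_.map_ne_zero φ).2 (T.trans q hq))
  rw [← map_mul, h1, ← map_mul, h, map_sum, map_sum]
  exact sum_congr rfl fun b _ => by rw [map_mul, map_mul, map_pow, map_pow, h1, hy]
theorem τξ (i : Fin d.n) : T.τ (T.ξ i) = T.ξ i := by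
  rw [ξ, map_inv₀, map_sub, T.τx, AlgEquiv.commutes]
theorem τη (i : Fin d.n) : T.τ (T.η i) = d.ζ • T.η i := by
  rw [η, map_mul, map_pow, T.τy, T.τξ, smul_mul_assoc]
theorem σξ (i : Fin d.n) : T.σ (T.ξ i) = T.ξ i := by
  rw [ξ, map_inv₀, map_sub, T.σx, T.σc, d.sr]
theorem ση (i : Fin d.n) : T.σ (T.η i) = T.η i := by
  rw [η, map_mul, map_pow, T.σy, T.σξ]
theorem τ_aeval {u : L} (hu : T.τ u = u) (g : 𝕜[X]) : T.τ (aeval u g) = aeval u g := by
  rw [← aeval_algHom_apply, hu]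
theorem τ_pow_fixed {u : L} (hu : T.τ u = u) (t : ℕ) : (T.τ ^ t) u = u := by
  induction t with
  | zero => rfl
  | succ t ih => rw [pow_succ', AlgEquiv.mul_apply, ih, hu]
theorem τ_pow_eigen {Y : L} (hY : T.τ Y = d.ζ • Y) (t : ℕ) : (T.τ ^ t) Y = d.ζ ^ t • Y := by
  induction t with
  | zero => simp
  | succ t ih => rw [pow_succ', AlgEquiv.mul_apply, ih, map_smul, hY, smul_smul, pow_succ]
theorem τ_pow_succ (t : ℕ) (z : L) : (T.τ ^ (t + 1)) z = T.τ ((T.τ ^ t) z) := by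
  rw [pow_succ', AlgEquiv.mul_apply]
theorem τ_pow_ℓ (z : L) : (T.τ ^ d.ℓ) z = z := by
  refine T.v3_ext (T.τ ^ d.ℓ).toRingEquiv.toRingHom (RingHom.id L)
    (fun c => (T.τ ^ d.ℓ).commutes c) (T.τ_pow_fixed T.τx _) ?_ z
  change (T.τ ^ d.ℓ) T.y = T.y
  rw [T.τ_pow_eigen T.τy, d.prim.pow_eq_one, one_smul]
theorem σ_τ (z : L) : T.σ (T.τ z) = T.τ (T.σ z) := by
  refine T.v3_ext (T.σ.toRingHom.comp T.τ.toRingEquiv.toRingHom)
    (T.τ.toRingEquiv.toRingHom.comp T.σ.toRingHom) (fun c => ?_) ?_ ?_ z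
  · change T.σ (T.τ _) = T.τ (T.σ _)
    rw [T.σc, AlgEquiv.commutes, AlgEquiv.commutes, T.σc]
  · change T.σ (T.τ _) = T.τ (T.σ _)
    rw [T.τx, T.σx, T.τx]
  · change T.σ (T.τ _) = T.τ (T.σ _)
    rw [T.σy, T.τy, Algebra.smul_def, map_mul, T.σc, d.sζ, T.σy]
theorem v_τ_pow (P : d.Pl) (t : ℕ) (z : L) : T.v P ((T.τ ^ t) z) = T.v (d.act^[t] P) z := by
  induction t generalizing P with
  | zero => rfl
  | succ t ih => rw [T.τ_pow_succ, T.v_τ, ih, Function.iterate_succ_apply]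
theorem ge_τ_pow (P : d.Pl) (t : ℕ) (z : L) (k : ℤ) :
    T.Ge P ((T.τ ^ t) z) k ↔ T.Ge (d.act^[t] P) z k := by
  rw [Ge, Ge, T.v_τ_pow, EmbeddingLike.map_eq_zero_iff]
theorem v_σ_iter (P : d.Pl) (t : ℕ) (z : L) : T.v P (T.σ^[t] z) = T.v (d.sact^[t] P) z := by
  induction t generalizing P with
  | zero => rfl
  | succ t ih => rw [Function.iterate_succ_apply', T.v_σ, ih, Function.iterate_succ_apply]
theorem val_τ {j : Fin d.n} {z : L} {c : 𝕜} (h : T.Val (d.ram j) z c) (t : ℕ) :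
    T.Val (d.ram j) ((T.τ ^ t) z) c := by
  rw [Val, ← (T.τ ^ t).commutes c, ← map_sub, T.ge_τ_pow, d.act_iter_ram]
  exact h
theorem val_τ_div (j : Fin d.n) {z : L} (hz : z ≠ 0) :
    T.Val (d.ram j) (T.τ z / z) (d.ζ ^ T.v (d.ram j) z) := by
  have hy := T.y_ne
  have hζ : d.ζ ≠ 0 := d.prim.ne_zero d.prime.ne_zero
  have hvy : T.v (d.ram j) T.y = 1 := by
    rw [T.v_y_eq, d.rm_ram]
    simp [Dat.ram, Dat.Inf]
  obtain ⟨k, hk⟩ : ∃ k, k = T.v (d.ram j) z := ⟨_, rfl⟩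
  rw [← hk]
  have hu : z / T.y ^ k ≠ 0 := div_ne_zero hz (zpow_ne_zero k hy)
  have hv : T.v (d.ram j) (z / T.y ^ k) = 0 := by
    rw [v_div hz (zpow_ne_zero k hy), v_zpow hy, hvy, hk, mul_one, sub_self]
  obtain ⟨c, hc⟩ := Ge.exists_val (T := T) (P := d.ram j) (z := z / T.y ^ k) (Or.inr hv.ge)
  have hc0 := hc.ne_zero hu hv
  have h1 := ((T.val_τ hc 1).div hc hc0).smul (d.ζ ^ k)
  have h2 : algebraMap 𝕜 L d.ζ ^ k ≠ 0 := zpow_ne_zero k ((_root_.map_ne_zero _).2 hζ)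
  have h3 : T.y ^ k ≠ 0 := zpow_ne_zero k hy
  rw [div_self hc0, mul_one, pow_one, map_div₀, map_zpow₀, T.τy, Algebra.smul_def,
    Algebra.smul_def, mul_zpow, map_zpow₀] at h1
  have e : algebraMap 𝕜 L d.ζ ^ k * (T.τ z / (algebraMap 𝕜 L d.ζ ^ k * T.y ^ k) / (z / T.y ^ k)) =
      T.τ z / z := by
    field_simp
  rwa [e] at h1
theorem val_σ {j : Fin d.n} {z : L} {c : 𝕜} (h : T.Val (d.ram j) z c) (t : ℕ) :
    T.Val (d.ram j) (T.σ^[t] z) (d.s^[t] c) := by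
  induction t with
  | zero => exact h
  | succ t ih =>
    rw [Function.iterate_succ_apply', Function.iterate_succ_apply', Val, ← T.σc, ← map_sub, Ge,
      T.v_σ, d.sact_ram, EmbeddingLike.map_eq_zero_iff]
    exact ih
/-- Sums of powers of the root of unity. -/
theorem sum_ζ (e : ℕ) : ∑ j ∈ range d.ℓ, d.ζ ^ (j * e) = if d.ℓ ∣ e then (d.ℓ : 𝕜) else 0 := by
  simp only [mul_comm _ e, pow_mul]
  split_ifs with h
  · simp [(d.prim.pow_eq_one_iff_dvd e).2 h]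
  · rw [geom_sum_eq (fun h1 => h ((d.prim.pow_eq_one_iff_dvd e).1 h1)), ← pow_mul, mul_comm,
      pow_mul, d.prim.pow_eq_one, one_pow, sub_self, zero_div]
theorem v3_swap (d : Dat 𝕜) {j b : ℕ} (hj : j ≤ d.ℓ) (hb : b ≤ d.ℓ) :
    d.ζ ^ ((d.ℓ - j) * b) = d.ζ ^ (j * (d.ℓ - b)) := by
  apply mul_right_cancel₀ (pow_ne_zero (j * b) (d.prim.ne_zero d.prime.ne_zero))
  rw [← pow_add, ← pow_add, ← add_mul, ← mul_add, Nat.sub_add_cancel hj, Nat.sub_add_cancel hb,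
    mul_comm j, pow_mul, pow_mul, d.prim.pow_eq_one, one_pow, one_pow]
theorem v3_sum (d : Dat 𝕜) {b b' : ℕ} (hb : b < d.ℓ) (hb' : b' < d.ℓ) :
    ∑ j ∈ range d.ℓ, d.ζ ^ (j * (d.ℓ - b + b')) = if b = b' then (d.ℓ : 𝕜) else 0 := by
  rw [sum_ζ]
  refine if_congr ⟨fun h => ?_, fun h => ?_⟩ rfl rfl
  · have := Nat.eq_of_dvd_of_lt_two_mul (by omega) h (by omega)
    omega
  · rw [← h, Nat.sub_add_cancel hb.le]
theorem dft {Y : L} (hY : T.τ Y = d.ζ • Y) (c : ℕ → L) (hc : ∀ b, T.τ (c b) = c b) {b : ℕ}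
    (hb : b < d.ℓ) : (d.ℓ : 𝕜) • (c b * Y ^ b) = ∑ j ∈ range d.ℓ,
      d.ζ ^ ((d.ℓ - j) * b) • (T.τ ^ j) (∑ b' ∈ range d.ℓ, c b' * Y ^ b') := by
  have h1 : ∀ j ∈ range d.ℓ, d.ζ ^ ((d.ℓ - j) * b) • (T.τ ^ j) (∑ b' ∈ range d.ℓ, c b' * Y ^ b') =
      ∑ b' ∈ range d.ℓ, d.ζ ^ (j * (d.ℓ - b + b')) • (c b' * Y ^ b') := by
    intro j hj
    rw [map_sum, smul_sum]
    refine sum_congr rfl fun b' _ => ?_
    rw [map_mul, map_pow, T.τ_pow_fixed (hc b'), T.τ_pow_eigen hY, _root_.smul_pow, mul_smul_comm,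
      smul_smul, ← pow_mul, v3_swap d (mem_range.1 hj).le hb.le, ← pow_add, mul_add]
  rw [sum_congr rfl h1, sum_comm]
  simp only [← sum_smul]
  rw [sum_congr rfl fun b' hb' => by rw [v3_sum d hb (mem_range.1 hb')]]
  simp [hb]
theorem exists_decomp {Y : L} (h0 : Y ≠ 0) (hY : T.τ Y = d.ζ • Y) (z : L) :
    ∃ c : ℕ → L, (∀ b, T.τ (c b) = c b) ∧ z = ∑ b ∈ range d.ℓ, c b * Y ^ b := by
  obtain ⟨q, c, hq, h⟩ := T.span z
  have hζ : algebraMap 𝕜 L d.ζ ≠ 0 := (_root_.map_ne_zero _).2 (d.prim.ne_zero d.prime.ne_zero)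
  have hq' := T.trans q hq
  refine ⟨fun b => aeval T.x (c b) / aeval T.x q * (T.y / Y) ^ b, fun b => ?_, ?_⟩
  · rw [map_mul, map_div₀, map_pow, map_div₀, T.τ_aeval T.τx, T.τ_aeval T.τx, T.τy, hY,
      Algebra.smul_def, Algebra.smul_def, mul_div_mul_left _ _ hζ]
  · rw [eq_div_of_mul_eq hq' ((mul_comm _ _).trans h), sum_div]
    refine sum_congr rfl fun b _ => ?_
    rw [mul_assoc, ← mul_pow, div_mul_cancel₀ _ h0]
    ring
theorem fixed_rat {z : L} (h : T.τ z = z) :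
    ∃ a q : 𝕜[X], q ≠ 0 ∧ aeval T.x q * z = aeval T.x a := by
  obtain ⟨q, c, hq, h1⟩ := T.span z
  refine ⟨c 0, q, hq, ?_⟩
  have h2 := T.dft T.τy (fun b => aeval T.x (c b)) (fun b => T.τ_aeval T.τx _) d.prime.pos
  have h3 : T.τ (aeval T.x q * z) = aeval T.x q * z := by rw [map_mul, h, T.τ_aeval T.τx]
  simp only [← h1, T.τ_pow_fixed h3, mul_zero, pow_zero, one_smul, mul_one, sum_const, card_range,
    ← Nat.cast_smul_eq_nsmul 𝕜] at h2
  exact (smul_right_injective L d.ℓ_ne h2).symm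
theorem dvd_v_fixed {z : L} (hz : z ≠ 0) (h : T.τ z = z) (j : Fin d.n) :
    (d.ℓ : ℤ) ∣ T.v (d.ram j) z := by
  have h1 := T.val_τ_div j hz
  rw [h, div_self hz] at h1
  exact (d.prim.zpow_eq_one_iff_dvd _).1 (h1.unique (val_one _))
/-- Independence of the powers of the deck transformation. -/
theorem indep_τ (c : ℕ → L) (h : ∀ z, ∑ j ∈ range d.ℓ, c j * (T.τ ^ j) z = 0) :
    ∀ j < d.ℓ, c j = 0 := by
  intro i hi
  have h1 : ∀ b, ∑ j ∈ range d.ℓ, d.ζ ^ (b * (d.ℓ - i + j)) • c j = 0 := by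
    intro b
    have h2 : (∑ j ∈ range d.ℓ, d.ζ ^ (b * j) • c j) * T.y ^ b = 0 := by
      rw [← h (T.y ^ b), sum_mul]
      refine sum_congr rfl fun j _ => ?_
      rw [map_pow, T.τ_pow_eigen T.τy, _root_.smul_pow, ← pow_mul, mul_smul_comm, smul_mul_assoc,
        mul_comm b]
    have h3 := (mul_eq_zero.1 h2).resolve_right (pow_ne_zero b T.y_ne)
    simp only [mul_add, pow_add, mul_smul, ← smul_sum, h3, smul_zero]
  have h4 : ∑ b ∈ range d.ℓ, ∑ j ∈ range d.ℓ, d.ζ ^ (b * (d.ℓ - i + j)) • c j = 0 :=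
    sum_eq_zero fun b _ => h1 b
  rw [sum_comm] at h4
  simp only [← sum_smul] at h4
  rw [sum_congr rfl fun j hj => by rw [v3_sum d hi (mem_range.1 hj)]] at h4
  simpa [hi, d.ℓ_ne] using h4

theorem pp_zero (z : L) : T.pp z 0 = 1 := by
  exact prod_range_zero _
theorem pp_succ (z : L) (j : ℕ) : T.pp z (j + 1) = T.pp z j * (T.τ ^ j) z := by
  exact prod_range_succ _ _
theorem pp_succ' (z : L) (j : ℕ) : T.pp z (j + 1) = z * T.τ (T.pp z j) := by
  rw [pp, pp, prod_range_succ', map_prod, mul_comm]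
  simp only [T.τ_pow_succ, pow_zero, AlgEquiv.one_apply]
theorem τ_pp (z : L) : T.τ (T.pp z d.ℓ) = T.pp z d.ℓ := by
  by_cases hz : z = 0
  · have : T.pp z d.ℓ = 0 := prod_eq_zero (mem_range.2 d.prime.pos) (by rw [hz, map_zero])
    rw [this, map_zero]
  · apply mul_left_cancel₀ hz
    rw [← T.pp_succ', T.pp_succ, T.τ_pow_ℓ, mul_comm]
theorem pp_ne {z : L} (hz : z ≠ 0) (j : ℕ) : T.pp z j ≠ 0 := by
  exact prod_ne_zero_iff.2 fun t _ => (_root_.map_ne_zero _).2 hz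
theorem pp_mul (a b : L) (j : ℕ) : T.pp (a * b) j = T.pp a j * T.pp b j := by
  simp only [pp, map_mul, prod_mul_distrib]
theorem pp_div (a b : L) (j : ℕ) : T.pp (a / b) j = T.pp a j / T.pp b j := by
  simp only [pp, map_div₀, prod_div_distrib]
theorem pp_smul (c : 𝕜) (a : L) (j : ℕ) : T.pp (c • a) j = c ^ j • T.pp a j := by
  induction j with
  | zero => simp [pp_zero]
  | succ j ih => rw [pp_succ, pp_succ, ih, map_smul, smul_mul_smul_comm, pow_succ]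
theorem pp_fixed {u : L} (hu : T.τ u = u) (j : ℕ) : T.pp u j = u ^ j := by
  simp only [pp, T.τ_pow_fixed hu, prod_const, card_range]
theorem pp_τ_div {w : L} (hw : w ≠ 0) (j : ℕ) : T.pp (T.τ w / w) j = (T.τ ^ j) w / w := by
  induction j with
  | zero => simp [pp_zero, hw]
  | succ j ih =>
    have : (T.τ ^ j) w ≠ 0 := (_root_.map_ne_zero _).2 hw
    rw [pp_succ, ih, map_div₀, pow_succ, AlgEquiv.mul_apply]
    field_simp
theorem v_pp {z : L} (hz : z ≠ 0) (j : ℕ) (P : d.Pl) :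
    T.v P (T.pp z j) = d.part (fun P => T.v P z) j P := by
  rw [pp, v_prod _ _ fun t _ => (_root_.map_ne_zero _).2 hz]
  exact sum_congr rfl fun t _ => T.v_τ_pow P t z
theorem val_pp {j : Fin d.n} {z : L} {c : 𝕜} (h : T.Val (d.ram j) z c) (t : ℕ) :
    T.Val (d.ram j) (T.pp z t) (c ^ t) := by
  have := val_prod (range t) (fun s => (T.τ ^ s) z) (fun _ => c) fun s _ => T.val_τ h s
  rwa [prod_const, card_range] at this
/-- The averaging identity behind Hilbert's Theorem 90. -/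
theorem avg (z : L) : z * T.τ (∑ k ∈ range d.ℓ, T.pp z k) =
    ∑ k ∈ range d.ℓ, T.pp z k + (T.pp z d.ℓ - 1) := by
  have h1 := sum_range_succ (T.pp z) d.ℓ
  rw [sum_range_succ', T.pp_zero] at h1
  simp only [T.pp_succ'] at h1
  rw [map_sum, mul_sum]
  linear_combination h1
theorem hilbert90 {z : L} (h : T.pp z d.ℓ = 1) : ∃ w, w ≠ 0 ∧ z * T.τ w = w := by
  by_contra hc
  have h0 : ∀ a, ∑ j ∈ range d.ℓ, T.pp z j * (T.τ ^ j) a = 0 := fun a => by
    by_contra ha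
    refine hc ⟨_, ha, ?_⟩
    have h1 := sum_range_succ (fun j => T.pp z j * (T.τ ^ j) a) d.ℓ
    rw [sum_range_succ', T.pp_zero, h, T.τ_pow_ℓ, pow_zero, AlgEquiv.one_apply] at h1
    simp only [T.pp_succ', T.τ_pow_succ, mul_assoc, ← map_mul] at h1
    rw [map_sum, mul_sum]
    linear_combination h1
  exact one_ne_zero ((T.pp_zero z).symm.trans (T.indep_τ _ h0 0 d.prime.pos))

end Vale.Agent.P319.Curve
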